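import Vale.Agent.P032X.H892.LtH
import Vale.Agent.P032X.H286.A73
import Vale.Agent.P032X.Cert.X3.T1
import Vale.Agent.P032X.Cert.X3.W1.WT
import Vale.Agent.P032X.Cert.X3.W1.WQ000
import Vale.Agent.P032X.Cert.X3.W1.WQ001
import Vale.Agent.P032X.Cert.X3.W1.WQ002
import Vale.Agent.P032X.Cert.X3.W1.WQ003

set_option maxRecDepth 1000000

namespace Vale.Agent.P032X.Cert.X3.W1.WH000

open Vale.Agent.P032.H820.K Vale.Agent.P032.H357.MK Vale.Agent.P032.H286.E Vale.Agent.P032.H61 Vale.Agent.P032.H61.TF Vale.Agent.P032.BlkE Vale.Agent.P032.BlkS Vale.Agent.P032.H357 Vale.Agent.P032 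

theorem w0 : Wx (EX xs7) Vale.Agent.P032X.Cert.X3.t1 (Vale.Agent.P032.Fam.fam3 Vale.Agent.P032.Fam.im0) WQ000.W0 := ⟨[0, 8, 16, 24, 32, 40, 48, 4, 12, 20, 28, 36, 44, 52, 60, 68, 76, 84, 92, 100, 108, 116, 124, 132, 140, 148, 156, 164, 10323969, 47530777, 123830273],
  Vale.Agent.P032.Lt.q_of (e' := WQ000.e0) (by decide +kernel) WQ000.q0⟩

theorem w1 : Wx (EX xs7) Vale.Agent.P032X.Cert.X3.t1 (Vale.Agent.P032.Fam.fam3 Vale.Agent.P032.Fam.im0) WQ000.W1 := ⟨[0, 8, 16, 24, 32, 40, 48, 4, 12, 20, 28, 36, 44, 52, 60, 68, 76, 84, 92, 100, 108, 116, 124, 132, 75630681, 75630617, 75630745, 851974, 1376262, 2949126],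
  Vale.Agent.P032.Lt.q_of (e' := WQ000.e1) (by decide +kernel) WQ000.q1⟩

theorem w2 : Wx (EX xs7) Vale.Agent.P032X.Cert.X3.t1 (Vale.Agent.P032.Fam.fam3 Vale.Agent.P032.Fam.im0) WQ000.W2 := ⟨[0, 8, 16, 24, 32, 40, 48, 4, 12, 20, 28, 36, 44, 52, 60, 68, 76, 84, 92, 100, 108, 116, 124, 132, 140, 148, 156, 45695169],
  Vale.Agent.P032.Lt.q_of (e' := WQ000.e2) (by decide +kernel) WQ000.q2⟩

theorem w3 : Wx (EX xs7) Vale.Agent.P032X.Cert.X3.t1 (Vale.Agent.P032.Fam.fam3 Vale.Agent.P032.Fam.im0) WQ000.W3 := ⟨[0, 8, 16, 24, 32, 40, 48, 4, 12, 20, 28, 36, 44, 52, 60, 68, 76, 84, 92, 100, 108, 116, 124, 132, 140, 148, 156, 92405825, 3227649, 860166, 1900550, 2949126],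
  Vale.Agent.P032.Lt.q_of (e' := WQ000.e3) (by decide +kernel) WQ000.q3⟩

theorem w4 : Wx (EX xs7) Vale.Agent.P032X.Cert.X3.t1 (Vale.Agent.P032.Fam.fam3 Vale.Agent.P032.Fam.im0) WQ000.W4 := ⟨[0, 8, 16, 24, 32, 40, 48, 4, 12, 20, 28, 36, 44, 52, 60, 68, 76, 84, 92, 100, 108, 116, 124, 80216257],
  Vale.Agent.P032.Lt.q_of (e' := WQ000.e4) (by decide +kernel) WQ000.q4⟩

theorem w5 : Wx (EX xs7) Vale.Agent.P032X.Cert.X3.t1 (Vale.Agent.P032.Fam.fam3 Vale.Agent.P032.Fam.im0) WQ000.W5 := ⟨[0, 8, 16, 24, 32, 40, 48, 4, 12, 20, 28, 36, 44, 52, 60, 68, 76, 84, 92, 100, 108, 116, 124, 132, 140, 148, 87719937, 71892993, 27754497, 16385, 1900550, 2949126],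
  Vale.Agent.P032.Lt.q_of (e' := WQ000.e5) (by decide +kernel) WQ000.q5⟩

theorem w6 : Wx (EX xs7) Vale.Agent.P032X.Cert.X3.t1 (Vale.Agent.P032.Fam.fam3 Vale.Agent.P032.Fam.im0) WQ000.W6 := ⟨[0, 8, 16, 24, 32, 40, 48, 4, 12, 20, 28, 36, 44, 52, 60, 68, 76, 84, 92, 100, 108, 116, 124, 132, 140, 148, 156, 164, 172, 180, 188, 196, 204, 212, 220, 228, 236, 20972177, 20972049, 125832665, 49222785, 50185241, 15007809, 4197401, 50185625, 56626585, 14683609, 46071873, 125832601],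
  Vale.Agent.P032.Lt.q_of (e' := WQ000.e6) (by decide +kernel) WQ000.q6⟩

theorem w7 : Wx (EX xs7) Vale.Agent.P032X.Cert.X3.t1 (Vale.Agent.P032.Fam.fam3 Vale.Agent.P032.Fam.im0) WQ000.W7 := ⟨[0, 8, 16, 24, 32, 40, 48, 4, 12, 20, 28, 36, 44, 52, 60, 68, 76, 84, 92, 100, 108, 116, 124, 132, 140, 148, 156, 34635777, 84967425, 58654721, 44105729, 71237633, 46399489, 60686337, 125763585, 17858561, 51412993, 16400385, 8982681, 1084889, 101744641, 49954817, 33177601, 132153345, 127795201, 68190209, 35717121, 65044481, 66191361, 1900550, 2949126],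
  Vale.Agent.P032.Lt.q_of (e' := WQ000.e7) (by decide +kernel) WQ000.q7⟩

theorem w8 : Wx (EX xs7) Vale.Agent.P032X.Cert.X3.t1 (Vale.Agent.P032.Fam.fam3 Vale.Agent.P032.Fam.im0) WQ000.W8 := ⟨[0, 8, 16, 24, 32, 40, 48, 4, 12, 20, 28, 36, 44, 52, 60, 68, 76, 84, 92, 100, 108, 116, 124, 132, 140, 148, 22282241, 99090497, 26476609, 26476545, 37519361, 11567105, 131825665, 10485825, 25018369, 42729473, 860166, 1900550, 2949126],
  Vale.Agent.P032.Lt.q_of (e' := WQ000.e8) (by decide +kernel) WQ000.q8⟩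

theorem w9 : Wx (EX xs7) Vale.Agent.P032X.Cert.X3.t1 (Vale.Agent.P032.Fam.fam3 Vale.Agent.P032.Fam.im0) WQ000.W9 := ⟨[0, 8, 16, 24, 32, 40, 48, 4, 12, 20, 28, 36, 44, 52, 60, 68, 76, 84, 92, 100, 108, 116, 124, 132, 140, 42729473, 99090497, 26476609, 26476545, 37519361, 11567105, 104628225, 25018369, 860166, 1900550, 2949126],
  Vale.Agent.P032.Lt.q_of (e' := WQ000.e9) (by decide +kernel) WQ000.q9⟩

theorem w10 : Wx (EX xs7) Vale.Agent.P032X.Cert.X3.t1 (Vale.Agent.P032.Fam.fam3 Vale.Agent.P032.Fam.im0) WQ000.W10 := ⟨[0, 8, 16, 24, 32, 40, 48, 4, 12, 20, 28, 36, 44, 52, 60, 68, 76, 84, 92, 100, 108, 116, 124, 132, 140, 148, 156, 164, 172, 180, 188, 196, 81461249, 64421889, 122421249, 110133401, 70713497, 26247321, 37159065, 20381697, 131530753, 104267777, 43024385, 3604481, 123404289, 14352385],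
  Vale.Agent.P032.Lt.q_of (e' := WQ000.e10) (by decide +kernel) WQ000.q10⟩

theorem w11 : Wx (EX xs7) Vale.Agent.P032X.Cert.X3.t1 (Vale.Agent.P032.Fam.fam3 Vale.Agent.P032.Fam.im0) WQ000.W11 := ⟨[0, 8, 16, 24, 32, 40, 48, 4, 12, 20, 28, 36, 44, 52, 60, 68, 76, 84, 92, 100, 108, 116, 124, 132, 140, 120687705, 108793305, 40455641, 11632705, 73207257, 78745049, 5409689, 10488921, 31982465, 123732417, 1900550, 2949126, 2981894],
  Vale.Agent.P032.Lt.q_of (e' := WQ000.e11) (by decide +kernel) WQ000.q11⟩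

theorem w12 : Wx (EX xs7) Vale.Agent.P032X.Cert.X3.t1 (Vale.Agent.P032.Fam.fam3 Vale.Agent.P032.Fam.im0) WQ000.W12 := ⟨[0, 8, 16, 24, 32, 40, 48, 4, 12, 20, 28, 36, 44, 52, 60, 68, 76, 84, 92, 100, 108, 116, 124, 132, 140, 148, 156, 164, 172, 180, 188, 196, 204, 212, 220, 228, 236, 244, 252, 260, 11010073, 61145153, 92803929, 20972057, 20974865, 2102417, 11010065, 67633305, 66588329, 66586761, 18874777, 11010081, 11010113, 20973345, 20971649, 2102817, 18874433],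
  Vale.Agent.P032.Lt.q_of (e' := WQ000.e12) (by decide +kernel) WQ000.q12⟩

theorem w13 : Wx (EX xs7) Vale.Agent.P032X.Cert.X3.t1 (Vale.Agent.P032.Fam.fam3 Vale.Agent.P032.Fam.im0) WQ000.W13 := ⟨[0, 8, 16, 24, 32, 40, 48, 4, 12, 20, 28, 36, 44, 52, 60, 68, 76, 84, 92, 100, 108, 116, 124, 132, 140, 148, 156, 164, 172, 180, 188, 196, 204, 212, 220, 228, 236, 5260897, 20973345, 41796737, 86245401, 11010081, 20973217, 102760729, 49217833, 130023617, 36700353, 124813377, 11010209, 327686, 851974, 2424838, 2949126],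
  Vale.Agent.P032.Lt.q_of (e' := WQ000.e13) (by decide +kernel) WQ000.q13⟩

theorem w14 : Wx (EX xs7) Vale.Agent.P032X.Cert.X3.t1 (Vale.Agent.P032.Fam.fam3 Vale.Agent.P032.Fam.im0) WQ000.W14 := ⟨[0, 8, 16, 24, 32, 40, 48, 4, 12, 20, 28, 36, 44, 52, 60, 68, 76, 84, 92, 100, 108, 116, 124, 132, 140, 148, 156, 164, 172, 180, 188, 196, 204, 212, 220, 100663297, 47727001, 4620697, 10616833, 77726105, 30949785, 44171673, 1376262, 1900550, 2949126],
  Vale.Agent.P032.Lt.q_of (e' := WQ000.e14) (by decide +kernel) WQ000.q14⟩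

theorem w15 : Wx (EX xs7) Vale.Agent.P032X.Cert.X3.t1 (Vale.Agent.P032.Fam.fam3 Vale.Agent.P032.Fam.im0) WQ000.W15 := ⟨[0, 8, 16, 24, 32, 40, 48, 4, 12, 20, 28, 36, 44, 52, 60, 68, 76, 84, 92, 100, 108, 116, 124, 132, 140, 148, 156, 164, 172, 180, 61869529, 18943449, 93064665, 59510233, 31362521, 38735321, 1674713, 31604801, 327686, 1900550, 1908742, 2949126],
  Vale.Agent.P032.Lt.q_of (e' := WQ000.e15) (by decide +kernel) WQ000.q15⟩

theorem w16 : Wx (EX xs7) Vale.Agent.P032X.Cert.X3.t1 (Vale.Agent.P032.Fam.fam3 Vale.Agent.P032.Fam.im0) WQ000.W16 := ⟨[0, 8, 16, 24, 32, 40, 48, 4, 12, 20, 28, 36, 44, 52, 60, 68, 76, 84, 92, 100, 108, 116, 124, 132, 140, 148, 156, 164, 172, 180, 188, 196, 204, 212, 220, 228, 236, 244, 252, 260, 268, 276, 284, 292, 300, 308, 316, 324, 332, 340, 348, 356, 25021913, 99093913, 99090433, 25018369, 50188737, 10374617, 71303489, 107089305, 132844953, 23134273,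 13795393, 65732609, 1769537, 60165529, 87556097, 8388609, 99289113, 22183937, 27148289, 72515585, 106070017, 127041537, 43925505, 55739265, 38961153, 132775937, 65539545, 132648345, 122850713, 89294865, 68881817, 35327385, 25018433, 43928985, 62770649, 50188353, 65536065, 125832665, 125829185, 127864345, 69730561, 69730369, 69732505, 99289241, 99287297, 25697409, 69732313, 25697433, 107085825, 50185241, 132841473, 10488921, 5409689, 10485825, 25021849, 50185625, 62767105, 125829121, 125832601, 127860993, 99287169, 107085889, 107089369, 87559577, 8392089, 5409345, 10371137, 71305433, 23137753, 13798873, 122847233, 89294497, 35323905, 68878337, 132644865, 65736089, 1773017, 60162049, 127045017, 22187417, 27151769, 72519065, 106073497, 55742233, 38964633, 132779033, 1900550, 2949126],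
  Vale.Agent.P032.Lt.q_of (e' := WQ000.e16) (by decide +kernel) WQ000.q16⟩

theorem w17 : Wx (EX xs7) Vale.Agent.P032X.Cert.X3.t1 (Vale.Agent.P032.Fam.fam3 Vale.Agent.P032.Fam.im0) WQ000.W17 := ⟨[0, 8, 16, 24, 32, 40, 48, 4, 12, 20, 28, 36, 44, 52, 60, 68, 76, 84, 92, 100, 108, 116, 124, 132, 140, 148, 156, 164, 172, 180, 188, 196, 204, 212, 121900825, 100433921, 74514433, 7406529, 89129153, 13894489, 11550913],
  Vale.Agent.P032.Lt.q_of (e' := WQ000.e17) (by decide +kernel) WQ000.q17⟩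

theorem w18 : Wx (EX xs7) Vale.Agent.P032X.Cert.X3.t1 (Vale.Agent.P032.Fam.fam3 Vale.Agent.P032.Fam.im0) WQ000.W18 := ⟨[0, 8, 16, 24, 32, 40, 48, 4, 12, 20, 28, 36, 44, 52, 60, 68, 76, 84, 92, 100, 108, 116, 124, 132, 140, 148, 156, 164, 130023425, 42991617, 97419673, 26214401, 1900550, 2949126],
  Vale.Agent.P032.Lt.q_of (e' := WQ000.e18) (by decide +kernel) WQ000.q18⟩

theorem w19 : Wx (EX xs7) Vale.Agent.P032X.Cert.X3.t1 (Vale.Agent.P032.Fam.fam3 Vale.Agent.P032.Fam.im0) WQ000.W19 := ⟨[0, 8, 16, 24, 32, 40, 48, 4, 12, 20, 28, 36, 44, 52, 60, 68, 76, 84, 92, 100, 108, 116, 124, 132, 140, 148, 156, 164, 172, 180, 188, 196, 204, 212, 53510877, 53515213, 28311961, 128155649, 7963033, 31916441, 74842177, 860166, 1900550, 1908742, 2949126],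
  Vale.Agent.P032.Lt.q_of (e' := WQ000.e19) (by decide +kernel) WQ000.q19⟩

theorem w20 : Wx (EX xs7) Vale.Agent.P032X.Cert.X3.t1 (Vale.Agent.P032.Fam.fam3 Vale.Agent.P032.Fam.im0) WQ000.W20 := ⟨[0, 8, 16, 24, 32, 40, 48, 4, 12, 20, 28, 36, 44, 52, 60, 68, 76, 84, 92, 100, 108, 116, 124, 132, 140, 148, 156, 164, 172, 67960833, 27557889, 45891585, 335878, 860166, 1376262, 1908742, 2424838, 2433030, 2957318],
  Vale.Agent.P032.Lt.q_of (e' := WQ000.e20) (by decide +kernel) WQ000.q20⟩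

theorem w21 : Wx (EX xs7) Vale.Agent.P032X.Cert.X3.t1 (Vale.Agent.P032.Fam.fam3 Vale.Agent.P032.Fam.im0) WQ000.W21 := ⟨[0, 8, 16, 24, 32, 40, 48, 4, 12, 20, 28, 36, 44, 52, 60, 68, 76, 84, 92, 100, 108, 116, 124, 132, 140, 148, 156, 164, 67633409, 128385217, 130023769, 67633281, 128385345, 36700353, 2883649, 102236441, 42618257, 5505025, 56626577, 14683601, 2424838, 2949126],
  Vale.Agent.P032.Lt.q_of (e' := WQ000.e21) (by decide +kernel) WQ000.q21⟩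

theorem w22 : Wx (EX xs7) Vale.Agent.P032X.Cert.X3.t1 (Vale.Agent.P032.Fam.fam3 Vale.Agent.P032.Fam.im0) WQ000.W22 := ⟨[0, 8, 16, 24, 32, 40, 48, 4, 12, 20, 28, 36, 44, 52, 60, 68, 76, 84, 92, 100, 108, 116, 124, 132, 140, 148, 156, 27935129, 11010073, 20972185, 103186841, 130449817, 36077977, 20709441, 19939801, 1311193, 132383129, 39518273, 68419993, 19300417, 10568089, 2523545, 69632409, 63340609],
  Vale.Agent.P032.Lt.q_of (e' := WQ000.e22) (by decide +kernel) WQ000.q22⟩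

theorem w23 : Wx (EX xs7) Vale.Agent.P032X.Cert.X3.t1 (Vale.Agent.P032.Fam.fam3 Vale.Agent.P032.Fam.im0) WQ000.W23 := ⟨[0, 8, 16, 24, 32, 40, 48, 4, 12, 20, 28, 36, 44, 52, 60, 68, 76, 84, 92, 100, 108, 116, 124, 132, 140, 148, 156, 164, 172, 180, 188, 196, 204, 212, 122686617, 80740353, 127270913, 119439449, 102760665, 30671001],
  Vale.Agent.P032.Lt.q_of (e' := WQ000.e23) (by decide +kernel) WQ000.q23⟩

theorem w24 : Wx (EX xs7) Vale.Agent.P032X.Cert.X3.t1 (Vale.Agent.P032.Fam.fam3 Vale.Agent.P032.Fam.im0) WQ000.W24 := ⟨[0, 8, 16, 24, 32, 40, 48, 4, 12, 20, 28, 36, 44, 52, 60, 68, 76, 84, 92, 100, 108, 116, 124, 132, 140, 148, 156, 164, 172, 180, 188, 130025601, 61079553, 67633537, 65294861, 18612633, 1327425],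
  Vale.Agent.P032.Lt.q_of (e' := WQ000.e24) (by decide +kernel) WQ000.q24⟩

theorem w25 : Wx (EX xs7) Vale.Agent.P032X.Cert.X3.t1 (Vale.Agent.P032.Fam.fam3 Vale.Agent.P032.Fam.im0) WQ000.W25 := ⟨[0, 8, 16, 24, 32, 40, 48, 4, 12, 20, 28, 36, 44, 52, 60, 68, 76, 84, 92, 100, 108, 116, 124, 132, 140, 148, 156, 164, 172, 180, 188, 108527617, 6291929, 35061761, 18874777, 67633177, 61079961, 851974, 2424838, 2949126],
  Vale.Agent.P032.Lt.q_of (e' := WQ000.e25) (by decide +kernel) WQ000.q25⟩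

theorem w26 : Wx (EX xs7) Vale.Agent.P032X.Cert.X3.t1 (Vale.Agent.P032.Fam.fam3 Vale.Agent.P032.Fam.im0) WQ000.W26 := ⟨[0, 8, 16, 24, 32, 40, 48, 4, 12, 20, 28, 36, 44, 52, 60, 68, 76, 84, 92, 100, 108, 116, 124, 132, 140, 148, 156, 164, 172, 180, 188, 196, 204, 212, 220, 228, 236, 109576601, 39096809],
  Vale.Agent.P032.Lt.q_of (e' := WQ000.e26) (by decide +kernel) WQ000.q26⟩

theorem w27 : Wx (EX xs7) Vale.Agent.P032X.Cert.X3.t1 (Vale.Agent.P032.Fam.fam3 Vale.Agent.P032.Fam.im0) WQ001.W27 := ⟨[0, 8, 16, 24, 32, 40, 48, 4, 12, 20, 28, 36, 44, 52, 60, 68, 76, 84, 92, 100, 108, 116, 124, 132, 140, 148, 156, 164, 172, 55312793, 28311961, 74842177, 32326041, 36848089, 35520921, 75170201, 49217537, 20725825, 117964801, 41615361, 111771713, 41287681, 557465, 8192409],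
  Vale.Agent.P032.Lt.q_of (e' := WQ001.e27) (by decide +kernel) WQ001.q27⟩

theorem w28 : Wx (EX xs7) Vale.Agent.P032X.Cert.X3.t1 (Vale.Agent.P032.Fam.fam3 Vale.Agent.P032.Fam.im0) WQ001.W28 := ⟨[0, 8, 16, 24, 32, 40, 48, 4, 12, 20, 28, 36, 44, 52, 60, 68, 76, 84, 92, 100, 108, 116, 124, 132, 140, 148, 156, 164, 172, 180, 188, 196, 204, 212, 220, 228, 236, 244, 252, 260, 268, 20976273, 30802265],
  Vale.Agent.P032.Lt.q_of (e' := WQ001.e28) (by decide +kernel) WQ001.q28⟩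

theorem w29 : Wx (EX xs7) Vale.Agent.P032X.Cert.X3.t1 (Vale.Agent.P032.Fam.fam3 Vale.Agent.P032.Fam.im0) WQ001.W29 := ⟨[0, 8, 16, 24, 32, 40, 48, 4, 12, 20, 28, 36, 44, 52, 60, 68, 76, 84, 92, 100, 108, 116, 124, 132, 140, 148, 156, 164, 172, 180, 188, 196, 204, 212, 220, 228, 236, 244, 252, 265689, 120651777, 20529153, 16518617, 73305561, 65555929, 39751129, 92016089, 15027673, 327686, 1900550, 2949126],
  Vale.Agent.P032.Lt.q_of (e' := WQ001.e29) (by decide +kernel) WQ001.q29⟩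

theorem w30 : Wx (EX xs7) Vale.Agent.P032X.Cert.X3.t1 (Vale.Agent.P032.Fam.fam3 Vale.Agent.P032.Fam.im0) WQ001.W30 := ⟨[0, 8, 16, 24, 32, 40, 48, 4, 12, 20, 28, 36, 44, 52, 60, 68, 76, 84, 92, 100, 108, 116, 124, 132, 140, 148, 156, 164, 99749273, 123731969, 130025625, 50331649],
  Vale.Agent.P032.Lt.q_of (e' := WQ001.e30) (by decide +kernel) WQ001.q30⟩

theorem w31 : Wx (EX xs7) Vale.Agent.P032X.Cert.X3.t1 (Vale.Agent.P032.Fam.fam3 Vale.Agent.P032.Fam.im0) WQ001.W31 := ⟨[0, 8, 16, 24, 32, 40, 48, 4, 12, 20, 28, 36, 44, 52, 60, 68, 76, 84, 92, 100, 108, 116, 124, 132, 140, 148, 156, 164, 172, 180, 188, 196, 204, 212, 69730641, 37752985, 129109401, 7605657, 124521881, 1900550, 2949126],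
  Vale.Agent.P032.Lt.q_of (e' := WQ001.e31) (by decide +kernel) WQ001.q31⟩

theorem w32 : Wx (EX xs7) Vale.Agent.P032X.Cert.X3.t1 (Vale.Agent.P032.Fam.fam3 Vale.Agent.P032.Fam.im0) WQ001.W32 := ⟨[0, 8, 16, 24, 32, 40, 48, 4, 12, 20, 28, 36, 44, 52, 60, 68, 76, 84, 92, 100, 108, 116, 124, 132, 140, 148, 156, 164, 172, 60333201, 2514129],
  Vale.Agent.P032.Lt.q_of (e' := WQ001.e32) (by decide +kernel) WQ001.q32⟩

theorem w33 : Wx (EX xs7) Vale.Agent.P032X.Cert.X3.t1 (Vale.Agent.P032.Fam.fam3 Vale.Agent.P032.Fam.im0) WQ001.W33 := ⟨[0, 8, 16, 24, 32, 40, 48, 4, 12, 20, 28, 36, 44, 52, 60, 68, 76, 84, 92, 100, 108, 116, 124, 132, 140, 148, 156, 164, 172, 180, 188, 196, 204, 212, 220, 228, 236, 244, 252, 260, 268, 276, 284, 25018369, 3968385, 14945945, 130023681, 8719873, 8721433, 98568481, 99090497, 22151233, 2883929, 8392089, 59901449, 65536065, 132644865, 68685209, 1576345, 58722065, 130023553,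 130023617, 3968449, 25018433, 8720001, 8722969],
  Vale.Agent.P032.Lt.q_of (e' := WQ001.e33) (by decide +kernel) WQ001.q33⟩

theorem w34 : Wx (EX xs7) Vale.Agent.P032X.Cert.X3.t1 (Vale.Agent.P032.Fam.fam3 Vale.Agent.P032.Fam.im0) WQ001.W34 := ⟨[0, 8, 16, 24, 32, 40, 48, 4, 12, 20, 28, 36, 44, 52, 60, 68, 76, 84, 92, 100, 108, 116, 124, 132, 140, 148, 156, 164, 172, 180, 188, 196, 123732353, 128581633, 860166, 1392646, 1900550, 1908742, 2433030, 2949126],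
  Vale.Agent.P032.Lt.q_of (e' := WQ001.e34) (by decide +kernel) WQ001.q34⟩

theorem w35 : Wx (EX xs7) Vale.Agent.P032X.Cert.X3.t1 (Vale.Agent.P032.Fam.fam3 Vale.Agent.P032.Fam.im0) WQ001.W35 := ⟨[0, 8, 16, 24, 32, 40, 48, 4, 12, 20, 28, 36, 44, 52, 60, 68, 76, 84, 92, 100, 108, 116, 124, 132, 140, 148, 156, 164, 172, 180, 188, 196, 204, 212, 220, 122687001, 69206721, 36700505, 47317017, 102760577, 122686617, 327686, 851974, 1900550, 2949126],
  Vale.Agent.P032.Lt.q_of (e' := WQ001.e35) (by decide +kernel) WQ001.q35⟩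

theorem w36 : Wx (EX xs7) Vale.Agent.P032X.Cert.X3.t1 (Vale.Agent.P032.Fam.fam3 Vale.Agent.P032.Fam.im0) WQ001.W36 := ⟨[0, 8, 16, 24, 32, 40, 48, 4, 12, 20, 28, 36, 44, 52, 60, 68, 76, 84, 92, 100, 108, 116, 124, 132, 140, 148, 156, 164, 172, 180, 188, 196, 204, 212, 220, 80740505, 102760537, 130023617, 80740633, 102760473, 130023769, 1376262, 2949126],
  Vale.Agent.P032.Lt.q_of (e' := WQ001.e36) (by decide +kernel) WQ001.q36⟩

theorem w37 : Wx (EX xs7) Vale.Agent.P032X.Cert.X3.t1 (Vale.Agent.P032.Fam.fam3 Vale.Agent.P032.Fam.im0) WQ001.W37 := ⟨[0, 8, 16, 24, 32, 40, 48, 4, 12, 20, 28, 36, 44, 52, 60, 68, 76, 84, 92, 100, 108, 116, 124, 132, 140, 148, 156, 164, 172, 11010085, 20971653, 31457389, 50185317, 31457325, 20971781, 98567437],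
  Vale.Agent.P032.Lt.q_of (e' := WQ001.e37) (by decide +kernel) WQ001.q37⟩

theorem w38 : Wx (EX xs7) Vale.Agent.P032X.Cert.X3.t1 (Vale.Agent.P032.Fam.fam3 Vale.Agent.P032.Fam.im0) WQ001.W38 := ⟨[0, 8, 16, 24, 32, 40, 48, 4, 12, 20, 28, 36, 44, 52, 60, 68, 76, 84, 92, 100, 108, 116, 124, 132, 140, 148, 156, 164, 20975917, 3086337, 48119873, 104761537, 23987237, 79562945, 62783897, 37652353, 851974, 1376262, 2949126, 2990086],
  Vale.Agent.P032.Lt.q_of (e' := WQ001.e38) (by decide +kernel) WQ001.q38⟩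

theorem w39 : Wx (EX xs7) Vale.Agent.P032X.Cert.X3.t1 (Vale.Agent.P032.Fam.fam3 Vale.Agent.P032.Fam.im0) WQ001.W39 := ⟨[0, 8, 16, 24, 32, 40, 48, 4, 12, 20, 28, 36, 44, 52, 60, 68, 76, 84, 92, 100, 108, 116, 124, 132, 140, 148, 156, 164, 172, 180, 188, 16777217, 40765273],
  Vale.Agent.P032.Lt.q_of (e' := WQ001.e39) (by decide +kernel) WQ001.q39⟩

theorem w40 : Wx (EX xs7) Vale.Agent.P032X.Cert.X3.t1 (Vale.Agent.P032.Fam.fam3 Vale.Agent.P032.Fam.im0) WQ001.W40 := ⟨[0, 8, 16, 24, 32, 40, 48, 4, 12, 20, 28, 36, 44, 52, 60, 68, 76, 84, 92, 100, 108, 116, 124, 132, 140, 148, 156, 164, 172, 180, 188, 196, 204, 212, 220, 228, 236, 244, 5505157, 50184845, 5505221, 50185485],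
  Vale.Agent.P032.Lt.q_of (e' := WQ001.e40) (by decide +kernel) WQ001.q40⟩

theorem w41 : Wx (EX xs7) Vale.Agent.P032X.Cert.X3.t1 (Vale.Agent.P032.Fam.fam3 Vale.Agent.P032.Fam.im0) WQ001.W41 := ⟨[0, 8, 16, 24, 32, 40, 48, 4, 12, 20, 28, 36, 44, 52, 60, 68, 76, 84, 92, 100, 108, 116, 124, 132, 140, 148, 60309849, 49676289, 116785153, 1376262, 1900550],
  Vale.Agent.P032.Lt.q_of (e' := WQ001.e41) (by decide +kernel) WQ001.q41⟩

theorem w42 : Wx (EX xs7) Vale.Agent.P032X.Cert.X3.t1 (Vale.Agent.P032.Fam.fam3 Vale.Agent.P032.Fam.im0) WQ001.W42 := ⟨[0, 8, 16, 24, 32, 40, 48, 4, 12, 20, 28, 36, 44, 52, 60, 68, 76, 84, 92, 100, 108, 116, 23462105, 368646, 1376262, 1900550, 1908742],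
  Vale.Agent.P032.Lt.q_of (e' := WQ001.e42) (by decide +kernel) WQ001.q42⟩

theorem w43 : Wx (EX xs7) Vale.Agent.P032X.Cert.X3.t1 (Vale.Agent.P032.Fam.fam3 Vale.Agent.P032.Fam.im0) WQ001.W43 := ⟨[0, 8, 16, 24, 32, 40, 48, 4, 12, 20, 28, 36, 44, 52, 60, 68, 76, 84, 92, 100, 108, 116, 124, 132, 140, 148, 156, 25329945, 1376262, 1900550, 2424838],
  Vale.Agent.P032.Lt.q_of (e' := WQ001.e43) (by decide +kernel) WQ001.q43⟩

theorem w44 : Wx (EX xs7) Vale.Agent.P032X.Cert.X3.t1 (Vale.Agent.P032.Fam.fam3 Vale.Agent.P032.Fam.im0) WQ001.W44 := ⟨[0, 8, 16, 24, 32, 40, 48, 4, 12, 20, 28, 36, 44, 52, 60, 68, 76, 84, 92, 100, 108, 116, 124, 132, 140, 148, 156, 164, 87654617, 69435393, 2326681, 130976025, 54100185, 121208833, 1376262, 1900550, 1908742, 2424838],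
  Vale.Agent.P032.Lt.q_of (e' := WQ001.e44) (by decide +kernel) WQ001.q44⟩

theorem w45 : Wx (EX xs7) Vale.Agent.P032X.Cert.X3.t1 (Vale.Agent.P032.Fam.fam3 Vale.Agent.P032.Fam.im0) WQ001.W45 := ⟨[0, 8, 16, 24, 32, 40, 48, 4, 12, 20, 28, 36, 44, 52, 60, 68, 76, 84, 92, 100, 108, 116, 124, 98736333],
  Vale.Agent.P032.Lt.q_of (e' := WQ001.e45) (by decide +kernel) WQ001.q45⟩

theorem w46 : Wx (EX xs7) Vale.Agent.P032X.Cert.X3.t1 (Vale.Agent.P032.Fam.fam3 Vale.Agent.P032.Fam.im0) WQ001.W46 := ⟨[0, 8, 16, 24, 32, 40, 48, 4, 12, 20, 28, 36, 44, 52, 60, 68, 76, 84, 92, 100, 108, 116, 124, 132, 140, 148, 156, 41320601, 106364929, 1376262, 1900550],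
  Vale.Agent.P032.Lt.q_of (e' := WQ001.e46) (by decide +kernel) WQ001.q46⟩

theorem w47 : Wx (EX xs7) Vale.Agent.P032X.Cert.X3.t1 (Vale.Agent.P032.Fam.fam3 Vale.Agent.P032.Fam.im0) WQ001.W47 := ⟨[0, 8, 16, 24, 32, 40, 48, 4, 12, 20, 28, 36, 44, 52, 60, 68, 76, 84, 92, 100, 108, 116, 72646657, 851974, 860166, 1900550, 2949126],
  Vale.Agent.P032.Lt.q_of (e' := WQ001.e47) (by decide +kernel) WQ001.q47⟩

theorem w48 : Wx (EX xs7) Vale.Agent.P032X.Cert.X3.t1 (Vale.Agent.P032.Fam.fam3 Vale.Agent.P032.Fam.im0) WQ001.W48 := ⟨[0, 8, 16, 24, 32, 40, 48, 4, 12, 20, 28, 36, 44, 52, 60, 68, 76, 84, 92, 100, 108, 116, 124, 42729473, 103448577, 860166, 1900550, 2424838],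
  Vale.Agent.P032.Lt.q_of (e' := WQ001.e48) (by decide +kernel) WQ001.q48⟩

theorem w49 : Wx (EX xs7) Vale.Agent.P032X.Cert.X3.t1 (Vale.Agent.P032.Fam.fam3 Vale.Agent.P032.Fam.im0) WQ001.W49 := ⟨[0, 8, 16, 24, 32, 40, 48, 4, 12, 20, 28, 36, 44, 52, 60, 68, 76, 84, 92, 100, 42798553],
  Vale.Agent.P032.Lt.q_of (e' := WQ001.e49) (by decide +kernel) WQ001.q49⟩

theorem w50 : Wx (EX xs7) Vale.Agent.P032X.Cert.X3.t1 (Vale.Agent.P032.Fam.fam3 Vale.Agent.P032.Fam.im0) WQ001.W50 := ⟨[0, 8, 16, 24, 32, 40, 48, 4, 12, 20, 28, 36, 44, 52, 60, 68, 76, 84, 92, 100, 108, 116, 124, 132, 44367873, 111476737, 1376262, 2424838],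
  Vale.Agent.P032.Lt.q_of (e' := WQ001.e50) (by decide +kernel) WQ001.q50⟩

theorem w51 : Wx (EX xs7) Vale.Agent.P032X.Cert.X3.t1 (Vale.Agent.P032.Fam.fam3 Vale.Agent.P032.Fam.im0) WQ001.W51 := ⟨[0, 8, 16, 24, 32, 40, 48, 4, 12, 20, 28, 36, 44, 52, 60, 68, 76, 84, 90275841, 95748097, 18650141],
  Vale.Agent.P032.Lt.q_of (e' := WQ001.e51) (by decide +kernel) WQ001.q51⟩

theorem w52 : Wx (EX xs7) Vale.Agent.P032X.Cert.X3.t1 (Vale.Agent.P032.Fam.fam3 Vale.Agent.P032.Fam.im0) WQ001.W52 := ⟨[0, 8, 16, 24, 32, 40, 48, 4, 12, 20, 28, 36, 44, 52, 60, 68, 76, 84, 92, 9570277, 5506501],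
  Vale.Agent.P032.Lt.q_of (e' := WQ001.e52) (by decide +kernel) WQ001.q52⟩

theorem w53 : Wx (EX xs7) Vale.Agent.P032X.Cert.X3.t1 (Vale.Agent.P032.Fam.fam3 Vale.Agent.P032.Fam.im0) WQ001.W53 := ⟨[0, 8, 16, 24, 32, 40, 48, 4, 12, 20, 28, 36, 44, 52, 60, 68, 76, 84, 92, 100, 108, 116, 28246017, 61800449, 95354881, 1908742, 2424838, 2949126],
  Vale.Agent.P032.Lt.q_of (e' := WQ001.e53) (by decide +kernel) WQ001.q53⟩

theorem w54 : Wx (EX xs7) Vale.Agent.P032X.Cert.X3.t1 (Vale.Agent.P032.Fam.fam3 Vale.Agent.P032.Fam.im0) WQ001.W54 := ⟨[0, 8, 16, 24, 32, 40, 48, 4, 12, 20, 28, 36, 44, 52, 60, 68, 76, 84, 92, 100, 108, 116, 124, 132, 140, 148, 156, 164, 172, 128385113, 41419073, 2100673, 2097345, 1966361, 58720473, 58720409, 128385305, 41418753, 1966169, 1900550, 2949126],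
  Vale.Agent.P032.Lt.q_of (e' := WQ001.e54) (by decide +kernel) WQ001.q54⟩

theorem w55 : Wx (EX xs7) Vale.Agent.P032X.Cert.X3.t1 (Vale.Agent.P032.Fam.fam3 Vale.Agent.P032.Fam.im0) WQ001.W55 := ⟨[0, 8, 16, 24, 32, 40, 48, 4, 12, 20, 28, 36, 44, 52, 60, 68, 76, 84, 92, 100, 108, 116, 124, 132, 140, 148, 156, 164, 172, 122686593, 85885017, 1900550, 2949126],
  Vale.Agent.P032.Lt.q_of (e' := WQ001.e55) (by decide +kernel) WQ001.q55⟩

theorem w56 : Wx (EX xs7) Vale.Agent.P032X.Cert.X3.t1 (Vale.Agent.P032.Fam.fam3 Vale.Agent.P032.Fam.im0) WQ001.W56 := ⟨[0, 8, 16, 24, 32, 40, 48, 4, 12, 20, 28, 36, 44, 52, 60, 68, 76, 84, 92, 100, 108, 116, 124, 132, 140, 148, 156, 164, 130023745, 5505121, 58720345, 2097185, 2097313, 41419009, 130023617, 58720281, 5505057, 2100705, 2103713, 41418881],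
  Vale.Agent.P032.Lt.q_of (e' := WQ001.e56) (by decide +kernel) WQ001.q56⟩

theorem w57 : Wx (EX xs7) Vale.Agent.P032X.Cert.X3.t1 (Vale.Agent.P032.Fam.fam3 Vale.Agent.P032.Fam.im0) WQ002.W57 := ⟨[0, 8, 16, 24, 32, 40, 48, 4, 12, 20, 28, 36, 44, 52, 60, 68, 76, 84, 92, 100, 108, 116, 124, 132, 140, 32673561, 69470437, 130287693, 2424838, 2465798, 2949126],
  Vale.Agent.P032.Lt.q_of (e' := WQ002.e57) (by decide +kernel) WQ002.q57⟩

theorem w58 : Wx (EX xs7) Vale.Agent.P032X.Cert.X3.t1 (Vale.Agent.P032.Fam.fam3 Vale.Agent.P032.Fam.im0) WQ002.W58 := ⟨[0, 8, 16, 24, 32, 40, 48, 4, 12, 20, 28, 36, 44, 52, 60, 68, 76, 84, 92, 100, 108, 116, 124, 132, 140, 148, 156, 164, 172, 180, 188, 196, 204, 212, 220, 228, 236, 20974865, 102760793, 66142209, 102760769, 5259265, 97943873, 85753857, 20974737, 66142273, 36700225],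
  Vale.Agent.P032.Lt.q_of (e' := WQ002.e58) (by decide +kernel) WQ002.q58⟩

theorem w59 : Wx (EX xs7) Vale.Agent.P032X.Cert.X3.t1 (Vale.Agent.P032.Fam.fam3 Vale.Agent.P032.Fam.im0) WQ002.W59 := ⟨[0, 8, 16, 24, 32, 40, 48, 4, 12, 20, 28, 36, 44, 52, 60, 68, 76, 84, 92, 100, 108, 116, 124, 132, 140, 148, 156, 164, 172, 180, 188, 196, 204, 212, 220, 228, 236, 244, 129764365, 130023745, 129764429, 122686721, 133169177, 24920089, 98567641, 100827225, 104926313, 36700353, 106335245, 46203365, 69966209, 3031065, 18808857],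
  Vale.Agent.P032.Lt.q_of (e' := WQ002.e59) (by decide +kernel) WQ002.q59⟩

theorem w60 : Wx (EX xs7) Vale.Agent.P032X.Cert.X3.t1 (Vale.Agent.P032.Fam.fam3 Vale.Agent.P032.Fam.im0) WQ002.W60 := ⟨[0, 8, 16, 24, 32, 40, 48, 4, 12, 20, 28, 36, 44, 52, 60, 68, 76, 84, 92, 100, 108, 116, 124, 132, 140, 148, 156, 164, 172, 180, 188, 196, 204, 212, 220, 228, 236, 244, 252, 260, 268, 276, 67633305, 2097153, 2097473, 59900129, 67633369, 67633177, 59900001, 58720409, 100794497, 2097281, 2097409, 67633241, 100794657, 67633497, 49221129, 49217545, 67633433, 59900065, 59900257, 59899937, 22708417, 22708545, 59900097, 20318033, 22708353, 22708225, 20317713, 59900033, 100794465, 59900193, 31457497, 31457369, 100794561, 58720473, 20317409],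
  Vale.Agent.P032.Lt.q_of (e' := WQ002.e60) (by decide +kernel) WQ002.q60⟩

theorem w61 : Wx (EX xs7) Vale.Agent.P032X.Cert.X3.t1 (Vale.Agent.P032.Fam.fam3 Vale.Agent.P032.Fam.im0) WQ002.W61 := ⟨[0, 8, 16, 24, 32, 40, 48, 4, 12, 20, 28, 36, 44, 52, 60, 68, 76, 84, 92, 100, 108, 116, 124, 65929217, 31326209, 98438553, 61869465, 62144577, 2424838, 2949126, 2981894],
  Vale.Agent.P032.Lt.q_of (e' := WQ002.e61) (by decide +kernel) WQ002.q61⟩

theorem w62 : Wx (EX xs7) Vale.Agent.P032X.Cert.X3.t1 (Vale.Agent.P032.Fam.fam3 Vale.Agent.P032.Fam.im0) WQ002.W62 := ⟨[0, 8, 16, 24, 32, 40, 48, 4, 12, 20, 28, 36, 44, 52, 60, 68, 76, 84, 92, 100, 108, 116, 124, 132, 140, 148, 156, 164, 172, 180, 188, 196, 204, 212, 122689793, 83663057, 4201553, 80740697, 36700481, 36700161],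
  Vale.Agent.P032.Lt.q_of (e' := WQ002.e62) (by decide +kernel) WQ002.q62⟩

theorem w63 : Wx (EX xs7) Vale.Agent.P032X.Cert.X3.t1 (Vale.Agent.P032.Fam.fam3 Vale.Agent.P032.Fam.im0) WQ002.W63 := ⟨[0, 8, 16, 24, 32, 40, 48, 4, 12, 20, 28, 36, 44, 52, 60, 68, 76, 84, 92, 100, 108, 116, 124, 132, 140, 148, 133697305, 128974977, 128978841, 2949126],
  Vale.Agent.P032.Lt.q_of (e' := WQ002.e63) (by decide +kernel) WQ002.q63⟩

theorem w64 : Wx (EX xs7) Vale.Agent.P032X.Cert.X3.t1 (Vale.Agent.P032.Fam.fam3 Vale.Agent.P032.Fam.im0) WQ002.W64 := ⟨[0, 8, 16, 24, 32, 40, 48, 4, 12, 20, 28, 36, 44, 52, 60, 68, 76, 84, 92, 100, 108, 116, 124, 132, 140, 148, 99745793, 7605721, 18368785, 22056345, 7605657, 130023681, 133303705, 66194841, 89165209, 69730641, 99745857, 130023553, 50334809, 18369169],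
  Vale.Agent.P032.Lt.q_of (e' := WQ002.e64) (by decide +kernel) WQ002.q64⟩

theorem w65 : Wx (EX xs7) Vale.Agent.P032X.Cert.X3.t1 (Vale.Agent.P032.Fam.fam3 Vale.Agent.P032.Fam.im0) WQ002.W65 := ⟨[0, 8, 16, 24, 32, 40, 48, 4, 12, 20, 28, 36, 44, 52, 60, 68, 76, 84, 92, 100, 108, 116, 124, 132, 140, 148, 156, 164, 172, 180, 188, 196, 126025729, 20976273, 20972185, 61079553, 11010137],
  Vale.Agent.P032.Lt.q_of (e' := WQ002.e65) (by decide +kernel) WQ002.q65⟩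

theorem w66 : Wx (EX xs7) Vale.Agent.P032X.Cert.X3.t1 (Vale.Agent.P032.Fam.fam3 Vale.Agent.P032.Fam.im0) WQ002.W66 := ⟨[0, 8, 16, 24, 32, 40, 48, 4, 12, 20, 28, 36, 44, 52, 60, 68, 76, 84, 92, 100, 108, 116, 124, 132, 140, 148, 133697305, 101187585, 88211777, 128974977, 128978841, 1900550, 2424838, 2949126],
  Vale.Agent.P032.Lt.q_of (e' := WQ002.e66) (by decide +kernel) WQ002.q66⟩

theorem w67 : Wx (EX xs7) Vale.Agent.P032X.Cert.X3.t1 (Vale.Agent.P032.Fam.fam3 Vale.Agent.P032.Fam.im0) WQ002.W67 := ⟨[0, 8, 16, 24, 32, 40, 48, 4, 12, 20, 28, 36, 44, 52, 60, 68, 76, 84, 92, 100, 108, 116, 124, 132, 140, 148, 156, 5507921, 5507537],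
  Vale.Agent.P032.Lt.q_of (e' := WQ002.e67) (by decide +kernel) WQ002.q67⟩

theorem w68 : Wx (EX xs7) Vale.Agent.P032X.Cert.X3.t1 (Vale.Agent.P032.Fam.fam3 Vale.Agent.P032.Fam.im0) WQ002.W68 := ⟨[0, 8, 16, 24, 32, 40, 48, 4, 12, 20, 28, 36, 44, 52, 60, 68, 76, 84, 92, 100, 108, 116, 124, 132, 140, 148, 81920001, 6308801, 48366529, 55050241],
  Vale.Agent.P032.Lt.q_of (e' := WQ002.e68) (by decide +kernel) WQ002.q68⟩

theorem w69 : Wx (EX xs7) Vale.Agent.P032X.Cert.X3.t1 (Vale.Agent.P032.Fam.fam3 Vale.Agent.P032.Fam.im0) WQ002.W69 := ⟨[0, 8, 16, 24, 32, 40, 48, 4, 12, 20, 28, 36, 44, 52, 60, 68, 76, 84, 92, 100, 108, 116, 124, 132, 140, 148, 156, 164, 172, 180, 188, 196, 204, 212, 6291929, 71533017, 1376262, 2424838, 2949126],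
  Vale.Agent.P032.Lt.q_of (e' := WQ002.e69) (by decide +kernel) WQ002.q69⟩

theorem w70 : Wx (EX xs7) Vale.Agent.P032X.Cert.X3.t1 (Vale.Agent.P032.Fam.fam3 Vale.Agent.P032.Fam.im0) WQ002.W70 := ⟨[0, 8, 16, 24, 32, 40, 48, 4, 12, 20, 28, 36, 44, 52, 60, 68, 76, 84, 92, 100, 108, 116, 124, 132, 140, 148, 156, 164, 172, 180, 188, 196, 204, 50085953, 63766785, 111446025, 130025625, 5505025, 1376262, 1384454, 2424838, 2949126],
  Vale.Agent.P032.Lt.q_of (e' := WQ002.e70) (by decide +kernel) WQ002.q70⟩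

theorem w71 : Wx (EX xs7) Vale.Agent.P032X.Cert.X3.t1 (Vale.Agent.P032.Fam.fam3 Vale.Agent.P032.Fam.im0) WQ002.W71 := ⟨[0, 8, 16, 24, 32, 40, 48, 4, 12, 20, 28, 36, 44, 52, 60, 68, 76, 84, 92, 100, 108, 116, 124, 132, 140, 148, 156, 164, 172, 180, 188, 196, 204, 212, 220, 228, 236, 244, 252, 260, 268, 276, 284, 292, 300, 50331649, 22154649, 60165593, 62721433],
  Vale.Agent.P032.Lt.q_of (e' := WQ002.e71) (by decide +kernel) WQ002.q71⟩

theorem w72 : Wx (EX xs7) Vale.Agent.P032X.Cert.X3.t1 (Vale.Agent.P032.Fam.fam3 Vale.Agent.P032.Fam.im0) WQ002.W72 := ⟨[0, 8, 16, 24, 32, 40, 48, 4, 12, 20, 28, 36, 44, 52, 60, 68, 76, 84, 92, 100, 108, 116, 124, 132, 140, 148, 156, 164, 172, 180, 188, 196, 204, 212, 220, 228, 236, 244, 34078721, 78512129, 47727001, 11731353, 48775577, 18415617, 24805849, 1376262, 1900550, 2949126],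
  Vale.Agent.P032.Lt.q_of (e' := WQ002.e72) (by decide +kernel) WQ002.q72⟩

theorem w73 : Wx (EX xs7) Vale.Agent.P032X.Cert.X3.t1 (Vale.Agent.P032.Fam.fam3 Vale.Agent.P032.Fam.im0) WQ002.W73 := ⟨[0, 8, 16, 24, 32, 40, 48, 4, 12, 20, 28, 36, 44, 52, 60, 68, 76, 84, 92, 100, 108, 116, 124, 132, 12582913, 54525953, 121639873, 72679425, 5570561],
  Vale.Agent.P032.Lt.q_of (e' := WQ002.e73) (by decide +kernel) WQ002.q73⟩

theorem w74 : Wx (EX xs7) Vale.Agent.P032X.Cert.X3.t1 (Vale.Agent.P032.Fam.fam3 Vale.Agent.P032.Fam.im0) WQ002.W74 := ⟨[0, 8, 16, 24, 32, 40, 48, 4, 12, 20, 28, 36, 44, 52, 60, 68, 76, 84, 92, 100, 108, 116, 124, 132, 140, 148, 156, 164, 172, 180, 188, 130023553, 34095105, 31592001, 527833, 38538649, 130023425, 851974, 1376262, 1900550, 2949126],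
  Vale.Agent.P032.Lt.q_of (e' := WQ002.e74) (by decide +kernel) WQ002.q74⟩

theorem w75 : Wx (EX xs7) Vale.Agent.P032X.Cert.X3.t1 (Vale.Agent.P032.Fam.fam3 Vale.Agent.P032.Fam.im0) WQ002.W75 := ⟨[0, 8, 16, 24, 32, 40, 48, 4, 12, 20, 28, 36, 44, 52, 60, 68, 76, 84, 92, 100, 108, 116, 124, 132, 140, 148, 156, 71303361, 71305305, 5409345, 130023681, 36175873, 99289113, 92799193, 50188353, 7602177, 105742401, 107085889, 53513893, 105745433, 5508553, 56623169, 46075289, 14680065, 130025625, 53514277, 860166, 2424838, 2949126],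
  Vale.Agent.P032.Lt.q_of (e' := WQ002.e75) (by decide +kernel) WQ002.q75⟩

theorem w76 : Wx (EX xs7) Vale.Agent.P032X.Cert.X3.t1 (Vale.Agent.P032.Fam.fam3 Vale.Agent.P032.Fam.im0) WQ002.W76 := ⟨[0, 8, 16, 24, 32, 40, 48, 4, 12, 20, 28, 36, 44, 52, 60, 68, 76, 84, 92, 100, 108, 116, 124, 132, 140, 148, 156, 164, 172, 180, 188, 196, 22052865, 57413017, 7602241, 63177985, 27541505, 83820545, 124518401, 100925441, 46399489, 47202305, 36978689, 3424257, 106823681, 15466497, 63455233, 39718297, 79953921, 73272729, 6160449, 60686337, 127795201, 123535361, 59313561, 105680281, 42532865, 33816577, 7602177, 860166, 1900550, 2949126],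
  Vale.Agent.P032.Lt.q_of (e' := WQ002.e76) (by decide +kernel) WQ002.q76⟩

theorem w77 : Wx (EX xs7) Vale.Agent.P032X.Cert.X3.t1 (Vale.Agent.P032.Fam.fam3 Vale.Agent.P032.Fam.im0) WQ002.W77 := ⟨[0, 8, 16, 24, 32, 40, 48, 4, 12, 20, 28, 36, 44, 52, 60, 68, 76, 84, 92, 100, 108, 116, 124, 132, 140, 148, 156, 164, 172, 180, 188, 33852825, 67407257, 93195673, 133729689, 50630041, 65424793, 17075609, 298393, 18238873, 35016089, 100961689, 1461657, 51793305, 84184473, 130023681, 860166, 2424838, 2433030, 2949126],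
  Vale.Agent.P032.Lt.q_of (e' := WQ002.e77) (by decide +kernel) WQ002.q77⟩

theorem w78 : Wx (EX xs7) Vale.Agent.P032X.Cert.X3.t1 (Vale.Agent.P032.Fam.fam3 Vale.Agent.P032.Fam.im0) WQ002.W78 := ⟨[0, 8, 16, 24, 32, 40, 48, 4, 12, 20, 28, 36, 44, 52, 60, 68, 76, 84, 92, 100, 108, 116, 124, 132, 140, 148, 132022273, 106434009, 64913409],
  Vale.Agent.P032.Lt.q_of (e' := WQ002.e78) (by decide +kernel) WQ002.q78⟩

theorem w79 : Wx (EX xs7) Vale.Agent.P032X.Cert.X3.t1 (Vale.Agent.P032.Fam.fam3 Vale.Agent.P032.Fam.im0) WQ002.W79 := ⟨[0, 8, 16, 24, 32, 40, 48, 4, 12, 20, 28, 36, 44, 52, 60, 68, 76, 84, 92, 100, 108, 116, 124, 132, 140, 148, 156, 83168665, 16059801, 125111705, 58002841],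
  Vale.Agent.P032.Lt.q_of (e' := WQ002.e79) (by decide +kernel) WQ002.q79⟩

theorem w80 : Wx (EX xs7) Vale.Agent.P032X.Cert.X3.t1 (Vale.Agent.P032.Fam.fam3 Vale.Agent.P032.Fam.im0) WQ002.W80 := ⟨[0, 8, 16, 24, 32, 40, 48, 4, 12, 20, 28, 36, 44, 52, 60, 68, 76, 84, 92, 100, 108, 116, 124, 132, 140, 148, 18875521, 11010305, 18875137, 11010177, 122688129, 122689665, 1376262, 2949126],
  Vale.Agent.P032.Lt.q_of (e' := WQ002.e80) (by decide +kernel) WQ002.q80⟩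

theorem w81 : Wx (EX xs7) Vale.Agent.P032X.Cert.X3.t1 (Vale.Agent.P032.Fam.fam3 Vale.Agent.P032.Fam.im0) WQ002.W81 := ⟨[0, 8, 16, 24, 32, 40, 48, 4, 12, 20, 28, 36, 44, 52, 60, 68, 76, 84, 92, 100, 108, 116, 124, 132, 140, 148, 156, 164, 172, 180, 3146049, 851974, 1376262, 2949126],
  Vale.Agent.P032.Lt.q_of (e' := WQ002.e81) (by decide +kernel) WQ002.q81⟩

theorem w82 : Wx (EX xs7) Vale.Agent.P032X.Cert.X3.t1 (Vale.Agent.P032.Fam.fam3 Vale.Agent.P032.Fam.im0) WQ002.W82 := ⟨[0, 8, 16, 24, 32, 40, 48, 4, 12, 20, 28, 36, 44, 52, 60, 68, 76, 84, 92, 100, 108, 116, 124, 132, 140, 148, 156, 164, 172, 180, 188, 196, 204, 212, 97255425, 344070, 1392646, 2424838, 2441222],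
  Vale.Agent.P032.Lt.q_of (e' := WQ002.e82) (by decide +kernel) WQ002.q82⟩

theorem w83 : Wx (EX xs7) Vale.Agent.P032X.Cert.X3.t1 (Vale.Agent.P032.Fam.fam3 Vale.Agent.P032.Fam.im0) WQ002.W83 := ⟨[0, 8, 16, 24, 32, 40, 48, 4, 12, 20, 28, 36, 44, 52, 60, 68, 76, 84, 92, 100, 108, 116, 124, 132, 140, 148, 156, 164, 172, 180, 188, 196, 204, 31985817, 47287769, 2424838, 2949126],
  Vale.Agent.P032.Lt.q_of (e' := WQ002.e83) (by decide +kernel) WQ002.q83⟩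

theorem w84 : Wx (EX xs7) Vale.Agent.P032X.Cert.X3.t1 (Vale.Agent.P032.Fam.fam3 Vale.Agent.P032.Fam.im0) WQ002.W84 := ⟨[0, 8, 16, 24, 32, 40, 48, 4, 12, 20, 28, 36, 44, 52, 60, 68, 76, 84, 92, 100, 108, 116, 124, 132, 140, 148, 156, 164, 172, 180, 188, 196, 204, 212, 130974977, 10371073, 69730305, 92802241, 39783961, 62770585, 126881177, 8716441, 43094145, 49351757, 69730433, 63442329, 106892825, 75828633, 99287041, 8719745, 94309785, 127864473, 85854745, 107089369, 29691353, 130354649, 105288665, 99287169, 127860993, 73334849, 860166, 2424838, 2949126],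
  Vale.Agent.P032.Lt.q_of (e' := WQ002.e84) (by decide +kernel) WQ002.q84⟩

theorem w85 : Wx (EX xs7) Vale.Agent.P032X.Cert.X3.t1 (Vale.Agent.P032.Fam.fam3 Vale.Agent.P032.Fam.im0) WQ002.W85 := ⟨[0, 8, 16, 24, 32, 40, 48, 4, 12, 20, 28, 36, 44, 52, 60, 68, 76, 84, 92, 100, 108, 116, 124, 132, 140, 148, 156, 164, 172, 180, 188, 196, 204, 212, 110493697, 125730881, 851974, 892934, 1376262, 2424838, 2949126],
  Vale.Agent.P032.Lt.q_of (e' := WQ002.e85) (by decide +kernel) WQ002.q85⟩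

theorem w86 : Wx (EX xs7) Vale.Agent.P032X.Cert.X3.t1 (Vale.Agent.P032.Fam.fam3 Vale.Agent.P032.Fam.im0) WQ003.W86 := ⟨[0, 8, 16, 24, 32, 40, 48, 4, 12, 20, 28, 36, 44, 52, 60, 68, 76, 84, 92, 100, 108, 116, 124, 132, 140, 148, 156, 164, 172, 180, 188, 196, 204, 46222745, 39980505, 99093913, 39980441, 25021849, 87556097, 4197401, 8388609, 43925505, 43928985, 73334849, 124158017, 8719745, 127860993, 108691521, 22183937, 27148289, 132775937, 41586073, 106070017, 85854745, 72515585, 38961153, 55739265, 851974, 1900550, 2457606, 2949126],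
  Vale.Agent.P032.Lt.q_of (e' := WQ003.e86) (by decide +kernel) WQ003.q86⟩

theorem w87 : Wx (EX xs7) Vale.Agent.P032X.Cert.X3.t1 (Vale.Agent.P032.Fam.fam3 Vale.Agent.P032.Fam.im0) WQ003.W87 := ⟨[0, 8, 16, 24, 32, 40, 48, 4, 12, 20, 28, 36, 44, 52, 60, 68, 76, 84, 92, 100, 108, 116, 124, 132, 140, 148, 156, 164, 172, 180, 188, 130780633, 19680729, 860166, 2424838, 2433030, 2949126],
  Vale.Agent.P032.Lt.q_of (e' := WQ003.e87) (by decide +kernel) WQ003.q87⟩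

theorem w88 : Wx (EX xs7) Vale.Agent.P032X.Cert.X3.t1 (Vale.Agent.P032.Fam.fam3 Vale.Agent.P032.Fam.im0) WQ003.W88 := ⟨[0, 8, 16, 24, 32, 40, 48, 4, 12, 20, 28, 36, 44, 52, 60, 68, 76, 84, 92, 100, 108, 116, 124, 132, 140, 148, 87719937, 48381953, 117997569, 14745601, 50888705, 84443137, 59129857],
  Vale.Agent.P032.Lt.q_of (e' := WQ003.e88) (by decide +kernel) WQ003.q88⟩

theorem w89 : Wx (EX xs7) Vale.Agent.P032X.Cert.X3.t1 (Vale.Agent.P032.Fam.fam3 Vale.Agent.P032.Fam.im0) WQ003.W89 := ⟨[0, 8, 16, 24, 32, 40, 48, 4, 12, 20, 28, 36, 44, 52, 60, 68, 76, 84, 92, 100, 108, 116, 124, 132, 140, 148, 156, 164, 172, 53515981, 61869529, 18943449, 127631361, 41520601, 24743385, 108629465, 851974, 1900550, 1908742, 2949126],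
  Vale.Agent.P032.Lt.q_of (e' := WQ003.e89) (by decide +kernel) WQ003.q89⟩

theorem w90 : Wx (EX xs7) Vale.Agent.P032X.Cert.X3.t1 (Vale.Agent.P032.Fam.fam3 Vale.Agent.P032.Fam.im0) WQ003.W90 := ⟨[0, 8, 16, 24, 32, 40, 48, 4, 12, 20, 28, 36, 44, 52, 60, 68, 76, 84, 92, 100, 108, 116, 124, 132, 140, 148, 156, 164, 172, 25021849, 73338329, 50185241, 69732249, 107089369, 108691521, 62770585, 124158017, 10371073, 851974, 2424838, 2949126],
  Vale.Agent.P032.Lt.q_of (e' := WQ003.e90) (by decide +kernel) WQ003.q90⟩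

theorem w91 : Wx (EX xs7) Vale.Agent.P032X.Cert.X3.t1 (Vale.Agent.P032.Fam.fam3 Vale.Agent.P032.Fam.im0) WQ003.W91 := ⟨[0, 8, 16, 24, 32, 40, 48, 4, 12, 20, 28, 36, 44, 52, 60, 68, 76, 84, 92, 100, 108, 116, 124, 132, 140, 148, 156, 164, 172, 180, 188, 196, 204, 53510749, 103186905, 20709377, 19939737, 19300353, 130449881, 36078041, 10568153, 2523609, 69632473, 39518209, 63340545, 10060249, 68420057, 132383193, 1311129],
  Vale.Agent.P032.Lt.q_of (e' := WQ003.e91) (by decide +kernel) WQ003.q91⟩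

theorem w92 : Wx (EX xs7) Vale.Agent.P032X.Cert.X3.t1 (Vale.Agent.P032.Fam.fam3 Vale.Agent.P032.Fam.im0) WQ003.W92 := ⟨[0, 8, 16, 24, 32, 40, 48, 4, 12, 20, 28, 36, 44, 52, 60, 68, 76, 84, 92, 100, 108, 116, 124, 132, 140, 148, 156, 164, 172, 180, 188, 27983873, 27984025, 3817473, 50266113, 3817625, 50266265],
  Vale.Agent.P032.Lt.q_of (e' := WQ003.e92) (by decide +kernel) WQ003.q92⟩

theorem w93 : Wx (EX xs7) Vale.Agent.P032X.Cert.X3.t1 (Vale.Agent.P032.Fam.fam3 Vale.Agent.P032.Fam.im0) WQ003.W93 := ⟨[0, 8, 16, 24, 32, 40, 48, 4, 12, 20, 28, 36, 44, 52, 60, 68, 76, 84, 92, 100, 108, 116, 124, 132, 140, 148, 156, 164, 172, 180, 188, 196, 204, 212, 86409217, 860166, 2424838, 2949126],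
  Vale.Agent.P032.Lt.q_of (e' := WQ003.e93) (by decide +kernel) WQ003.q93⟩

theorem w94 : Wx (EX xs7) Vale.Agent.P032X.Cert.X3.t1 (Vale.Agent.P032.Fam.fam3 Vale.Agent.P032.Fam.im0) WQ003.W94 := ⟨[0, 8, 16, 24, 32, 40, 48, 4, 12, 20, 28, 36, 44, 52, 60, 68, 76, 84, 92, 100, 108, 116, 124, 132, 140, 148, 156, 164, 172, 180, 188, 196, 124059649, 73695233, 50188353, 64753433, 50188737, 73699097, 64749569, 67239937, 126353409, 12062721, 110231553, 112525313, 15007745, 12058905, 130973697, 20070401, 113410049, 113413913, 110235417, 51924761, 15011225, 133955585, 51920897, 133959449, 20074265, 4276225, 54165505, 2949126],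
  Vale.Agent.P032.Lt.q_of (e' := WQ003.e94) (by decide +kernel) WQ003.q94⟩

theorem w95 : Wx (EX xs7) Vale.Agent.P032X.Cert.X3.t1 (Vale.Agent.P032.Fam.fam3 Vale.Agent.P032.Fam.im0) WQ003.W95 := ⟨[0, 8, 16, 24, 32, 40, 48, 4, 12, 20, 28, 36, 44, 52, 60, 68, 76, 84, 92, 100, 108, 116, 124, 132, 140, 96210393, 27544985, 64884121, 113511833, 79957401, 76742657, 30690713, 89951641, 851974, 1376262, 1900550, 2949126],
  Vale.Agent.P032.Lt.q_of (e' := WQ003.e95) (by decide +kernel) WQ003.q95⟩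

theorem w96 : Wx (EX xs7) Vale.Agent.P032X.Cert.X3.t1 (Vale.Agent.P032.Fam.fam3 Vale.Agent.P032.Fam.im0) WQ003.W96 := ⟨[0, 8, 16, 24, 32, 40, 48, 4, 12, 20, 28, 36, 44, 52, 60, 68, 76, 84, 92, 100, 108, 116, 124, 132, 140, 148, 156, 164, 172, 180, 188, 196, 204, 212, 220, 228, 236, 527833, 47467929, 111675433, 1900550, 2949126],
  Vale.Agent.P032.Lt.q_of (e' := WQ003.e96) (by decide +kernel) WQ003.q96⟩

theorem w97 : Wx (EX xs7) Vale.Agent.P032X.Cert.X3.t1 (Vale.Agent.P032.Fam.fam3 Vale.Agent.P032.Fam.im0) WQ003.W97 := ⟨[0, 8, 16, 24, 32, 40, 48, 4, 12, 20, 28, 36, 44, 52, 60, 68, 76, 84, 92, 100, 108, 116, 124, 132, 140, 148, 156, 164, 172, 180, 188, 196, 204, 212, 220, 228, 236, 244, 252, 31982913, 8388673, 87556161, 6225985, 88673753, 96997337, 29887961],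
  Vale.Agent.P032.Lt.q_of (e' := WQ003.e97) (by decide +kernel) WQ003.q97⟩

theorem w98 : Wx (EX xs7) Vale.Agent.P032X.Cert.X3.t1 (Vale.Agent.P032.Fam.fam3 Vale.Agent.P032.Fam.im0) WQ003.W98 := ⟨[0, 8, 16, 24, 32, 40, 48, 4, 12, 20, 28, 36, 44, 52, 60, 68, 76, 84, 92, 100, 108, 116, 124, 132, 140, 148, 130023553, 104992217, 73662529, 11272409, 860166, 1900550, 2949126],
  Vale.Agent.P032.Lt.q_of (e' := WQ003.e98) (by decide +kernel) WQ003.q98⟩

theorem w99 : Wx (EX xs7) Vale.Agent.P032X.Cert.X3.t1 (Vale.Agent.P032.Fam.fam3 Vale.Agent.P032.Fam.im0) WQ003.W99 := ⟨[0, 8, 16, 24, 32, 40, 48, 4, 12, 20, 28, 36, 44, 52, 60, 68, 76, 84, 92, 100, 108, 116, 124, 132, 140, 148, 156, 2097241, 31457369, 49221289, 104202241, 93195737, 120131137, 27282905],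
  Vale.Agent.P032.Lt.q_of (e' := WQ003.e99) (by decide +kernel) WQ003.q99⟩

def L : List (List ℕ) := [WQ000.W0, WQ000.W1, WQ000.W2, WQ000.W3, WQ000.W4, WQ000.W5, WQ000.W6, WQ000.W7, WQ000.W8, WQ000.W9, WQ000.W10, WQ000.W11, WQ000.W12, WQ000.W13, WQ000.W14, WQ000.W15, WQ000.W16, WQ000.W17, WQ000.W18, WQ000.W19, WQ000.W20, WQ000.W21, WQ000.W22, WQ000.W23, WQ000.W24, WQ000.W25, WQ000.W26, WQ001.W27, WQ001.W28, WQ001.W29, WQ001.W30, WQ001.W31, WQ001.W32, WQ001.W33, WQ001.W34, WQ001.W35, WQ001.W36, WQ001.W37, WQ001.W38, WQ001.W39, WQ001.W40, WQ001.W41, WQ001.W42, WQ001.W43, WQ001.W44, WQ001.W45, WQ001.W46, WQ001.W47, WQ001.W48, WQ001.W49, WQ001.W50, WQ001.W51, WQ001.W52, WQ001.W53, WQ001.W54, WQ001.W55, WQ001.W56, WQ002.W57, WQ002.W58, WQ002.W59, WQ002.W60, WQ002.W61, WQ002.W62, WQ002.W63, WQ002.W64, WQ002.W65, WQ002.W66, WQ002.W67, WQ002.W68, WQ002.W69, WQ002.W70, WQ002.W71, WQ002.W72, WQ002.W73,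 WQ002.W74, WQ002.W75, WQ002.W76, WQ002.W77, WQ002.W78, WQ002.W79, WQ002.W80, WQ002.W81, WQ002.W82, WQ002.W83, WQ002.W84, WQ002.W85, WQ003.W86, WQ003.W87, WQ003.W88, WQ003.W89, WQ003.W90, WQ003.W91, WQ003.W92, WQ003.W93, WQ003.W94, WQ003.W95, WQ003.W96, WQ003.W97, WQ003.W98, WQ003.W99]

theorem all : ∀ P ∈ L, Wx (EX xs7) Vale.Agent.P032X.Cert.X3.t1 (Vale.Agent.P032.Fam.fam3 Vale.Agent.P032.Fam.im0) P := wx_cons w0 (wx_cons w1 (wx_cons w2 (wx_cons w3 (wx_cons w4 (wx_cons w5 (wx_cons w6 (wx_cons w7 (wx_cons w8 (wx_cons w9 (wx_cons w10 (wx_cons w11 (wx_cons w12 (wx_cons w13 (wx_cons w14 (wx_cons w15 (wx_cons w16 (wx_cons w17 (wx_cons w18 (wx_cons w19 (wx_cons w20 (wx_cons w21 (wx_cons w22 (wx_cons w23 (wx_cons w24 (wx_cons w25 (wx_cons w26 (wx_cons w27 (wx_cons w28 (wx_cons w29 (wx_cons w30 (wx_cons w31 (wx_cons w32 (wx_cons w33 (wx_cons w34 (wx_cons w35 (wx_cons w36 (wx_cons w37 (wx_cons w38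 (wx_cons w39 (wx_cons w40 (wx_cons w41 (wx_cons w42 (wx_cons w43 (wx_cons w44 (wx_cons w45 (wx_cons w46 (wx_cons w47 (wx_cons w48 (wx_cons w49 (wx_cons w50 (wx_cons w51 (wx_cons w52 (wx_cons w53 (wx_cons w54 (wx_cons w55 (wx_cons w56 (wx_cons w57 (wx_cons w58 (wx_cons w59 (wx_cons w60 (wx_cons w61 (wx_cons w62 (wx_cons w63 (wx_cons w64 (wx_cons w65 (wx_cons w66 (wx_cons w67 (wx_cons w68 (wx_cons w69 (wx_cons w70 (wx_cons w71 (wx_cons w72 (wx_cons w73 (wx_cons w74 (wx_cons w75 (wx_cons w76 (wx_cons w77 (wx_cons w78 (wx_cons w79 (wx_cons w80 (wx_cons w81 (wx_cons w82 (wx_cons w83 (wx_cons w84 (wx_cons w85 (wx_cons w86 (wx_cons w87 (wx_cons w88 (wx_cons w89 (wx_cons w90 (wx_cons w91 (wx_cons w92 (wx_cons w93 (wx_cons w94 (wx_cons w95 (wx_cons w96 (wx_cons w97 (wx_cons w98 (wx_cons w99 wx_nil)))))))))))))))))))))))))))))))))))))))))))))))))))))))))))))))))))))))))))))))))))))))))))))))))))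

theorem ch : chT 73 73 TCm Vale.Agent.P032X.Cert.X3.W1.sW_000 L = true := by decide +kernel

end Vale.Agent.P032X.Cert.X3.W1.WH000
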