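import Vale.Agent.P032X.H892.LtH
import Vale.Agent.P032X.H286.A73
import Vale.Agent.P032X.Cert.X3.T1
import Vale.Agent.P032X.Cert.X3.W1.WT
import Vale.Agent.P032X.Cert.X3.W1.WQ008
import Vale.Agent.P032X.Cert.X3.W1.WQ009
import Vale.Agent.P032X.Cert.X3.W1.WQ010
import Vale.Agent.P032X.Cert.X3.W1.WQ011

set_option maxRecDepth 1000000

namespace Vale.Agent.P032X.Cert.X3.W1.WH002

open Vale.Agent.P032.H820.K Vale.Agent.P032.H357.MK Vale.Agent.P032.H286.E Vale.Agent.P032.H61 Vale.Agent.P032.H61.TF Vale.Agent.P032.BlkE Vale.Agent.P032.BlkS Vale.Agent.P032.H357 Vale.Agent.P032 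

theorem w200 : Wx (EX xs7) Vale.Agent.P032X.Cert.X3.t1 (Vale.Agent.P032.Fam.fam3 Vale.Agent.P032.Fam.im0) WQ008.W200 := ⟨[0, 8, 16, 24, 32, 40, 48, 4, 12, 20, 28, 36, 44, 52, 60, 68, 76, 84, 92, 100, 108, 116, 124, 132, 140, 148, 156, 164, 172, 180, 5505249, 85854745, 23203225, 89394585, 39980441, 116300353, 851974, 860166, 1392646, 1900550, 1908742, 2433030, 2949126],
  Vale.Agent.P032.Lt.q_of (e' := WQ008.e200) (by decide +kernel) WQ008.q200⟩

theorem w201 : Wx (EX xs7) Vale.Agent.P032X.Cert.X3.t1 (Vale.Agent.P032.Fam.fam3 Vale.Agent.P032.Fam.im0) WQ008.W201 := ⟨[0, 8, 16, 24, 32, 40, 48, 4, 12, 20, 28, 36, 44, 52, 60, 68, 76, 84, 92, 100, 108, 116, 124, 132, 140, 148, 156, 164, 172, 180, 188, 196, 122686617, 69206721, 36700505, 47317017, 1900550, 2949126],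
  Vale.Agent.P032.Lt.q_of (e' := WQ008.e201) (by decide +kernel) WQ008.q201⟩

theorem w202 : Wx (EX xs7) Vale.Agent.P032X.Cert.X3.t1 (Vale.Agent.P032.Fam.fam3 Vale.Agent.P032.Fam.im0) WQ008.W202 := ⟨[0, 8, 16, 24, 32, 40, 48, 4, 12, 20, 28, 36, 44, 52, 60, 68, 76, 84, 92, 100, 108, 116, 124, 132, 140, 148, 156, 164, 172, 180, 188, 19939393, 31457889, 20709849, 6832601, 54264281, 87818713, 67633729],
  Vale.Agent.P032.Lt.q_of (e' := WQ008.e202) (by decide +kernel) WQ008.q202⟩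

theorem w203 : Wx (EX xs7) Vale.Agent.P032X.Cert.X3.t1 (Vale.Agent.P032.Fam.fam3 Vale.Agent.P032.Fam.im0) WQ008.W203 := ⟨[0, 8, 16, 24, 32, 40, 48, 4, 12, 20, 28, 36, 44, 52, 60, 68, 76, 84, 92, 100, 108, 116, 124, 132, 140, 148, 156, 164, 172, 180, 188, 196, 204, 212, 220, 228, 236, 244, 252, 4719001, 100663297, 63275417, 96829849],
  Vale.Agent.P032.Lt.q_of (e' := WQ008.e203) (by decide +kernel) WQ008.q203⟩

theorem w204 : Wx (EX xs7) Vale.Agent.P032X.Cert.X3.t1 (Vale.Agent.P032.Fam.fam3 Vale.Agent.P032.Fam.im0) WQ008.W204 := ⟨[0, 8, 16, 24, 32, 40, 48, 4, 12, 20, 28, 36, 44, 52, 60, 68, 76, 84, 92, 100, 108, 116, 124, 132, 140, 148, 156, 164, 172, 180, 188, 196, 204, 212, 220, 228, 236, 98075033, 36847617, 8011841, 64520193, 30965825, 13467649, 54346201],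
  Vale.Agent.P032.Lt.q_of (e' := WQ008.e204) (by decide +kernel) WQ008.q204⟩

theorem w205 : Wx (EX xs7) Vale.Agent.P032X.Cert.X3.t1 (Vale.Agent.P032.Fam.fam3 Vale.Agent.P032.Fam.im0) WQ008.W205 := ⟨[0, 8, 16, 24, 32, 40, 48, 4, 12, 20, 28, 36, 44, 52, 60, 68, 76, 84, 92, 100, 108, 116, 124, 132, 140, 148, 156, 164, 172, 180, 188, 196, 42992025, 81002497, 851974, 1900550, 2949126],
  Vale.Agent.P032.Lt.q_of (e' := WQ008.e205) (by decide +kernel) WQ008.q205⟩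

theorem w206 : Wx (EX xs7) Vale.Agent.P032X.Cert.X3.t1 (Vale.Agent.P032.Fam.fam3 Vale.Agent.P032.Fam.im0) WQ008.W206 := ⟨[0, 8, 16, 24, 32, 40, 48, 4, 12, 20, 28, 36, 44, 52, 60, 68, 76, 84, 92, 100, 108, 116, 124, 132, 140, 148, 156, 164, 172, 81788929, 131072473, 91750873, 1704409, 77529561, 35848257, 52625473, 121799129, 48234497, 55345625, 54690265, 2982361, 8487385, 43844057, 13402585, 78479833, 851974, 1900550, 2949126],
  Vale.Agent.P032.Lt.q_of (e' := WQ008.e206) (by decide +kernel) WQ008.q206⟩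

theorem w207 : Wx (EX xs7) Vale.Agent.P032X.Cert.X3.t1 (Vale.Agent.P032.Fam.fam3 Vale.Agent.P032.Fam.im0) WQ008.W207 := ⟨[0, 8, 16, 24, 32, 40, 48, 4, 12, 20, 28, 36, 44, 52, 60, 68, 76, 84, 92, 100, 108, 116, 124, 132, 140, 148, 67636737, 104992153, 120356929, 97124353, 22023641, 130025625, 69732449, 130023769, 851974, 2424838, 2949126],
  Vale.Agent.P032.Lt.q_of (e' := WQ008.e207) (by decide +kernel) WQ008.q207⟩

theorem w208 : Wx (EX xs7) Vale.Agent.P032X.Cert.X3.t1 (Vale.Agent.P032.Fam.fam3 Vale.Agent.P032.Fam.im0) WQ008.W208 := ⟨[0, 8, 16, 24, 32, 40, 48, 4, 12, 20, 28, 36, 44, 52, 60, 68, 76, 84, 92, 100, 108, 116, 10224129, 57344001, 1376262, 1900550, 2424838],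
  Vale.Agent.P032.Lt.q_of (e' := WQ008.e208) (by decide +kernel) WQ008.q208⟩

theorem w209 : Wx (EX xs7) Vale.Agent.P032X.Cert.X3.t1 (Vale.Agent.P032.Fam.fam3 Vale.Agent.P032.Fam.im0) WQ008.W209 := ⟨[0, 8, 16, 24, 32, 40, 48, 4, 12, 20, 28, 36, 44, 52, 60, 68, 76, 84, 92, 100, 108, 116, 124, 76186113, 1900550, 2949126],
  Vale.Agent.P032.Lt.q_of (e' := WQ008.e209) (by decide +kernel) WQ008.q209⟩

theorem w210 : Wx (EX xs7) Vale.Agent.P032X.Cert.X3.t1 (Vale.Agent.P032.Fam.fam3 Vale.Agent.P032.Fam.im0) WQ008.W210 := ⟨[0, 8, 16, 24, 32, 40, 48, 4, 12, 20, 28, 36, 44, 52, 60, 68, 76, 84, 92, 100, 104857601],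
  Vale.Agent.P032.Lt.q_of (e' := WQ008.e210) (by decide +kernel) WQ008.q210⟩

theorem w211 : Wx (EX xs7) Vale.Agent.P032X.Cert.X3.t1 (Vale.Agent.P032.Fam.fam3 Vale.Agent.P032.Fam.im0) WQ008.W211 := ⟨[0, 8, 16, 24, 32, 40, 48, 4, 12, 20, 28, 36, 44, 52, 60, 68, 76, 84, 92, 100, 108, 116, 124, 132, 31719833],
  Vale.Agent.P032.Lt.q_of (e' := WQ008.e211) (by decide +kernel) WQ008.q211⟩

theorem w212 : Wx (EX xs7) Vale.Agent.P032X.Cert.X3.t1 (Vale.Agent.P032.Fam.fam3 Vale.Agent.P032.Fam.im0) WQ008.W212 := ⟨[0, 8, 16, 24, 32, 40, 48, 4, 12, 20, 28, 36, 44, 52, 60, 68, 76, 84, 92, 100, 108, 116, 124, 108724225, 1376262, 2424838],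
  Vale.Agent.P032.Lt.q_of (e' := WQ008.e212) (by decide +kernel) WQ008.q212⟩

theorem w213 : Wx (EX xs7) Vale.Agent.P032X.Cert.X3.t1 (Vale.Agent.P032.Fam.fam3 Vale.Agent.P032.Fam.im0) WQ008.W213 := ⟨[0, 8, 16, 24, 32, 40, 48, 4, 12, 20, 28, 36, 44, 52, 60, 68, 76, 84, 92, 100, 108, 116, 655425],
  Vale.Agent.P032.Lt.q_of (e' := WQ008.e213) (by decide +kernel) WQ008.q213⟩

theorem w214 : Wx (EX xs7) Vale.Agent.P032X.Cert.X3.t1 (Vale.Agent.P032.Fam.fam3 Vale.Agent.P032.Fam.im0) WQ008.W214 := ⟨[0, 8, 16, 24, 32, 40, 48, 4, 12, 20, 28, 36, 44, 52, 60, 68, 76, 84, 92, 100, 108, 116, 124, 132, 140, 108331417],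
  Vale.Agent.P032.Lt.q_of (e' := WQ008.e214) (by decide +kernel) WQ008.q214⟩

theorem w215 : Wx (EX xs7) Vale.Agent.P032X.Cert.X3.t1 (Vale.Agent.P032.Fam.fam3 Vale.Agent.P032.Fam.im0) WQ008.W215 := ⟨[0, 8, 16, 24, 32, 40, 48, 4, 12, 20, 28, 36, 44, 52, 60, 68, 76, 84, 92, 100, 108, 38567937, 28246017, 95354881],
  Vale.Agent.P032.Lt.q_of (e' := WQ008.e215) (by decide +kernel) WQ008.q215⟩

theorem w216 : Wx (EX xs7) Vale.Agent.P032X.Cert.X3.t1 (Vale.Agent.P032.Fam.fam3 Vale.Agent.P032.Fam.im0) WQ008.W216 := ⟨[0, 8, 16, 24, 32, 40, 48, 4, 12, 20, 28, 36, 44, 52, 60, 68, 76, 84, 92, 100, 108, 116, 124, 67534849],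
  Vale.Agent.P032.Lt.q_of (e' := WQ008.e216) (by decide +kernel) WQ008.q216⟩

theorem w217 : Wx (EX xs7) Vale.Agent.P032X.Cert.X3.t1 (Vale.Agent.P032.Fam.fam3 Vale.Agent.P032.Fam.im0) WQ008.W217 := ⟨[0, 8, 16, 24, 32, 40, 48, 4, 12, 20, 28, 36, 44, 52, 60, 68, 76, 84, 92, 100, 108, 116, 124, 132, 140, 148, 156, 164, 172, 180, 40370177, 1376262, 1900550, 2949126],
  Vale.Agent.P032.Lt.q_of (e' := WQ008.e217) (by decide +kernel) WQ008.q217⟩

theorem w218 : Wx (EX xs7) Vale.Agent.P032X.Cert.X3.t1 (Vale.Agent.P032.Fam.fam3 Vale.Agent.P032.Fam.im0) WQ008.W218 := ⟨[0, 8, 16, 24, 32, 40, 48, 4, 12, 20, 28, 36, 44, 52, 60, 68, 76, 84, 92, 100, 108, 116, 124, 132, 140, 148, 156, 164, 172, 180, 188, 5348833, 93421569, 72450049, 59867137, 126976001, 335878, 1376262, 2424838],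
  Vale.Agent.P032.Lt.q_of (e' := WQ008.e218) (by decide +kernel) WQ008.q218⟩

theorem w219 : Wx (EX xs7) Vale.Agent.P032X.Cert.X3.t1 (Vale.Agent.P032.Fam.fam3 Vale.Agent.P032.Fam.im0) WQ008.W219 := ⟨[0, 8, 16, 24, 32, 40, 48, 4, 12, 20, 28, 36, 44, 52, 60, 68, 76, 84, 92, 100, 108, 116, 124, 132, 140, 148, 156, 164, 172, 18746777, 16711681, 116595237, 851974, 2424838, 2949126],
  Vale.Agent.P032.Lt.q_of (e' := WQ008.e219) (by decide +kernel) WQ008.q219⟩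

theorem w220 : Wx (EX xs7) Vale.Agent.P032X.Cert.X3.t1 (Vale.Agent.P032.Fam.fam3 Vale.Agent.P032.Fam.im0) WQ008.W220 := ⟨[0, 8, 16, 24, 32, 40, 48, 4, 12, 20, 28, 36, 44, 52, 60, 68, 76, 84, 92, 100, 108, 116, 124, 132, 140, 77073881, 10485825],
  Vale.Agent.P032.Lt.q_of (e' := WQ008.e220) (by decide +kernel) WQ008.q220⟩

theorem w221 : Wx (EX xs7) Vale.Agent.P032X.Cert.X3.t1 (Vale.Agent.P032.Fam.fam3 Vale.Agent.P032.Fam.im0) WQ008.W221 := ⟨[0, 8, 16, 24, 32, 40, 48, 4, 12, 20, 28, 36, 44, 52, 60, 68, 76, 84, 92, 100, 108, 116, 124, 132, 140, 55119257, 96210329, 99090433, 39976961],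
  Vale.Agent.P032.Lt.q_of (e' := WQ008.e221) (by decide +kernel) WQ008.q221⟩

theorem w222 : Wx (EX xs7) Vale.Agent.P032X.Cert.X3.t1 (Vale.Agent.P032.Fam.fam3 Vale.Agent.P032.Fam.im0) WQ008.W222 := ⟨[0, 8, 16, 24, 32, 40, 48, 4, 12, 20, 28, 36, 44, 52, 60, 68, 76, 84, 92, 100, 108, 116, 124, 132, 140, 148, 156, 62983961, 55050241, 1900550, 2424838, 2949126],
  Vale.Agent.P032.Lt.q_of (e' := WQ008.e222) (by decide +kernel) WQ008.q222⟩

theorem w223 : Wx (EX xs7) Vale.Agent.P032X.Cert.X3.t1 (Vale.Agent.P032.Fam.fam3 Vale.Agent.P032.Fam.im0) WQ008.W223 := ⟨[0, 8, 16, 24, 32, 40, 48, 4, 12, 20, 28, 36, 44, 52, 60, 68, 76, 84, 92, 100, 108, 116, 124, 132, 140, 148, 37749633, 73927753, 99749337, 90341377, 37750017, 29900801, 23235993, 73927689, 851974, 1900550, 2949126],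
  Vale.Agent.P032.Lt.q_of (e' := WQ008.e223) (by decide +kernel) WQ008.q223⟩

theorem w224 : Wx (EX xs7) Vale.Agent.P032X.Cert.X3.t1 (Vale.Agent.P032.Fam.fam3 Vale.Agent.P032.Fam.im0) WQ008.W224 := ⟨[0, 8, 16, 24, 32, 40, 48, 4, 12, 20, 28, 36, 44, 52, 60, 68, 76, 84, 92, 100, 108, 116, 124, 132, 140, 148, 156, 164, 172, 180, 98337049, 1376262, 1900550],
  Vale.Agent.P032.Lt.q_of (e' := WQ008.e224) (by decide +kernel) WQ008.q224⟩

theorem w225 : Wx (EX xs7) Vale.Agent.P032X.Cert.X3.t1 (Vale.Agent.P032.Fam.fam3 Vale.Agent.P032.Fam.im0) WQ008.W225 := ⟨[0, 8, 16, 24, 32, 40, 48, 4, 12, 20, 28, 36, 44, 52, 60, 68, 76, 84, 92, 100, 108, 116, 124, 132, 140, 148, 156, 164, 172, 180, 188, 196, 204, 212, 106335565, 12976665, 130023745, 130023769, 42958849],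
  Vale.Agent.P032.Lt.q_of (e' := WQ008.e225) (by decide +kernel) WQ008.q225⟩

theorem w226 : Wx (EX xs7) Vale.Agent.P032X.Cert.X3.t1 (Vale.Agent.P032.Fam.fam3 Vale.Agent.P032.Fam.im0) WQ008.W226 := ⟨[0, 8, 16, 24, 32, 40, 48, 4, 12, 20, 28, 36, 44, 52, 60, 68, 76, 84, 92, 100, 108, 116, 124, 132, 140, 148, 156, 164, 172, 180, 188, 130023745, 35061761, 79167553, 108527617, 6291929, 18874777, 61079961, 67633305, 67633177, 18612225, 55066625, 85721089, 97681409, 2424838, 2949126],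
  Vale.Agent.P032.Lt.q_of (e' := WQ008.e226) (by decide +kernel) WQ008.q226⟩

theorem w227 : Wx (EX xs7) Vale.Agent.P032X.Cert.X3.t1 (Vale.Agent.P032.Fam.fam3 Vale.Agent.P032.Fam.im0) WQ008.W227 := ⟨[0, 8, 16, 24, 32, 40, 48, 4, 12, 20, 28, 36, 44, 52, 60, 68, 76, 84, 92, 100, 108, 116, 124, 132, 140, 148, 156, 63182753, 18366465, 74715809, 133304993, 30998593, 133103617, 121012225, 41161377, 64552961],
  Vale.Agent.P032.Lt.q_of (e' := WQ008.e227) (by decide +kernel) WQ008.q227⟩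

theorem w228 : Wx (EX xs7) Vale.Agent.P032X.Cert.X3.t1 (Vale.Agent.P032.Fam.fam3 Vale.Agent.P032.Fam.im0) WQ008.W228 := ⟨[0, 8, 16, 24, 32, 40, 48, 4, 12, 20, 28, 36, 44, 52, 60, 68, 76, 84, 92, 100, 108, 116, 124, 132, 140, 148, 156, 164, 172, 180, 188, 34639257, 36769177, 44109209, 120651777, 46402969, 127798681, 60689817, 79957401, 103878041, 53546393, 17649049, 125767065, 61046785, 16682393, 83787777, 64327065, 19991961, 87100825, 66194841, 17862041, 16403865, 101748121, 1900550, 1908742, 2949126],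
  Vale.Agent.P032.Lt.q_of (e' := WQ008.e228) (by decide +kernel) WQ008.q228⟩

theorem w229 : Wx (EX xs7) Vale.Agent.P032X.Cert.X3.t1 (Vale.Agent.P032.Fam.fam3 Vale.Agent.P032.Fam.im0) WQ008.W229 := ⟨[0, 8, 16, 24, 32, 40, 48, 4, 12, 20, 28, 36, 44, 52, 60, 68, 76, 84, 92, 100, 108, 116, 124, 132, 140, 148, 156, 31985433, 63184081, 5512145, 36175937, 56623105, 2883905, 69959681, 130025497],
  Vale.Agent.P032.Lt.q_of (e' := WQ008.e229) (by decide +kernel) WQ008.q229⟩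

theorem w230 : Wx (EX xs7) Vale.Agent.P032X.Cert.X3.t1 (Vale.Agent.P032.Fam.fam3 Vale.Agent.P032.Fam.im0) WQ008.W230 := ⟨[0, 8, 16, 24, 32, 40, 48, 4, 12, 20, 28, 36, 44, 52, 60, 68, 76, 84, 92, 100, 108, 116, 124, 132, 140, 148, 156, 33292697, 78512537, 28311553, 47841689, 59441561, 31211929, 125469081, 18416025, 44843417, 81625089, 37355521, 48071065, 45744537, 64307673],
  Vale.Agent.P032.Lt.q_of (e' := WQ008.e230) (by decide +kernel) WQ008.q230⟩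

theorem w231 : Wx (EX xs7) Vale.Agent.P032X.Cert.X3.t1 (Vale.Agent.P032.Fam.fam3 Vale.Agent.P032.Fam.im0) WQ009.W231 := ⟨[0, 8, 16, 24, 32, 40, 48, 4, 12, 20, 28, 36, 44, 52, 60, 68, 76, 84, 92, 100, 108, 116, 124, 132, 140, 148, 156, 164, 172, 180, 12583233, 72679425, 5570561, 69009409, 37896193, 85786625, 35454977, 21118977, 132972545, 102563841, 18677761, 1900545],
  Vale.Agent.P032.Lt.q_of (e' := WQ009.e231) (by decide +kernel) WQ009.q231⟩

theorem w232 : Wx (EX xs7) Vale.Agent.P032X.Cert.X3.t1 (Vale.Agent.P032.Fam.fam3 Vale.Agent.P032.Fam.im0) WQ009.W232 := ⟨[0, 8, 16, 24, 32, 40, 48, 4, 12, 20, 28, 36, 44, 52, 60, 68, 76, 84, 92, 100, 108, 116, 124, 132, 140, 148, 156, 164, 172, 180, 188, 196, 204, 212, 100663297, 131072473, 851974, 1900550, 2949126],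
  Vale.Agent.P032.Lt.q_of (e' := WQ009.e232) (by decide +kernel) WQ009.q232⟩

theorem w233 : Wx (EX xs7) Vale.Agent.P032X.Cert.X3.t1 (Vale.Agent.P032.Fam.fam3 Vale.Agent.P032.Fam.im0) WQ009.W233 := ⟨[0, 8, 16, 24, 32, 40, 48, 4, 12, 20, 28, 36, 44, 52, 60, 68, 76, 84, 92, 100, 108, 116, 124, 132, 140, 148, 156, 164, 172, 80838657, 88868097],
  Vale.Agent.P032.Lt.q_of (e' := WQ009.e233) (by decide +kernel) WQ009.q233⟩

theorem w234 : Wx (EX xs7) Vale.Agent.P032X.Cert.X3.t1 (Vale.Agent.P032.Fam.fam3 Vale.Agent.P032.Fam.im0) WQ009.W234 := ⟨[0, 8, 16, 24, 32, 40, 48, 4, 12, 20, 28, 36, 44, 52, 60, 68, 76, 84, 92, 100, 108, 116, 124, 132, 140, 148, 156, 164, 172, 180, 188, 196, 63471617, 130780569, 35147161, 85854785, 55836673, 23199745, 89391105, 39976961, 92799193, 7359897, 49217577, 63471681, 10488921, 55119321, 123732033, 86245657, 2103769, 851974, 892934, 1376262, 1900550, 2949126],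
  Vale.Agent.P032.Lt.q_of (e' := WQ009.e234) (by decide +kernel) WQ009.q234⟩

theorem w235 : Wx (EX xs7) Vale.Agent.P032X.Cert.X3.t1 (Vale.Agent.P032.Fam.fam3 Vale.Agent.P032.Fam.im0) WQ009.W235 := ⟨[0, 8, 16, 24, 32, 40, 48, 4, 12, 20, 28, 36, 44, 52, 60, 68, 76, 84, 92, 100, 108, 116, 124, 132, 140, 148, 156, 164, 172, 180, 20349013, 20348949, 851974, 1900550, 2949126],
  Vale.Agent.P032.Lt.q_of (e' := WQ009.e235) (by decide +kernel) WQ009.q235⟩

theorem w236 : Wx (EX xs7) Vale.Agent.P032X.Cert.X3.t1 (Vale.Agent.P032.Fam.fam3 Vale.Agent.P032.Fam.im0) WQ009.W236 := ⟨[0, 8, 16, 24, 32, 40, 48, 4, 12, 20, 28, 36, 44, 52, 60, 68, 76, 84, 92, 100, 108, 116, 124, 132, 140, 148, 156, 164, 37750017, 63177985, 73699209, 64751137, 27805217, 128978697, 20074377, 133959561, 67243913, 96206849, 124518401, 860166, 1392646, 2424838, 2949126, 2965510],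
  Vale.Agent.P032.Lt.q_of (e' := WQ009.e236) (by decide +kernel) WQ009.q236⟩

theorem w237 : Wx (EX xs7) Vale.Agent.P032X.Cert.X3.t1 (Vale.Agent.P032.Fam.fam3 Vale.Agent.P032.Fam.im0) WQ009.W237 := ⟨[0, 8, 16, 24, 32, 40, 48, 4, 12, 20, 28, 36, 44, 52, 60, 68, 76, 84, 92, 100, 108, 116, 124, 132, 140, 148, 156, 164, 172, 22151233, 29884417, 88670209, 8392089, 87559577, 6307841, 8719873, 25691265, 39780481, 89066905, 99090433, 39976961, 25691289, 335878, 851974, 860166, 1392646, 1900550, 1908742, 2949126],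
  Vale.Agent.P032.Lt.q_of (e' := WQ009.e237) (by decide +kernel) WQ009.q237⟩

theorem w238 : Wx (EX xs7) Vale.Agent.P032X.Cert.X3.t1 (Vale.Agent.P032.Fam.fam3 Vale.Agent.P032.Fam.im0) WQ009.W238 := ⟨[0, 8, 16, 24, 32, 40, 48, 4, 12, 20, 28, 36, 44, 52, 60, 68, 76, 84, 92, 100, 108, 116, 124, 132, 140, 148, 156, 164, 172, 180, 188, 196, 204, 212, 5507425, 5507361, 130023705, 53837825, 85885081, 96043009, 3145753, 89260053, 69730449],
  Vale.Agent.P032.Lt.q_of (e' := WQ009.e238) (by decide +kernel) WQ009.q238⟩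

theorem w239 : Wx (EX xs7) Vale.Agent.P032X.Cert.X3.t1 (Vale.Agent.P032.Fam.fam3 Vale.Agent.P032.Fam.im0) WQ009.W239 := ⟨[0, 8, 16, 24, 32, 40, 48, 4, 12, 20, 28, 36, 44, 52, 60, 68, 76, 84, 92, 100, 108, 116, 124, 132, 140, 148, 156, 164, 172, 180, 188, 196, 204, 212, 220, 228, 50188737, 22052929, 99093913, 25021913, 69959681, 46075353, 85854745, 14680129, 56623105, 25021849, 50185625, 36175873, 130974977, 7602241, 96206913, 55115841, 130025497, 36175937, 130025625, 96206849, 50188353, 56770625, 20319841, 7602177, 53513893, 10371137, 2883929, 55115777, 31459265, 53513957, 111512985, 31459393, 51380289, 70451265, 91553857, 36896833, 21889089, 42500097, 27626905, 17829057, 1900550, 2949126],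
  Vale.Agent.P032.Lt.q_of (e' := WQ009.e239) (by decide +kernel) WQ009.q239⟩

theorem w240 : Wx (EX xs7) Vale.Agent.P032X.Cert.X3.t1 (Vale.Agent.P032.Fam.fam3 Vale.Agent.P032.Fam.im0) WQ009.W240 := ⟨[0, 8, 16, 24, 32, 40, 48, 4, 12, 20, 28, 36, 44, 52, 60, 68, 76, 84, 92, 100, 108, 116, 124, 132, 140, 148, 156, 164, 172, 180, 188, 196, 204, 212, 220, 228, 236, 29917185, 46694401, 54935553, 113803265, 97026049, 44322585, 10768153, 94768921],
  Vale.Agent.P032.Lt.q_of (e' := WQ009.e240) (by decide +kernel) WQ009.q240⟩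

theorem w241 : Wx (EX xs7) Vale.Agent.P032X.Cert.X3.t1 (Vale.Agent.P032.Fam.fam3 Vale.Agent.P032.Fam.im0) WQ009.W241 := ⟨[0, 8, 16, 24, 32, 40, 48, 4, 12, 20, 28, 36, 44, 52, 60, 68, 76, 84, 92, 100, 108, 116, 124, 132, 140, 148, 156, 164, 172, 180, 188, 196, 204, 212, 220, 85822937, 99093913, 121311497, 25021849, 50185625, 96206849],
  Vale.Agent.P032.Lt.q_of (e' := WQ009.e241) (by decide +kernel) WQ009.q241⟩

theorem w242 : Wx (EX xs7) Vale.Agent.P032X.Cert.X3.t1 (Vale.Agent.P032.Fam.fam3 Vale.Agent.P032.Fam.im0) WQ009.W242 := ⟨[0, 8, 16, 24, 32, 40, 48, 4, 12, 20, 28, 36, 44, 52, 60, 68, 76, 84, 92, 100, 108, 116, 124, 132, 140, 148, 156, 164, 172, 85622785],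
  Vale.Agent.P032.Lt.q_of (e' := WQ009.e242) (by decide +kernel) WQ009.q242⟩

theorem w243 : Wx (EX xs7) Vale.Agent.P032X.Cert.X3.t1 (Vale.Agent.P032.Fam.fam3 Vale.Agent.P032.Fam.im0) WQ009.W243 := ⟨[0, 8, 16, 24, 32, 40, 48, 4, 12, 20, 28, 36, 44, 52, 60, 68, 76, 84, 92, 100, 108, 116, 124, 132, 140, 148, 156, 164, 172, 180, 188, 96206849, 96206913, 127402049, 37756113, 61341697, 124518401, 79953921, 39718297, 22941081, 48106905, 3424257, 106823681, 36978689, 127407169, 129105921, 73272729, 26580393, 11816345, 6160449, 90049945, 28590081, 115215769, 45370777, 20204953, 56495513, 127795201, 60686337, 81661337, 14552473, 123604377, 53759385, 1900550, 2949126, 2981894],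
  Vale.Agent.P032.Lt.q_of (e' := WQ009.e243) (by decide +kernel) WQ009.q243⟩

theorem w244 : Wx (EX xs7) Vale.Agent.P032X.Cert.X3.t1 (Vale.Agent.P032.Fam.fam3 Vale.Agent.P032.Fam.im0) WQ009.W244 := ⟨[0, 8, 16, 24, 32, 40, 48, 4, 12, 20, 28, 36, 44, 52, 60, 68, 76, 84, 92, 100, 108, 116, 124, 132, 140, 148, 156, 164, 172, 180, 46858241, 19218497, 87560025, 25657345],
  Vale.Agent.P032.Lt.q_of (e' := WQ009.e244) (by decide +kernel) WQ009.q244⟩

theorem w245 : Wx (EX xs7) Vale.Agent.P032X.Cert.X3.t1 (Vale.Agent.P032.Fam.fam3 Vale.Agent.P032.Fam.im0) WQ009.W245 := ⟨[0, 8, 16, 24, 32, 40, 48, 4, 12, 20, 28, 36, 44, 52, 60, 68, 76, 84, 92, 100, 108, 116, 124, 132, 140, 148, 156, 164, 86245529, 122688281, 130023705, 130023681, 69206977, 11010073, 18808985, 39421541, 67633153, 44335105, 60180001, 2424838, 2949126],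
  Vale.Agent.P032.Lt.q_of (e' := WQ009.e245) (by decide +kernel) WQ009.q245⟩

theorem w246 : Wx (EX xs7) Vale.Agent.P032X.Cert.X3.t1 (Vale.Agent.P032.Fam.fam3 Vale.Agent.P032.Fam.im0) WQ009.W246 := ⟨[0, 8, 16, 24, 32, 40, 48, 4, 12, 20, 28, 36, 44, 52, 60, 68, 76, 84, 92, 100, 108, 116, 124, 132, 140, 148, 156, 164, 172, 180, 63184321, 63182785, 37754817, 85822873, 96209993, 130974625, 130023649, 93358505, 37756353, 53512045, 96209929, 93358889, 85822937, 93360265],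
  Vale.Agent.P032.Lt.q_of (e' := WQ009.e246) (by decide +kernel) WQ009.q246⟩

theorem w247 : Wx (EX xs7) Vale.Agent.P032X.Cert.X3.t1 (Vale.Agent.P032.Fam.fam3 Vale.Agent.P032.Fam.im0) WQ009.W247 := ⟨[0, 8, 16, 24, 32, 40, 48, 4, 12, 20, 28, 36, 44, 52, 60, 68, 76, 84, 92, 100, 108, 116, 124, 132, 140, 148, 156, 164, 172, 180, 188, 196, 204, 212, 25021849, 123735065, 107089369, 99093913, 18550169, 130974593, 10371073, 132841537, 71305305, 65736153, 1772953, 13798809, 102436249, 52101185, 119213465, 68878401, 35323969, 8392153, 127045081, 99287169, 2424838, 2949126],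
  Vale.Agent.P032.Lt.q_of (e' := WQ009.e247) (by decide +kernel) WQ009.q247⟩

theorem w248 : Wx (EX xs7) Vale.Agent.P032X.Cert.X3.t1 (Vale.Agent.P032.Fam.fam3 Vale.Agent.P032.Fam.im0) WQ009.W248 := ⟨[0, 8, 16, 24, 32, 40, 48, 4, 12, 20, 28, 36, 44, 52, 60, 68, 76, 84, 92, 100, 108, 116, 124, 132, 140, 148, 156, 164, 172, 180, 188, 196, 204, 212, 3145753, 4587713, 5259393, 89260053, 21725185],
  Vale.Agent.P032.Lt.q_of (e' := WQ009.e248) (by decide +kernel) WQ009.q248⟩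

theorem w249 : Wx (EX xs7) Vale.Agent.P032X.Cert.X3.t1 (Vale.Agent.P032.Fam.fam3 Vale.Agent.P032.Fam.im0) WQ009.W249 := ⟨[0, 8, 16, 24, 32, 40, 48, 4, 12, 20, 28, 36, 44, 52, 60, 68, 76, 84, 92, 100, 108, 116, 124, 132, 140, 148, 156, 164, 38293145, 99090433, 25018433, 90246177, 87556161, 127401985, 5508169, 23134209, 31459201, 25018369, 127402049, 130023641],
  Vale.Agent.P032.Lt.q_of (e' := WQ009.e249) (by decide +kernel) WQ009.q249⟩

theorem w250 : Wx (EX xs7) Vale.Agent.P032X.Cert.X3.t1 (Vale.Agent.P032.Fam.fam3 Vale.Agent.P032.Fam.im0) WQ009.W250 := ⟨[0, 8, 16, 24, 32, 40, 48, 4, 12, 20, 28, 36, 44, 52, 60, 68, 76, 84, 92, 100, 108, 116, 124, 21053441, 18761025, 37830657],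
  Vale.Agent.P032.Lt.q_of (e' := WQ009.e250) (by decide +kernel) WQ009.q250⟩

theorem w251 : Wx (EX xs7) Vale.Agent.P032X.Cert.X3.t1 (Vale.Agent.P032.Fam.fam3 Vale.Agent.P032.Fam.im0) WQ009.W251 := ⟨[0, 8, 16, 24, 32, 40, 48, 4, 12, 20, 28, 36, 44, 52, 60, 68, 76, 84, 92, 100, 108, 54297153],
  Vale.Agent.P032.Lt.q_of (e' := WQ009.e251) (by decide +kernel) WQ009.q251⟩

theorem w252 : Wx (EX xs7) Vale.Agent.P032X.Cert.X3.t1 (Vale.Agent.P032.Fam.fam3 Vale.Agent.P032.Fam.im0) WQ009.W252 := ⟨[0, 8, 16, 24, 32, 40, 48, 4, 12, 20, 28, 36, 44, 52, 60, 68, 76, 84, 92, 100, 108, 116, 124, 18759681, 85098497],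
  Vale.Agent.P032.Lt.q_of (e' := WQ009.e252) (by decide +kernel) WQ009.q252⟩

theorem w253 : Wx (EX xs7) Vale.Agent.P032X.Cert.X3.t1 (Vale.Agent.P032.Fam.fam3 Vale.Agent.P032.Fam.im0) WQ009.W253 := ⟨[0, 8, 16, 24, 32, 40, 48, 4, 12, 20, 28, 36, 44, 52, 60, 68, 76, 84, 92, 100, 34671641, 101784725, 1900550, 2949126],
  Vale.Agent.P032.Lt.q_of (e' := WQ009.e253) (by decide +kernel) WQ009.q253⟩

theorem w254 : Wx (EX xs7) Vale.Agent.P032X.Cert.X3.t1 (Vale.Agent.P032.Fam.fam3 Vale.Agent.P032.Fam.im0) WQ009.W254 := ⟨[0, 8, 16, 24, 32, 40, 48, 4, 12, 20, 28, 36, 44, 52, 60, 68, 76, 84, 92, 100, 108, 116, 124, 132, 140, 148, 156, 164, 172, 180, 188, 81788929, 85491713, 335878, 851974, 1900550, 2949126],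
  Vale.Agent.P032.Lt.q_of (e' := WQ009.e254) (by decide +kernel) WQ009.q254⟩

theorem w255 : Wx (EX xs7) Vale.Agent.P032X.Cert.X3.t1 (Vale.Agent.P032.Fam.fam3 Vale.Agent.P032.Fam.im0) WQ009.W255 := ⟨[0, 8, 16, 24, 32, 40, 48, 4, 12, 20, 28, 36, 44, 52, 60, 68, 76, 84, 92, 100, 108, 116, 124, 132, 140, 148, 156, 164, 81788929, 121765889, 29360193, 123994113],
  Vale.Agent.P032.Lt.q_of (e' := WQ009.e255) (by decide +kernel) WQ009.q255⟩

theorem w256 : Wx (EX xs7) Vale.Agent.P032X.Cert.X3.t1 (Vale.Agent.P032.Fam.fam3 Vale.Agent.P032.Fam.im0) WQ010.W256 := ⟨[0, 8, 16, 24, 32, 40, 48, 4, 12, 20, 28, 36, 44, 52, 60, 68, 76, 84, 92, 100, 108, 116, 124, 132, 140, 104205785, 76844505, 860166, 2424838, 2949126],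
  Vale.Agent.P032.Lt.q_of (e' := WQ010.e256) (by decide +kernel) WQ010.q256⟩

theorem w257 : Wx (EX xs7) Vale.Agent.P032X.Cert.X3.t1 (Vale.Agent.P032.Fam.fam3 Vale.Agent.P032.Fam.im0) WQ010.W257 := ⟨[0, 8, 16, 24, 32, 40, 48, 4, 12, 20, 28, 36, 44, 52, 60, 68, 76, 84, 92, 100, 108, 116, 124, 132, 140, 148, 156, 122688129, 133169369, 54657177, 85885145, 100827289, 1376262, 2949126, 2965510],
  Vale.Agent.P032.Lt.q_of (e' := WQ010.e257) (by decide +kernel) WQ010.q257⟩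

theorem w258 : Wx (EX xs7) Vale.Agent.P032X.Cert.X3.t1 (Vale.Agent.P032.Fam.fam3 Vale.Agent.P032.Fam.im0) WQ010.W258 := ⟨[0, 8, 16, 24, 32, 40, 48, 4, 12, 20, 28, 36, 44, 52, 60, 68, 76, 84, 92, 100, 108, 116, 124, 132, 140, 148, 156, 54299757],
  Vale.Agent.P032.Lt.q_of (e' := WQ010.e258) (by decide +kernel) WQ010.q258⟩

theorem w259 : Wx (EX xs7) Vale.Agent.P032X.Cert.X3.t1 (Vale.Agent.P032.Fam.fam3 Vale.Agent.P032.Fam.im0) WQ010.W259 := ⟨[0, 8, 16, 24, 32, 40, 48, 4, 12, 20, 28, 36, 44, 52, 60, 68, 76, 84, 92, 100, 108, 116, 124, 62324737, 860166, 1900550, 2424838, 2433030],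
  Vale.Agent.P032.Lt.q_of (e' := WQ010.e259) (by decide +kernel) WQ010.q259⟩

theorem w260 : Wx (EX xs7) Vale.Agent.P032X.Cert.X3.t1 (Vale.Agent.P032.Fam.fam3 Vale.Agent.P032.Fam.im0) WQ010.W260 := ⟨[0, 8, 16, 24, 32, 40, 48, 4, 12, 20, 28, 36, 44, 52, 60, 68, 76, 84, 92, 100, 108, 116, 124, 132, 140, 148, 156, 164, 172, 180, 188, 5508897, 5509281],
  Vale.Agent.P032.Lt.q_of (e' := WQ010.e260) (by decide +kernel) WQ010.q260⟩

theorem w261 : Wx (EX xs7) Vale.Agent.P032X.Cert.X3.t1 (Vale.Agent.P032.Fam.fam3 Vale.Agent.P032.Fam.im0) WQ010.W261 := ⟨[0, 8, 16, 24, 32, 40, 48, 4, 12, 20, 28, 36, 44, 52, 60, 68, 76, 84, 92, 100, 108, 116, 124, 132, 140, 148, 8912897, 128450561, 14696449, 6815745, 29360193, 62915033],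
  Vale.Agent.P032.Lt.q_of (e' := WQ010.e261) (by decide +kernel) WQ010.q261⟩

theorem w262 : Wx (EX xs7) Vale.Agent.P032X.Cert.X3.t1 (Vale.Agent.P032.Fam.fam3 Vale.Agent.P032.Fam.im0) WQ010.W262 := ⟨[0, 8, 16, 24, 32, 40, 48, 4, 12, 20, 28, 36, 44, 52, 60, 68, 76, 84, 92, 100, 108, 116, 124, 132, 140, 148, 156, 124485633, 8912897, 123994113, 100178825, 92800649, 10420225],
  Vale.Agent.P032.Lt.q_of (e' := WQ010.e262) (by decide +kernel) WQ010.q262⟩

theorem w263 : Wx (EX xs7) Vale.Agent.P032X.Cert.X3.t1 (Vale.Agent.P032.Fam.fam3 Vale.Agent.P032.Fam.im0) WQ010.W263 := ⟨[0, 8, 16, 24, 32, 40, 48, 4, 12, 20, 28, 36, 44, 52, 60, 68, 76, 84, 92, 100, 108, 116, 124, 132, 140, 148, 156, 164, 172, 67633601, 18874777, 34078721, 78512129, 655361, 55607297, 51740673, 46481817, 2119441, 16843161, 1900550, 2949126],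
  Vale.Agent.P032.Lt.q_of (e' := WQ010.e263) (by decide +kernel) WQ010.q263⟩

theorem w264 : Wx (EX xs7) Vale.Agent.P032X.Cert.X3.t1 (Vale.Agent.P032.Fam.fam3 Vale.Agent.P032.Fam.im0) WQ010.W264 := ⟨[0, 8, 16, 24, 32, 40, 48, 4, 12, 20, 28, 36, 44, 52, 60, 68, 76, 84, 92, 100, 108, 116, 124, 132, 140, 148, 156, 164, 172, 180, 188, 196, 21856257, 15830945, 60375041, 34832385, 1282017, 18059169, 101945249, 118722465, 51613601, 85171681, 132353929, 51204065, 68390817, 851974, 860166, 868358, 1376262, 1384454, 1900550, 1908742, 2424838, 2433030],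
  Vale.Agent.P032.Lt.q_of (e' := WQ010.e264) (by decide +kernel) WQ010.q264⟩

theorem w265 : Wx (EX xs7) Vale.Agent.P032X.Cert.X3.t1 (Vale.Agent.P032.Fam.fam3 Vale.Agent.P032.Fam.im0) WQ010.W265 := ⟨[0, 8, 16, 24, 32, 40, 48, 4, 12, 20, 28, 36, 44, 52, 60, 68, 76, 84, 92, 100, 108, 116, 124, 132, 106434009, 67898841, 9113049, 39323713, 118164953, 66325977, 32768001, 83099649, 47009241, 15745025, 112430553, 64913409],
  Vale.Agent.P032.Lt.q_of (e' := WQ010.e265) (by decide +kernel) WQ010.q265⟩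

theorem w266 : Wx (EX xs7) Vale.Agent.P032X.Cert.X3.t1 (Vale.Agent.P032.Fam.fam3 Vale.Agent.P032.Fam.im0) WQ010.W266 := ⟨[0, 8, 16, 24, 32, 40, 48, 4, 12, 20, 28, 36, 44, 52, 60, 68, 76, 84, 92, 100, 108, 116, 124, 132, 140, 148, 156, 164, 172, 180, 188, 120619073, 69206721, 36700505, 860166, 1900550, 2949126],
  Vale.Agent.P032.Lt.q_of (e' := WQ010.e266) (by decide +kernel) WQ010.q266⟩

theorem w267 : Wx (EX xs7) Vale.Agent.P032X.Cert.X3.t1 (Vale.Agent.P032.Fam.fam3 Vale.Agent.P032.Fam.im0) WQ010.W267 := ⟨[0, 8, 16, 24, 32, 40, 48, 4, 12, 20, 28, 36, 44, 52, 60, 68, 76, 84, 92, 100, 108, 116, 124, 132, 140, 148, 156, 2098981, 99621985, 527769, 121409305],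
  Vale.Agent.P032.Lt.q_of (e' := WQ010.e267) (by decide +kernel) WQ010.q267⟩

theorem w268 : Wx (EX xs7) Vale.Agent.P032X.Cert.X3.t1 (Vale.Agent.P032.Fam.fam3 Vale.Agent.P032.Fam.im0) WQ010.W268 := ⟨[0, 8, 16, 24, 32, 40, 48, 4, 12, 20, 28, 36, 44, 52, 60, 68, 76, 84, 92, 100, 108, 116, 124, 132, 140, 87031809],
  Vale.Agent.P032.Lt.q_of (e' := WQ010.e268) (by decide +kernel) WQ010.q268⟩

theorem w269 : Wx (EX xs7) Vale.Agent.P032X.Cert.X3.t1 (Vale.Agent.P032.Fam.fam3 Vale.Agent.P032.Fam.im0) WQ010.W269 := ⟨[0, 8, 16, 24, 32, 40, 48, 4, 12, 20, 28, 36, 44, 52, 60, 68, 76, 84, 92, 100, 108, 116, 124, 132, 140, 148, 46301657],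
  Vale.Agent.P032.Lt.q_of (e' := WQ010.e269) (by decide +kernel) WQ010.q269⟩

theorem w270 : Wx (EX xs7) Vale.Agent.P032X.Cert.X3.t1 (Vale.Agent.P032.Fam.fam3 Vale.Agent.P032.Fam.im0) WQ010.W270 := ⟨[0, 8, 16, 24, 32, 40, 48, 4, 12, 20, 28, 36, 44, 52, 60, 68, 76, 84, 92, 100, 108, 116, 124, 132, 140, 148, 156, 164, 172, 180, 188, 196, 78512537, 132710401, 48824729, 94961665, 6881281, 32047105, 122945537, 851974, 1900550, 2949126],
  Vale.Agent.P032.Lt.q_of (e' := WQ010.e270) (by decide +kernel) WQ010.q270⟩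

theorem w271 : Wx (EX xs7) Vale.Agent.P032X.Cert.X3.t1 (Vale.Agent.P032.Fam.fam3 Vale.Agent.P032.Fam.im0) WQ010.W271 := ⟨[0, 8, 16, 24, 32, 40, 48, 4, 12, 20, 28, 36, 44, 52, 60, 68, 76, 84, 92, 100, 108, 116, 124, 132, 140, 148, 156, 164, 172, 180, 188, 196, 204, 131334209, 121372737, 14090713, 124125185, 56754649, 57016385, 14286913, 62914625, 21266905, 56033281, 29360601, 54591961, 89588185, 55312385],
  Vale.Agent.P032.Lt.q_of (e' := WQ010.e271) (by decide +kernel) WQ010.q271⟩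

theorem w272 : Wx (EX xs7) Vale.Agent.P032X.Cert.X3.t1 (Vale.Agent.P032.Fam.fam3 Vale.Agent.P032.Fam.im0) WQ010.W272 := ⟨[0, 8, 16, 24, 32, 40, 48, 4, 12, 20, 28, 36, 44, 52, 60, 68, 76, 84, 92, 100, 108, 116, 124, 132, 140, 148, 156, 164, 172, 180, 121409305, 114560793, 47467993],
  Vale.Agent.P032.Lt.q_of (e' := WQ010.e272) (by decide +kernel) WQ010.q272⟩

theorem w273 : Wx (EX xs7) Vale.Agent.P032X.Cert.X3.t1 (Vale.Agent.P032.Fam.fam3 Vale.Agent.P032.Fam.im0) WQ010.W273 := ⟨[0, 8, 16, 24, 32, 40, 48, 4, 12, 20, 28, 36, 44, 52, 60, 68, 76, 84, 92, 100, 108, 116, 124, 132, 140, 148, 156, 31592129, 10492489, 57675545, 91229657, 49286617, 11294121, 63211297, 15732633],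
  Vale.Agent.P032.Lt.q_of (e' := WQ010.e273) (by decide +kernel) WQ010.q273⟩

theorem w274 : Wx (EX xs7) Vale.Agent.P032X.Cert.X3.t1 (Vale.Agent.P032.Fam.fam3 Vale.Agent.P032.Fam.im0) WQ010.W274 := ⟨[0, 8, 16, 24, 32, 40, 48, 4, 12, 20, 28, 36, 44, 52, 60, 68, 76, 84, 92, 100, 108, 116, 124, 132, 140, 148, 156, 164, 172, 180, 61145561, 131334553, 121373081, 124125657, 48627713, 57016729, 14287257, 62914969, 31850497, 115736577, 15073281, 82182145, 51975713, 67633305, 55312385, 61079553, 51937857, 67633537, 2424838, 2949126],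
  Vale.Agent.P032.Lt.q_of (e' := WQ010.e274) (by decide +kernel) WQ010.q274⟩

theorem w275 : Wx (EX xs7) Vale.Agent.P032X.Cert.X3.t1 (Vale.Agent.P032.Fam.fam3 Vale.Agent.P032.Fam.im0) WQ010.W275 := ⟨[0, 8, 16, 24, 32, 40, 48, 4, 12, 20, 28, 36, 44, 52, 60, 68, 76, 84, 92, 100, 108, 116, 124, 132, 140, 148, 156, 164, 172, 180, 188, 196, 204, 212, 220, 228, 25696657, 36061593, 96469401, 46497793, 16138649, 51659161, 9011201, 113607065, 8093697, 71827457, 75202561, 26230785, 32587777, 119472129, 118063105, 7962625, 30965761, 10289153, 122454017, 96370689, 55345217, 80511385, 29262233, 46956545, 117965209, 38273025],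
  Vale.Agent.P032.Lt.q_of (e' := WQ010.e275) (by decide +kernel) WQ010.q275⟩

theorem w276 : Wx (EX xs7) Vale.Agent.P032X.Cert.X3.t1 (Vale.Agent.P032.Fam.fam3 Vale.Agent.P032.Fam.im0) WQ010.W276 := ⟨[0, 8, 16, 24, 32, 40, 48, 4, 12, 20, 28, 36, 44, 52, 60, 68, 76, 84, 92, 100, 108, 116, 124, 132, 140, 148, 156, 164, 172, 180, 188, 196, 204, 48955393, 40714241, 28311553, 1376262, 1900550, 2949126],
  Vale.Agent.P032.Lt.q_of (e' := WQ010.e276) (by decide +kernel) WQ010.q276⟩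

theorem w277 : Wx (EX xs7) Vale.Agent.P032X.Cert.X3.t1 (Vale.Agent.P032.Fam.fam3 Vale.Agent.P032.Fam.im0) WQ010.W277 := ⟨[0, 8, 16, 24, 32, 40, 48, 4, 12, 20, 28, 36, 44, 52, 60, 68, 76, 84, 92, 100, 108, 116, 124, 132, 140, 148, 156, 164, 172, 180, 50741721, 75038721, 21234137, 58425345, 33030209],
  Vale.Agent.P032.Lt.q_of (e' := WQ010.e277) (by decide +kernel) WQ010.q277⟩

theorem w278 : Wx (EX xs7) Vale.Agent.P032X.Cert.X3.t1 (Vale.Agent.P032.Fam.fam3 Vale.Agent.P032.Fam.im0) WQ010.W278 := ⟨[0, 8, 16, 24, 32, 40, 48, 4, 12, 20, 28, 36, 44, 52, 60, 68, 76, 84, 92, 100, 108, 116, 124, 132, 44056577],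
  Vale.Agent.P032.Lt.q_of (e' := WQ010.e278) (by decide +kernel) WQ010.q278⟩

theorem w279 : Wx (EX xs7) Vale.Agent.P032X.Cert.X3.t1 (Vale.Agent.P032.Fam.fam3 Vale.Agent.P032.Fam.im0) WQ010.W279 := ⟨[0, 8, 16, 24, 32, 40, 48, 4, 12, 20, 28, 36, 44, 52, 60, 68, 76, 84, 92, 100, 108, 116, 124, 132, 140, 148, 156, 53559425, 53559297],
  Vale.Agent.P032.Lt.q_of (e' := WQ010.e279) (by decide +kernel) WQ010.q279⟩

theorem w280 : Wx (EX xs7) Vale.Agent.P032X.Cert.X3.t1 (Vale.Agent.P032.Fam.fam3 Vale.Agent.P032.Fam.im0) WQ010.W280 := ⟨[0, 8, 16, 24, 32, 40, 48, 4, 12, 20, 28, 36, 44, 52, 60, 68, 76, 84, 92, 100, 108, 116, 124, 132, 140, 148, 156, 164, 17956865, 88873409, 69206721, 93323265, 2424838, 2949126],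
  Vale.Agent.P032.Lt.q_of (e' := WQ010.e280) (by decide +kernel) WQ010.q280⟩

theorem w281 : Wx (EX xs7) Vale.Agent.P032X.Cert.X3.t1 (Vale.Agent.P032.Fam.fam3 Vale.Agent.P032.Fam.im0) WQ010.W281 := ⟨[0, 8, 16, 24, 32, 40, 48, 4, 12, 20, 28, 36, 44, 52, 60, 68, 76, 84, 92, 100, 108, 116, 124, 132, 140, 148, 156, 60180689, 130777089],
  Vale.Agent.P032.Lt.q_of (e' := WQ010.e281) (by decide +kernel) WQ010.q281⟩

theorem w282 : Wx (EX xs7) Vale.Agent.P032X.Cert.X3.t1 (Vale.Agent.P032.Fam.fam3 Vale.Agent.P032.Fam.im0) WQ010.W282 := ⟨[0, 8, 16, 24, 32, 40, 48, 4, 12, 20, 28, 36, 44, 52, 60, 68, 76, 84, 92, 100, 108, 116, 124, 132, 140, 148, 156, 164, 43008001, 3670017, 55312385, 2424838, 2949126],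
  Vale.Agent.P032.Lt.q_of (e' := WQ010.e282) (by decide +kernel) WQ010.q282⟩

theorem w283 : Wx (EX xs7) Vale.Agent.P032X.Cert.X3.t1 (Vale.Agent.P032.Fam.fam3 Vale.Agent.P032.Fam.im0) WQ010.W283 := ⟨[0, 8, 16, 24, 32, 40, 48, 4, 12, 20, 28, 36, 44, 52, 60, 68, 76, 84, 92, 100, 108, 116, 124, 132, 140, 148, 156, 164, 172, 180, 124390849, 130321857, 125046681, 10492489, 95191041, 91229657],
  Vale.Agent.P032.Lt.q_of (e' := WQ010.e283) (by decide +kernel) WQ010.q283⟩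

theorem w284 : Wx (EX xs7) Vale.Agent.P032X.Cert.X3.t1 (Vale.Agent.P032.Fam.fam3 Vale.Agent.P032.Fam.im0) WQ010.W284 := ⟨[0, 8, 16, 24, 32, 40, 48, 4, 12, 20, 28, 36, 44, 52, 60, 68, 76, 84, 92, 100, 108, 116, 124, 132, 140, 148, 156, 164, 172, 61079961, 67633177, 11010177, 91128217, 18612633, 55067033, 85721497, 2424838, 2949126],
  Vale.Agent.P032.Lt.q_of (e' := WQ010.e284) (by decide +kernel) WQ010.q284⟩

theorem w285 : Wx (EX xs7) Vale.Agent.P032X.Cert.X3.t1 (Vale.Agent.P032.Fam.fam3 Vale.Agent.P032.Fam.im0) WQ010.W285 := ⟨[0, 8, 16, 24, 32, 40, 48, 4, 12, 20, 28, 36, 44, 52, 60, 68, 76, 84, 92, 100, 108, 116, 124, 132, 140, 148, 156, 164, 172, 180, 188, 196, 204, 212, 69206617, 131334145, 37224449, 67633177, 61079961, 79167553, 67633537, 37755673, 6291521, 18874369, 6291929, 50184833, 92803929, 76349441, 105119745, 58196377, 100860313, 16974233, 121798657, 49365401, 19480985, 36258201, 87982489,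 86671769],
  Vale.Agent.P032.Lt.q_of (e' := WQ010.e285) (by decide +kernel) WQ010.q285⟩

theorem w286 : Wx (EX xs7) Vale.Agent.P032X.Cert.X3.t1 (Vale.Agent.P032.Fam.fam3 Vale.Agent.P032.Fam.im0) WQ010.W286 := ⟨[0, 8, 16, 24, 32, 40, 48, 4, 12, 20, 28, 36, 44, 52, 60, 68, 76, 84, 92, 100, 108, 116, 124, 132, 140, 148, 156, 164, 172, 180, 188, 196, 204, 14319617, 123243993, 50417113, 28544473, 81432025, 27037145, 70942721, 114982913, 31100377, 47874049, 61574617, 95129049, 28016641, 42028505, 25247745, 8470529, 3833857, 64651265, 98205697, 851974, 1376262, 2949126],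
  Vale.Agent.P032.Lt.q_of (e' := WQ010.e286) (by decide +kernel) WQ010.q286⟩

theorem w287 : Wx (EX xs7) Vale.Agent.P032X.Cert.X3.t1 (Vale.Agent.P032.Fam.fam3 Vale.Agent.P032.Fam.im0) WQ010.W287 := ⟨[0, 8, 16, 24, 32, 40, 48, 4, 12, 20, 28, 36, 44, 52, 60, 68, 76, 84, 92, 100, 108, 116, 124, 132, 140, 148, 156, 164, 172, 180, 188, 55312385, 115998721, 48889857, 11681793, 62734337, 19595265, 54067673, 55853057, 5373953, 131898793, 86704129, 131334553, 121373081, 28180481, 44957697, 278529, 44433409, 32112641, 65667073, 44761089, 53149697, 851974, 2424838, 2949126],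
  Vale.Agent.P032.Lt.q_of (e' := WQ010.e287) (by decide +kernel) WQ010.q287⟩

theorem w288 : Wx (EX xs7) Vale.Agent.P032X.Cert.X3.t1 (Vale.Agent.P032.Fam.fam3 Vale.Agent.P032.Fam.im0) WQ010.W288 := ⟨[0, 8, 16, 24, 32, 40, 48, 4, 12, 20, 28, 36, 44, 52, 60, 68, 76, 84, 92, 100, 108, 116, 124, 132, 140, 148, 156, 164, 172, 180, 188, 196, 204, 122945537, 42992025, 35258369, 63832065, 22298625, 103481345, 49168857, 58851329, 12353537, 95289345, 7667713, 74318233, 43646977, 112066561, 94961665, 8667137, 82673665, 17055745, 77201409, 132782273, 52035585, 1376262, 1900550, 2949126],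
  Vale.Agent.P032.Lt.q_of (e' := WQ010.e288) (by decide +kernel) WQ010.q288⟩

theorem w289 : Wx (EX xs7) Vale.Agent.P032X.Cert.X3.t1 (Vale.Agent.P032.Fam.fam3 Vale.Agent.P032.Fam.im0) WQ011.W289 := ⟨[0, 8, 16, 24, 32, 40, 48, 4, 12, 20, 28, 36, 44, 52, 60, 68, 76, 84, 92, 100, 108, 116, 124, 132, 140, 148, 156, 164, 172, 180, 28311553, 130940929, 43008473, 3670489, 69926913, 133234689, 63832065, 35258369, 34144257, 103481345, 22298625, 85590017, 95289345, 112066561, 99680257, 78315521, 11213593, 46537497, 36569089, 70123521, 36379417, 66125825, 58851329, 132782273, 52035585, 120258561, 851974, 1900550, 2949126],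
  Vale.Agent.P032.Lt.q_of (e' := WQ011.e289) (by decide +kernel) WQ011.q289⟩

theorem w290 : Wx (EX xs7) Vale.Agent.P032X.Cert.X3.t1 (Vale.Agent.P032.Fam.fam3 Vale.Agent.P032.Fam.im0) WQ011.W290 := ⟨[0, 8, 16, 24, 32, 40, 48, 4, 12, 20, 28, 36, 44, 52, 60, 68, 76, 84, 92, 100, 108, 116, 124, 132, 140, 148, 156, 164, 172, 180, 90577233, 56754649, 14811609, 127008769, 86802497, 1900550, 2949126],
  Vale.Agent.P032.Lt.q_of (e' := WQ011.e290) (by decide +kernel) WQ011.q290⟩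

theorem w291 : Wx (EX xs7) Vale.Agent.P032X.Cert.X3.t1 (Vale.Agent.P032.Fam.fam3 Vale.Agent.P032.Fam.im0) WQ011.W291 := ⟨[0, 8, 16, 24, 32, 40, 48, 4, 12, 20, 28, 36, 44, 52, 60, 68, 76, 84, 92, 100, 108, 116, 124, 132, 140, 148, 156, 164, 172, 180, 37224921, 12812289, 126025729, 67633793, 67633601, 1376262, 1900550, 2949126],
  Vale.Agent.P032.Lt.q_of (e' := WQ011.e291) (by decide +kernel) WQ011.q291⟩

theorem w292 : Wx (EX xs7) Vale.Agent.P032X.Cert.X3.t1 (Vale.Agent.P032.Fam.fam3 Vale.Agent.P032.Fam.im0) WQ011.W292 := ⟨[0, 8, 16, 24, 32, 40, 48, 4, 12, 20, 28, 36, 44, 52, 60, 68, 76, 84, 92, 100, 108, 116, 21102593, 41680897, 15010841, 42729473, 50188353, 92799321, 72351745, 58572801, 38797313, 105611265, 44974081, 29530689, 37486593, 5247389, 335878, 851974, 860166, 2424838, 2433030, 2949126],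
  Vale.Agent.P032.Lt.q_of (e' := WQ011.e292) (by decide +kernel) WQ011.q292⟩

theorem w293 : Wx (EX xs7) Vale.Agent.P032X.Cert.X3.t1 (Vale.Agent.P032.Fam.fam3 Vale.Agent.P032.Fam.im0) WQ011.W293 := ⟨[0, 8, 16, 24, 32, 40, 48, 4, 12, 20, 28, 36, 44, 52, 60, 68, 76, 84, 92, 100, 108, 116, 124, 132, 140, 148, 156, 164, 172, 180, 188, 63177985, 76746137, 79953921, 113508353, 61095937, 61210625, 50921473, 43188225, 851974, 1376262, 1900550, 2949126],
  Vale.Agent.P032.Lt.q_of (e' := WQ011.e293) (by decide +kernel) WQ011.q293⟩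

theorem w294 : Wx (EX xs7) Vale.Agent.P032X.Cert.X3.t1 (Vale.Agent.P032.Fam.fam3 Vale.Agent.P032.Fam.im0) WQ011.W294 := ⟨[0, 8, 16, 24, 32, 40, 48, 4, 12, 20, 28, 36, 44, 52, 60, 68, 76, 84, 92, 100, 108, 116, 124, 132, 140, 148, 156, 164, 39780481, 8392089, 58722065, 85461025, 87559577, 62767105, 126877697, 49348709, 25691289, 39976961, 99090433, 60751873, 127860993, 851974, 860166, 1900550, 2949126],
  Vale.Agent.P032.Lt.q_of (e' := WQ011.e294) (by decide +kernel) WQ011.q294⟩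

theorem w295 : Wx (EX xs7) Vale.Agent.P032X.Cert.X3.t1 (Vale.Agent.P032.Fam.fam3 Vale.Agent.P032.Fam.im0) WQ011.W295 := ⟨[0, 8, 16, 24, 32, 40, 48, 4, 12, 20, 28, 36, 44, 52, 60, 68, 76, 84, 92, 100, 108, 116, 124, 132, 140, 148, 156, 164, 172, 180, 188, 196, 204, 212, 61080793, 67633497, 61079961, 67633177, 131334145, 19152897, 98631681, 103153665, 1703937, 58851393, 49168793, 1376262, 2424838, 2949126],
  Vale.Agent.P032.Lt.q_of (e' := WQ011.e295) (by decide +kernel) WQ011.q295⟩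

theorem w296 : Wx (EX xs7) Vale.Agent.P032X.Cert.X3.t1 (Vale.Agent.P032.Fam.fam3 Vale.Agent.P032.Fam.im0) WQ011.W296 := ⟨[0, 8, 16, 24, 32, 40, 48, 4, 12, 20, 28, 36, 44, 52, 60, 68, 76, 84, 92, 100, 108, 116, 124, 132, 140, 148, 156, 164, 172, 180, 188, 196, 204, 212, 220, 228, 131334145, 61145153, 67633665, 6291521, 42992089, 41566681, 8011841, 36847617, 39669905, 10617305, 65765849, 65077249, 11370497, 86867969, 73433497, 43335681, 26558465, 53314073, 120422401, 30965825, 13467649, 132874713, 44925337, 103645185, 49168793, 25772441, 83984793, 1802713, 30244865, 130908161, 78479361, 2981889, 99319809, 54689793, 59326465],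
  Vale.Agent.P032.Lt.q_of (e' := WQ011.e296) (by decide +kernel) WQ011.q296⟩

theorem w297 : Wx (EX xs7) Vale.Agent.P032X.Cert.X3.t1 (Vale.Agent.P032.Fam.fam3 Vale.Agent.P032.Fam.im0) WQ011.W297 := ⟨[0, 8, 16, 24, 32, 40, 48, 4, 12, 20, 28, 36, 44, 52, 60, 68, 76, 84, 92, 100, 108, 116, 124, 132, 140, 123735065, 123732481, 106168321],
  Vale.Agent.P032.Lt.q_of (e' := WQ011.e297) (by decide +kernel) WQ011.q297⟩

theorem w298 : Wx (EX xs7) Vale.Agent.P032X.Cert.X3.t1 (Vale.Agent.P032.Fam.fam3 Vale.Agent.P032.Fam.im0) WQ011.W298 := ⟨[0, 8, 16, 24, 32, 40, 48, 4, 12, 20, 28, 36, 44, 52, 60, 68, 76, 84, 92, 100, 108, 116, 124, 132, 140, 148, 156, 164, 172, 180, 188, 81789401, 35848601, 19759105, 101580801, 50102745, 10420697, 16138713, 77529089, 1703937, 121798657, 48234969, 54689793, 55345153, 25692817, 2424838, 2949126],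
  Vale.Agent.P032.Lt.q_of (e' := WQ011.e298) (by decide +kernel) WQ011.q298⟩

theorem w299 : Wx (EX xs7) Vale.Agent.P032X.Cert.X3.t1 (Vale.Agent.P032.Fam.fam3 Vale.Agent.P032.Fam.im0) WQ011.W299 := ⟨[0, 8, 16, 24, 32, 40, 48, 4, 12, 20, 28, 36, 44, 52, 60, 68, 76, 84, 92, 100, 108, 116, 124, 132, 140, 148, 156, 133627905, 133628313],
  Vale.Agent.P032.Lt.q_of (e' := WQ011.e299) (by decide +kernel) WQ011.q299⟩

def L : List (List ℕ) := [WQ008.W200, WQ008.W201, WQ008.W202, WQ008.W203, WQ008.W204, WQ008.W205, WQ008.W206, WQ008.W207, WQ008.W208, WQ008.W209, WQ008.W210, WQ008.W211, WQ008.W212, WQ008.W213, WQ008.W214, WQ008.W215, WQ008.W216, WQ008.W217, WQ008.W218, WQ008.W219, WQ008.W220, WQ008.W221, WQ008.W222, WQ008.W223, WQ008.W224, WQ008.W225, WQ008.W226, WQ008.W227, WQ008.W228, WQ008.W229, WQ008.W230, WQ009.W231, WQ009.W232, WQ009.W233, WQ009.W234, WQ009.W235, WQ009.W236, WQ009.W237, WQ009.W238, WQ009.W239,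 WQ009.W240, WQ009.W241, WQ009.W242, WQ009.W243, WQ009.W244, WQ009.W245, WQ009.W246, WQ009.W247, WQ009.W248, WQ009.W249, WQ009.W250, WQ009.W251, WQ009.W252, WQ009.W253, WQ009.W254, WQ009.W255, WQ010.W256, WQ010.W257, WQ010.W258, WQ010.W259, WQ010.W260, WQ010.W261, WQ010.W262, WQ010.W263, WQ010.W264, WQ010.W265, WQ010.W266, WQ010.W267, WQ010.W268, WQ010.W269, WQ010.W270, WQ010.W271, WQ010.W272, WQ010.W273, WQ010.W274, WQ010.W275, WQ010.W276, WQ010.W277, WQ010.W278, WQ010.W279, WQ010.W280, WQ010.W281, WQ010.W282, WQ010.W283, WQ010.W284, WQ010.W285, WQ010.W286, WQ010.W287, WQ010.W288, WQ011.W289, WQ011.W290, WQ011.W291, WQ011.W292, WQ011.W293, WQ011.W294, WQ011.W295, WQ011.W296, WQ011.W297, WQ011.W298, WQ011.W299]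

theorem all : ∀ P ∈ L, Wx (EX xs7) Vale.Agent.P032X.Cert.X3.t1 (Vale.Agent.P032.Fam.fam3 Vale.Agent.P032.Fam.im0) P := wx_cons w200 (wx_cons w201 (wx_cons w202 (wx_cons w203 (wx_cons w204 (wx_cons w205 (wx_cons w206 (wx_cons w207 (wx_cons w208 (wx_cons w209 (wx_cons w210 (wx_cons w211 (wx_cons w212 (wx_cons w213 (wx_cons w214 (wx_cons w215 (wx_cons w216 (wx_cons w217 (wx_cons w218 (wx_cons w219 (wx_cons w220 (wx_cons w221 (wx_cons w222 (wx_cons w223 (wx_cons w224 (wx_cons w225 (wx_cons w226 (wx_cons w227 (wx_cons w228 (wx_cons w229 (wx_cons w230 (wx_cons w231 (wx_cons w232 (wx_cons w233 (wx_cons w234 (wx_cons w235 (wx_cons w236 (wx_cons w237 (wx_cons w238 (wx_cons w239 (wx_cons w240 (wx_cons w241 (wx_cons w242 (wx_cons w243 (wx_cons w244 (wx_cons w245 (wx_cons w246 (wx_cons w247 (wx_cons w248 (wx_cons w249 (wx_cons w250 (wx_cons w251 (wx_cons w252 (wx_cons w253 (wx_cons w254 (wx_cons w255 (wx_cons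 w256 (wx_cons w257 (wx_cons w258 (wx_cons w259 (wx_cons w260 (wx_cons w261 (wx_cons w262 (wx_cons w263 (wx_cons w264 (wx_cons w265 (wx_cons w266 (wx_cons w267 (wx_cons w268 (wx_cons w269 (wx_cons w270 (wx_cons w271 (wx_cons w272 (wx_cons w273 (wx_cons w274 (wx_cons w275 (wx_cons w276 (wx_cons w277 (wx_cons w278 (wx_cons w279 (wx_cons w280 (wx_cons w281 (wx_cons w282 (wx_cons w283 (wx_cons w284 (wx_cons w285 (wx_cons w286 (wx_cons w287 (wx_cons w288 (wx_cons w289 (wx_cons w290 (wx_cons w291 (wx_cons w292 (wx_cons w293 (wx_cons w294 (wx_cons w295 (wx_cons w296 (wx_cons w297 (wx_cons w298 (wx_cons w299 wx_nil)))))))))))))))))))))))))))))))))))))))))))))))))))))))))))))))))))))))))))))))))))))))))))))))))))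

theorem ch : chT 73 73 TCm Vale.Agent.P032X.Cert.X3.W1.sW_002 L = true := by decide +kernel

end Vale.Agent.P032X.Cert.X3.W1.WH002
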