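import Vale.Agent.P032X.H892.LtH
import Vale.Agent.P032X.H286.A73
import Vale.Agent.P032X.Cert.X3.T1
import Vale.Agent.P032X.Cert.X3.W1.WT
import Vale.Agent.P032X.Cert.X3.W1.WQ012
import Vale.Agent.P032X.Cert.X3.W1.WQ013
import Vale.Agent.P032X.Cert.X3.W1.WQ014
import Vale.Agent.P032X.Cert.X3.W1.WQ015
import Vale.Agent.P032X.Cert.X3.W1.WQ016

set_option maxRecDepth 1000000

namespace Vale.Agent.P032X.Cert.X3.W1.WH003

open Vale.Agent.P032.H820.K Vale.Agent.P032.H357.MK Vale.Agent.P032.H286.E Vale.Agent.P032.H61 Vale.Agent.P032.H61.TF Vale.Agent.P032.BlkE Vale.Agent.P032.BlkS Vale.Agent.P032.H357 Vale.Agent.P032 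

theorem w300 : Wx (EX xs7) Vale.Agent.P032X.Cert.X3.t1 (Vale.Agent.P032.Fam.fam3 Vale.Agent.P032.Fam.im0) WQ012.W300 := ⟨[0, 8, 16, 24, 32, 40, 48, 4, 12, 20, 28, 36, 44, 52, 60, 68, 76, 84, 92, 100, 108, 116, 124, 132, 12582913, 121639873, 105709633, 38944833, 20119617, 87228481, 72679425, 5570561],
  Vale.Agent.P032.Lt.q_of (e' := WQ012.e300) (by decide +kernel) WQ012.q300⟩

theorem w301 : Wx (EX xs7) Vale.Agent.P032X.Cert.X3.t1 (Vale.Agent.P032.Fam.fam3 Vale.Agent.P032.Fam.im0) WQ012.W301 := ⟨[0, 8, 16, 24, 32, 40, 48, 4, 12, 20, 28, 36, 44, 52, 60, 68, 76, 84, 92, 100, 108, 116, 124, 132, 109936641, 65355777, 1376262, 1900550, 2949126],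
  Vale.Agent.P032.Lt.q_of (e' := WQ012.e301) (by decide +kernel) WQ012.q301⟩

theorem w302 : Wx (EX xs7) Vale.Agent.P032X.Cert.X3.t1 (Vale.Agent.P032.Fam.fam3 Vale.Agent.P032.Fam.im0) WQ012.W302 := ⟨[0, 8, 16, 24, 32, 40, 48, 4, 12, 20, 28, 36, 44, 52, 60, 68, 76, 84, 92, 100, 108, 116, 124, 132, 140, 105449369, 42732569, 32243713, 91098521, 63475097, 34180825, 30170329, 60034457, 127145217, 83886145, 2424838, 2949126],
  Vale.Agent.P032.Lt.q_of (e' := WQ012.e302) (by decide +kernel) WQ012.q302⟩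

theorem w303 : Wx (EX xs7) Vale.Agent.P032X.Cert.X3.t1 (Vale.Agent.P032.Fam.fam3 Vale.Agent.P032.Fam.im0) WQ012.W303 := ⟨[0, 8, 16, 24, 32, 40, 48, 4, 12, 20, 28, 36, 44, 52, 60, 68, 76, 84, 92, 100, 108, 116, 124, 132, 140, 148, 156, 164, 172, 180, 188, 196, 204, 212, 131334553, 278529, 68812801, 115998721, 48889857, 5373953, 65667073, 3014657, 15073281, 41353625, 121373081, 28180481, 61734913, 44957697, 32112641, 62734337, 9260841],
  Vale.Agent.P032.Lt.q_of (e' := WQ012.e303) (by decide +kernel) WQ012.q303⟩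

theorem w304 : Wx (EX xs7) Vale.Agent.P032X.Cert.X3.t1 (Vale.Agent.P032.Fam.fam3 Vale.Agent.P032.Fam.im0) WQ012.W304 := ⟨[0, 8, 16, 24, 32, 40, 48, 4, 12, 20, 28, 36, 44, 52, 60, 68, 76, 84, 92, 100, 108, 116, 124, 132, 140, 148, 156, 85983297, 85983233],
  Vale.Agent.P032.Lt.q_of (e' := WQ012.e304) (by decide +kernel) WQ012.q304⟩

theorem w305 : Wx (EX xs7) Vale.Agent.P032X.Cert.X3.t1 (Vale.Agent.P032.Fam.fam3 Vale.Agent.P032.Fam.im0) WQ012.W305 := ⟨[0, 8, 16, 24, 32, 40, 48, 4, 12, 20, 28, 36, 44, 52, 60, 68, 76, 84, 92, 100, 108, 116, 124, 132, 140, 148, 156, 164, 5507537, 69732449, 63177985, 124518401, 5507153, 851974, 1376262, 2424838, 2949126],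
  Vale.Agent.P032.Lt.q_of (e' := WQ012.e305) (by decide +kernel) WQ012.q305⟩

theorem w306 : Wx (EX xs7) Vale.Agent.P032X.Cert.X3.t1 (Vale.Agent.P032.Fam.fam3 Vale.Agent.P032.Fam.im0) WQ012.W306 := ⟨[0, 8, 16, 24, 32, 40, 48, 4, 12, 20, 28, 36, 44, 52, 60, 68, 76, 84, 92, 100, 108, 116, 124, 132, 140, 148, 156, 164, 172, 46153729],
  Vale.Agent.P032.Lt.q_of (e' := WQ012.e306) (by decide +kernel) WQ012.q306⟩

theorem w307 : Wx (EX xs7) Vale.Agent.P032X.Cert.X3.t1 (Vale.Agent.P032.Fam.fam3 Vale.Agent.P032.Fam.im0) WQ012.W307 := ⟨[0, 8, 16, 24, 32, 40, 48, 4, 12, 20, 28, 36, 44, 52, 60, 68, 76, 84, 92, 100, 108, 116, 124, 132, 140, 148, 156, 164, 172, 130023553, 104988737, 112590913, 45482049, 116129857, 32243777, 98570049, 1900550, 2949126],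
  Vale.Agent.P032.Lt.q_of (e' := WQ012.e307) (by decide +kernel) WQ012.q307⟩

theorem w308 : Wx (EX xs7) Vale.Agent.P032X.Cert.X3.t1 (Vale.Agent.P032.Fam.fam3 Vale.Agent.P032.Fam.im0) WQ012.W308 := ⟨[0, 8, 16, 24, 32, 40, 48, 4, 12, 20, 28, 36, 44, 52, 60, 68, 76, 84, 92, 100, 108, 116, 124, 132, 140, 148, 156, 164, 172, 32407553, 130777089, 38289409, 1900550, 2949126],
  Vale.Agent.P032.Lt.q_of (e' := WQ012.e308) (by decide +kernel) WQ012.q308⟩

theorem w309 : Wx (EX xs7) Vale.Agent.P032X.Cert.X3.t1 (Vale.Agent.P032.Fam.fam3 Vale.Agent.P032.Fam.im0) WQ012.W309 := ⟨[0, 8, 16, 24, 32, 40, 48, 4, 12, 20, 28, 36, 44, 52, 60, 68, 76, 84, 92, 100, 108, 116, 124, 132, 140, 148, 156, 164, 172, 98570433, 69992449, 123797505, 860166, 2424838, 2949126],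
  Vale.Agent.P032.Lt.q_of (e' := WQ012.e309) (by decide +kernel) WQ012.q309⟩

theorem w310 : Wx (EX xs7) Vale.Agent.P032X.Cert.X3.t1 (Vale.Agent.P032.Fam.fam3 Vale.Agent.P032.Fam.im0) WQ012.W310 := ⟨[0, 8, 16, 24, 32, 40, 48, 4, 12, 20, 28, 36, 44, 52, 60, 68, 76, 84, 92, 100, 108, 116, 124, 132, 140, 148, 156, 164, 63177665, 63178049, 63184081, 56623105, 37754577, 56623169],
  Vale.Agent.P032.Lt.q_of (e' := WQ012.e310) (by decide +kernel) WQ012.q310⟩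

theorem w311 : Wx (EX xs7) Vale.Agent.P032X.Cert.X3.t1 (Vale.Agent.P032.Fam.fam3 Vale.Agent.P032.Fam.im0) WQ012.W311 := ⟨[0, 8, 16, 24, 32, 40, 48, 4, 12, 20, 28, 36, 44, 52, 60, 68, 76, 84, 92, 100, 108, 116, 124, 132, 140, 148, 156, 164, 172, 105385373, 1376262, 1900550, 2424838],
  Vale.Agent.P032.Lt.q_of (e' := WQ012.e311) (by decide +kernel) WQ012.q311⟩

theorem w312 : Wx (EX xs7) Vale.Agent.P032X.Cert.X3.t1 (Vale.Agent.P032.Fam.fam3 Vale.Agent.P032.Fam.im0) WQ012.W312 := ⟨[0, 8, 16, 24, 32, 40, 48, 4, 12, 20, 28, 36, 44, 52, 60, 68, 76, 84, 92, 100, 108, 116, 124, 132, 140, 148, 12091457, 116129857, 26492929, 30168793, 10485825],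
  Vale.Agent.P032.Lt.q_of (e' := WQ012.e312) (by decide +kernel) WQ012.q312⟩

theorem w313 : Wx (EX xs7) Vale.Agent.P032X.Cert.X3.t1 (Vale.Agent.P032.Fam.fam3 Vale.Agent.P032.Fam.im0) WQ012.W313 := ⟨[0, 8, 16, 24, 32, 40, 48, 4, 12, 20, 28, 36, 44, 52, 60, 68, 76, 84, 92, 100, 108, 116, 124, 132, 140, 148, 156, 164, 172, 180, 188, 106168321, 24674305, 49021825, 58228737, 91783169, 31866881, 1900550, 2424838, 2433030, 2949126],
  Vale.Agent.P032.Lt.q_of (e' := WQ012.e313) (by decide +kernel) WQ012.q313⟩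

theorem w314 : Wx (EX xs7) Vale.Agent.P032X.Cert.X3.t1 (Vale.Agent.P032.Fam.fam3 Vale.Agent.P032.Fam.im0) WQ012.W314 := ⟨[0, 8, 16, 24, 32, 40, 48, 4, 12, 20, 28, 36, 44, 52, 60, 68, 76, 84, 92, 100, 108, 116, 124, 132, 140, 148, 156, 164, 172, 180, 188, 196, 204, 212, 220, 228, 236, 82575361, 114560793, 46566809, 527769, 90441761, 95948185, 99647489, 28839321, 15928897, 30674625, 28347841, 130321857, 17633049, 64229273],
  Vale.Agent.P032.Lt.q_of (e' := WQ012.e314) (by decide +kernel) WQ012.q314⟩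

theorem w315 : Wx (EX xs7) Vale.Agent.P032X.Cert.X3.t1 (Vale.Agent.P032.Fam.fam3 Vale.Agent.P032.Fam.im0) WQ012.W315 := ⟨[0, 8, 16, 24, 32, 40, 48, 4, 12, 20, 28, 36, 44, 52, 60, 68, 76, 84, 92, 100, 108, 116, 124, 132, 140, 148, 156, 164, 172, 180, 188, 196, 204, 61341697, 26152345, 103284737, 61341761, 11599873, 22941081, 46399489, 59706777, 127795201, 60686337, 5180825, 57999361, 125108225, 79953921, 110034945, 93257857, 126815641, 35274753, 27331993, 11816345, 73272729, 6160449, 90049945, 72289689, 20204953, 56495513, 45370777, 81661337, 14552473, 98107393, 123604377, 53759385, 104992153, 29900801, 860166, 1384454, 1900550, 2949126],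
  Vale.Agent.P032.Lt.q_of (e' := WQ012.e315) (by decide +kernel) WQ012.q315⟩

theorem w316 : Wx (EX xs7) Vale.Agent.P032X.Cert.X3.t1 (Vale.Agent.P032.Fam.fam3 Vale.Agent.P032.Fam.im0) WQ012.W316 := ⟨[0, 8, 16, 24, 32, 40, 48, 4, 12, 20, 28, 36, 44, 52, 60, 68, 76, 84, 92, 100, 108, 116, 124, 132, 140, 148, 156, 164, 172, 180, 31985433, 69992513, 116129857, 95946385, 28837521, 62391953, 30168793, 88871713],
  Vale.Agent.P032.Lt.q_of (e' := WQ012.e316) (by decide +kernel) WQ012.q316⟩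

theorem w317 : Wx (EX xs7) Vale.Agent.P032X.Cert.X3.t1 (Vale.Agent.P032.Fam.fam3 Vale.Agent.P032.Fam.im0) WQ012.W317 := ⟨[0, 8, 16, 24, 32, 40, 48, 4, 12, 20, 28, 36, 44, 52, 60, 68, 76, 84, 92, 100, 108, 116, 124, 132, 140, 148, 156, 164, 127467521, 335878, 851974, 1376262, 1900550, 1908742, 2433030],
  Vale.Agent.P032.Lt.q_of (e' := WQ012.e317) (by decide +kernel) WQ012.q317⟩

theorem w318 : Wx (EX xs7) Vale.Agent.P032X.Cert.X3.t1 (Vale.Agent.P032.Fam.fam3 Vale.Agent.P032.Fam.im0) WQ012.W318 := ⟨[0, 8, 16, 24, 32, 40, 48, 4, 12, 20, 28, 36, 44, 52, 60, 68, 76, 84, 92, 100, 108, 116, 124, 132, 140, 148, 156, 164, 172, 99621985, 129768421],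
  Vale.Agent.P032.Lt.q_of (e' := WQ012.e318) (by decide +kernel) WQ012.q318⟩

theorem w319 : Wx (EX xs7) Vale.Agent.P032X.Cert.X3.t1 (Vale.Agent.P032.Fam.fam3 Vale.Agent.P032.Fam.im0) WQ012.W319 := ⟨[0, 8, 16, 24, 32, 40, 48, 4, 12, 20, 28, 36, 44, 52, 60, 68, 76, 84, 92, 100, 108, 116, 124, 132, 140, 148, 156, 164, 172, 11931097, 51183681, 101875713, 17989697, 851974, 860166, 1392646, 2424838, 2433030, 2949126],
  Vale.Agent.P032.Lt.q_of (e' := WQ012.e319) (by decide +kernel) WQ012.q319⟩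

theorem w320 : Wx (EX xs7) Vale.Agent.P032X.Cert.X3.t1 (Vale.Agent.P032.Fam.fam3 Vale.Agent.P032.Fam.im0) WQ012.W320 := ⟨[0, 8, 16, 24, 32, 40, 48, 4, 12, 20, 28, 36, 44, 52, 60, 68, 76, 84, 92, 100, 108, 116, 124, 132, 140, 148, 156, 164, 28410073, 57229529],
  Vale.Agent.P032.Lt.q_of (e' := WQ012.e320) (by decide +kernel) WQ012.q320⟩

theorem w321 : Wx (EX xs7) Vale.Agent.P032X.Cert.X3.t1 (Vale.Agent.P032.Fam.fam3 Vale.Agent.P032.Fam.im0) WQ012.W321 := ⟨[0, 8, 16, 24, 32, 40, 48, 4, 12, 20, 28, 36, 44, 52, 60, 68, 76, 84, 92, 100, 108, 116, 124, 132, 140, 148, 156, 164, 39128857, 20973793, 91131393],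
  Vale.Agent.P032.Lt.q_of (e' := WQ012.e321) (by decide +kernel) WQ012.q321⟩

theorem w322 : Wx (EX xs7) Vale.Agent.P032X.Cert.X3.t1 (Vale.Agent.P032.Fam.fam3 Vale.Agent.P032.Fam.im0) WQ012.W322 := ⟨[0, 8, 16, 24, 32, 40, 48, 4, 12, 20, 28, 36, 44, 52, 60, 68, 76, 84, 92, 100, 108, 116, 124, 132, 140, 148, 156, 164, 172, 180, 188, 116949913, 132743193, 33062937],
  Vale.Agent.P032.Lt.q_of (e' := WQ012.e322) (by decide +kernel) WQ012.q322⟩

theorem w323 : Wx (EX xs7) Vale.Agent.P032X.Cert.X3.t1 (Vale.Agent.P032.Fam.fam3 Vale.Agent.P032.Fam.im0) WQ012.W323 := ⟨[0, 8, 16, 24, 32, 40, 48, 4, 12, 20, 28, 36, 44, 52, 60, 68, 76, 84, 92, 100, 108, 116, 124, 132, 140, 148, 156, 164, 172, 180, 188, 196, 204, 212, 220, 19220937, 69273993, 72877641, 65537545],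
  Vale.Agent.P032.Lt.q_of (e' := WQ012.e323) (by decide +kernel) WQ012.q323⟩

theorem w324 : Wx (EX xs7) Vale.Agent.P032X.Cert.X3.t1 (Vale.Agent.P032.Fam.fam3 Vale.Agent.P032.Fam.im0) WQ012.W324 := ⟨[0, 8, 16, 24, 32, 40, 48, 4, 12, 20, 28, 36, 44, 52, 60, 68, 76, 84, 92, 100, 108, 116, 124, 132, 140, 148, 156, 164, 172, 180, 78512129, 114950145, 88375297, 98172929, 88145921, 21037465, 11010113, 1900550, 2949126],
  Vale.Agent.P032.Lt.q_of (e' := WQ012.e324) (by decide +kernel) WQ012.q324⟩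

theorem w325 : Wx (EX xs7) Vale.Agent.P032X.Cert.X3.t1 (Vale.Agent.P032.Fam.fam3 Vale.Agent.P032.Fam.im0) WQ012.W325 := ⟨[0, 8, 16, 24, 32, 40, 48, 4, 12, 20, 28, 36, 44, 52, 60, 68, 76, 84, 92, 100, 108, 116, 124, 132, 140, 148, 156, 164, 172, 180, 188, 196, 204, 212, 220, 36700353, 3145753, 85885081, 6946841, 52330689, 88834049, 119439489, 55279617, 21725185, 2424838, 2949126],
  Vale.Agent.P032.Lt.q_of (e' := WQ012.e325) (by decide +kernel) WQ012.q325⟩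

theorem w326 : Wx (EX xs7) Vale.Agent.P032X.Cert.X3.t1 (Vale.Agent.P032.Fam.fam3 Vale.Agent.P032.Fam.im0) WQ012.W326 := ⟨[0, 8, 16, 24, 32, 40, 48, 4, 12, 20, 28, 36, 44, 52, 60, 68, 76, 84, 92, 100, 108, 116, 124, 132, 140, 148, 156, 164, 172, 180, 188, 196, 204, 212, 131072001, 5914625, 101580801, 52625817, 105054209, 69140609, 35586177, 102695041, 2424838, 2949126],
  Vale.Agent.P032.Lt.q_of (e' := WQ012.e326) (by decide +kernel) WQ012.q326⟩

theorem w327 : Wx (EX xs7) Vale.Agent.P032X.Cert.X3.t1 (Vale.Agent.P032.Fam.fam3 Vale.Agent.P032.Fam.im0) WQ012.W327 := ⟨[0, 8, 16, 24, 32, 40, 48, 4, 12, 20, 28, 36, 44, 52, 60, 68, 76, 84, 92, 100, 108, 116, 124, 132, 140, 148, 156, 164, 172, 180, 188, 196, 204, 212, 220, 5506657, 5506593, 20973345, 11010049, 11010081, 102760729, 851974, 2424838, 2949126],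
  Vale.Agent.P032.Lt.q_of (e' := WQ012.e327) (by decide +kernel) WQ012.q327⟩

theorem w328 : Wx (EX xs7) Vale.Agent.P032X.Cert.X3.t1 (Vale.Agent.P032.Fam.fam3 Vale.Agent.P032.Fam.im0) WQ012.W328 := ⟨[0, 8, 16, 24, 32, 40, 48, 4, 12, 20, 28, 36, 44, 52, 60, 68, 76, 84, 92, 100, 108, 116, 124, 132, 140, 148, 121896961, 129503193, 46862105, 47467993, 22020161, 55185369, 89133017, 52514777],
  Vale.Agent.P032.Lt.q_of (e' := WQ012.e328) (by decide +kernel) WQ012.q328⟩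

theorem w329 : Wx (EX xs7) Vale.Agent.P032X.Cert.X3.t1 (Vale.Agent.P032.Fam.fam3 Vale.Agent.P032.Fam.im0) WQ012.W329 := ⟨[0, 8, 16, 24, 32, 40, 48, 4, 12, 20, 28, 36, 44, 52, 60, 68, 76, 84, 92, 100, 108, 113968793],
  Vale.Agent.P032.Lt.q_of (e' := WQ012.e329) (by decide +kernel) WQ012.q329⟩

theorem w330 : Wx (EX xs7) Vale.Agent.P032X.Cert.X3.t1 (Vale.Agent.P032.Fam.fam3 Vale.Agent.P032.Fam.im0) WQ012.W330 := ⟨[0, 8, 16, 24, 32, 40, 48, 4, 12, 20, 28, 36, 44, 52, 60, 68, 76, 84, 92, 100, 108, 116, 124, 132, 140, 36175873, 77922305, 109609109, 125829121, 67108865, 25722881, 42500097, 50188193, 116589397, 17829057, 42336321, 130025625, 116588757, 7602177, 22052929],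
  Vale.Agent.P032.Lt.q_of (e' := WQ012.e330) (by decide +kernel) WQ012.q330⟩

theorem w331 : Wx (EX xs7) Vale.Agent.P032X.Cert.X3.t1 (Vale.Agent.P032.Fam.fam3 Vale.Agent.P032.Fam.im0) WQ012.W331 := ⟨[0, 8, 16, 24, 32, 40, 48, 4, 12, 20, 28, 36, 44, 52, 60, 68, 76, 84, 92, 100, 108, 116, 124, 132, 140, 148, 156, 164, 172, 180, 188, 196, 204, 67633665, 19398657, 37224857, 55312385, 19398785, 88873345, 66060289, 53248409, 50336777, 91127809, 63477129, 55117857, 10487841, 22022177, 56754177, 14811137, 81395713, 86802841, 34488729, 2424838, 2949126],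
  Vale.Agent.P032.Lt.q_of (e' := WQ012.e331) (by decide +kernel) WQ012.q331⟩

theorem w332 : Wx (EX xs7) Vale.Agent.P032X.Cert.X3.t1 (Vale.Agent.P032.Fam.fam3 Vale.Agent.P032.Fam.im0) WQ012.W332 := ⟨[0, 8, 16, 24, 32, 40, 48, 4, 12, 20, 28, 36, 44, 52, 60, 68, 76, 84, 92, 100, 108, 116, 124, 132, 140, 148, 156, 164, 172, 61145153, 20972057, 66060289, 99615129, 67633305, 851974, 2424838, 2949126],
  Vale.Agent.P032.Lt.q_of (e' := WQ012.e332) (by decide +kernel) WQ012.q332⟩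

theorem w333 : Wx (EX xs7) Vale.Agent.P032X.Cert.X3.t1 (Vale.Agent.P032.Fam.fam3 Vale.Agent.P032.Fam.im0) WQ012.W333 := ⟨[0, 8, 16, 24, 32, 40, 48, 4, 12, 20, 28, 36, 44, 52, 60, 68, 76, 84, 92, 100, 108, 116, 124, 132, 140, 148, 156, 164, 172, 180, 188, 47186145, 55312385, 17956993, 48955801, 67666329, 49217945, 1376262, 1900550, 2949126],
  Vale.Agent.P032.Lt.q_of (e' := WQ012.e333) (by decide +kernel) WQ012.q333⟩

theorem w334 : Wx (EX xs7) Vale.Agent.P032X.Cert.X3.t1 (Vale.Agent.P032.Fam.fam3 Vale.Agent.P032.Fam.im0) WQ012.W334 := ⟨[0, 8, 16, 24, 32, 40, 48, 4, 12, 20, 28, 36, 44, 52, 60, 68, 76, 84, 92, 100, 108, 116, 124, 132, 140, 148, 156, 164, 172, 180, 188, 196, 204, 212, 31985817, 55054105, 2818049, 97189889, 63635457, 130744321],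
  Vale.Agent.P032.Lt.q_of (e' := WQ012.e334) (by decide +kernel) WQ012.q334⟩

theorem w335 : Wx (EX xs7) Vale.Agent.P032X.Cert.X3.t1 (Vale.Agent.P032.Fam.fam3 Vale.Agent.P032.Fam.im0) WQ012.W335 := ⟨[0, 8, 16, 24, 32, 40, 48, 4, 12, 20, 28, 36, 44, 52, 60, 68, 76, 84, 92, 100, 108, 116, 124, 132, 140, 148, 156, 5636097, 121307945],
  Vale.Agent.P032.Lt.q_of (e' := WQ012.e335) (by decide +kernel) WQ012.q335⟩

theorem w336 : Wx (EX xs7) Vale.Agent.P032X.Cert.X3.t1 (Vale.Agent.P032.Fam.fam3 Vale.Agent.P032.Fam.im0) WQ013.W336 := ⟨[0, 8, 16, 24, 32, 40, 48, 4, 12, 20, 28, 36, 44, 52, 60, 68, 76, 84, 92, 100, 108, 116, 124, 132, 140, 148, 156, 164, 172, 180, 19398657, 5263137, 91127937, 35094529],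
  Vale.Agent.P032.Lt.q_of (e' := WQ013.e336) (by decide +kernel) WQ013.q336⟩

theorem w337 : Wx (EX xs7) Vale.Agent.P032X.Cert.X3.t1 (Vale.Agent.P032.Fam.fam3 Vale.Agent.P032.Fam.im0) WQ013.W337 := ⟨[0, 8, 16, 24, 32, 40, 48, 4, 12, 20, 28, 36, 44, 52, 60, 68, 76, 84, 92, 100, 108, 116, 124, 132, 140, 148, 156, 164, 172, 180, 188, 196, 22708313, 69206745, 100794513, 25165825, 63182489, 25165889, 69206617, 22708249, 100794641, 1376262, 2949126],
  Vale.Agent.P032.Lt.q_of (e' := WQ013.e337) (by decide +kernel) WQ013.q337⟩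

theorem w338 : Wx (EX xs7) Vale.Agent.P032X.Cert.X3.t1 (Vale.Agent.P032.Fam.fam3 Vale.Agent.P032.Fam.im0) WQ013.W338 := ⟨[0, 8, 16, 24, 32, 40, 48, 4, 12, 20, 28, 36, 44, 52, 60, 68, 76, 84, 92, 100, 108, 116, 124, 132, 140, 148, 156, 164, 172, 180, 188, 196, 204, 212, 3145753, 5261217, 102760729, 50185217, 66961473, 128385345, 104923161, 31457305, 96043009, 58720601, 14942337, 5261281, 124846105, 3145881, 130023769, 91129889, 6946841, 13303897],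
  Vale.Agent.P032.Lt.q_of (e' := WQ013.e338) (by decide +kernel) WQ013.q338⟩

theorem w339 : Wx (EX xs7) Vale.Agent.P032X.Cert.X3.t1 (Vale.Agent.P032.Fam.fam3 Vale.Agent.P032.Fam.im0) WQ013.W339 := ⟨[0, 8, 16, 24, 32, 40, 48, 4, 12, 20, 28, 36, 44, 52, 60, 68, 76, 84, 92, 100, 108, 116, 124, 132, 140, 148, 156, 164, 172, 180, 188, 196, 204, 212, 220, 228, 236, 244, 252, 260, 268, 276, 284, 292, 300, 11010137, 50185369, 12058905, 18874841, 5508113, 11010073, 18874369, 18874777, 79167961, 61145561, 20972057, 20974865, 2102417, 11010065, 74186753, 66585241, 20971649, 71303233, 64225689, 82837569],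
  Vale.Agent.P032.Lt.q_of (e' := WQ013.e339) (by decide +kernel) WQ013.q339⟩

theorem w340 : Wx (EX xs7) Vale.Agent.P032X.Cert.X3.t1 (Vale.Agent.P032.Fam.fam3 Vale.Agent.P032.Fam.im0) WQ013.W340 := ⟨[0, 8, 16, 24, 32, 40, 48, 4, 12, 20, 28, 36, 44, 52, 60, 68, 76, 84, 92, 100, 108, 116, 124, 132, 140, 148, 156, 164, 172, 180, 188, 196, 204, 5510033, 5508497, 18891217, 18891921, 5510097, 5511633, 5511569, 5508561, 133169409, 96927809, 83689473, 133169217, 96928001, 83689793],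
  Vale.Agent.P032.Lt.q_of (e' := WQ013.e340) (by decide +kernel) WQ013.q340⟩

theorem w341 : Wx (EX xs7) Vale.Agent.P032X.Cert.X3.t1 (Vale.Agent.P032.Fam.fam3 Vale.Agent.P032.Fam.im0) WQ013.W341 := ⟨[0, 8, 16, 24, 32, 40, 48, 4, 12, 20, 28, 36, 44, 52, 60, 68, 76, 84, 92, 100, 108, 116, 124, 132, 140, 148, 156, 164, 172, 180, 188, 196, 204, 212, 38538649],
  Vale.Agent.P032.Lt.q_of (e' := WQ013.e341) (by decide +kernel) WQ013.q341⟩

theorem w342 : Wx (EX xs7) Vale.Agent.P032X.Cert.X3.t1 (Vale.Agent.P032.Fam.fam3 Vale.Agent.P032.Fam.im0) WQ013.W342 := ⟨[0, 8, 16, 24, 32, 40, 48, 4, 12, 20, 28, 36, 44, 52, 60, 68, 76, 84, 92, 100, 108, 116, 124, 132, 140, 148, 156, 164, 172, 180, 188, 22282241, 96206849, 7602177, 77660225, 22052865, 109448601, 25559105, 10485825, 53513893, 42336321, 17829057],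
  Vale.Agent.P032.Lt.q_of (e' := WQ013.e342) (by decide +kernel) WQ013.q342⟩

theorem w343 : Wx (EX xs7) Vale.Agent.P032X.Cert.X3.t1 (Vale.Agent.P032.Fam.fam3 Vale.Agent.P032.Fam.im0) WQ013.W343 := ⟨[0, 8, 16, 24, 32, 40, 48, 4, 12, 20, 28, 36, 44, 52, 60, 68, 76, 84, 92, 100, 108, 116, 124, 132, 140, 148, 156, 84348377, 17235969],
  Vale.Agent.P032.Lt.q_of (e' := WQ013.e343) (by decide +kernel) WQ013.q343⟩

theorem w344 : Wx (EX xs7) Vale.Agent.P032X.Cert.X3.t1 (Vale.Agent.P032.Fam.fam3 Vale.Agent.P032.Fam.im0) WQ013.W344 := ⟨[0, 8, 16, 24, 32, 40, 48, 4, 12, 20, 28, 36, 44, 52, 60, 68, 76, 84, 92, 100, 108, 116, 124, 132, 140, 148, 156, 164, 31982849, 53511245, 36179353, 69963545, 56626649, 851974, 1376262, 2424838, 2949126],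
  Vale.Agent.P032.Lt.q_of (e' := WQ013.e344) (by decide +kernel) WQ013.q344⟩

theorem w345 : Wx (EX xs7) Vale.Agent.P032X.Cert.X3.t1 (Vale.Agent.P032.Fam.fam3 Vale.Agent.P032.Fam.im0) WQ013.W345 := ⟨[0, 8, 16, 24, 32, 40, 48, 4, 12, 20, 28, 36, 44, 52, 60, 68, 76, 84, 92, 100, 108, 116, 124, 132, 140, 148, 156, 164, 172, 83758553, 860166, 1376262, 2424838, 2949126],
  Vale.Agent.P032.Lt.q_of (e' := WQ013.e345) (by decide +kernel) WQ013.q345⟩

theorem w346 : Wx (EX xs7) Vale.Agent.P032X.Cert.X3.t1 (Vale.Agent.P032.Fam.fam3 Vale.Agent.P032.Fam.im0) WQ013.W346 := ⟨[0, 8, 16, 24, 32, 40, 48, 4, 12, 20, 28, 36, 44, 52, 60, 68, 76, 84, 92, 100, 108, 116, 124, 132, 140, 148, 156, 164, 172, 180, 107744921, 4738457, 40633217, 55115777, 130551193, 38293145, 2883801, 10485761, 59261825, 116129793, 12091393, 60129281, 76087297, 112103193, 8982297, 118030337, 12648449, 97521113],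
  Vale.Agent.P032.Lt.q_of (e' := WQ013.e346) (by decide +kernel) WQ013.q346⟩

theorem w347 : Wx (EX xs7) Vale.Agent.P032X.Cert.X3.t1 (Vale.Agent.P032.Fam.fam3 Vale.Agent.P032.Fam.im0) WQ013.W347 := ⟨[0, 8, 16, 24, 32, 40, 48, 4, 12, 20, 28, 36, 44, 52, 60, 68, 76, 84, 92, 100, 108, 116, 124, 132, 140, 148, 127598593],
  Vale.Agent.P032.Lt.q_of (e' := WQ013.e347) (by decide +kernel) WQ013.q347⟩

theorem w348 : Wx (EX xs7) Vale.Agent.P032X.Cert.X3.t1 (Vale.Agent.P032.Fam.fam3 Vale.Agent.P032.Fam.im0) WQ013.W348 := ⟨[0, 8, 16, 24, 32, 40, 48, 4, 12, 20, 28, 36, 44, 52, 60, 68, 76, 84, 92, 100, 108, 116, 124, 132, 140, 148, 156, 164, 18947553, 61873633, 71237633, 46399489, 61210625, 42532865, 35717121, 58654721, 125763585, 51412993, 83070361, 1900550, 2949126],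
  Vale.Agent.P032.Lt.q_of (e' := WQ013.e348) (by decide +kernel) WQ013.q348⟩

theorem w349 : Wx (EX xs7) Vale.Agent.P032X.Cert.X3.t1 (Vale.Agent.P032.Fam.fam3 Vale.Agent.P032.Fam.im0) WQ013.W349 := ⟨[0, 8, 16, 24, 32, 40, 48, 4, 12, 20, 28, 36, 44, 52, 60, 68, 76, 84, 92, 100, 108, 116, 124, 132, 140, 148, 156, 164, 172, 180, 188, 93357329, 125832665, 127405465, 5506961, 23137353, 37756321, 63182753, 38176673, 125832601, 127405529, 63182785, 23137289, 125832265, 130023745, 63184289, 23137753, 1900550, 2949126],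
  Vale.Agent.P032.Lt.q_of (e' := WQ013.e349) (by decide +kernel) WQ013.q349⟩

theorem w350 : Wx (EX xs7) Vale.Agent.P032X.Cert.X3.t1 (Vale.Agent.P032.Fam.fam3 Vale.Agent.P032.Fam.im0) WQ013.W350 := ⟨[0, 8, 16, 24, 32, 40, 48, 4, 12, 20, 28, 36, 44, 52, 60, 68, 76, 84, 92, 100, 108, 116, 124, 132, 140, 148, 156, 22282241, 126746625, 851974, 1376262, 1900550, 2949126],
  Vale.Agent.P032.Lt.q_of (e' := WQ013.e350) (by decide +kernel) WQ013.q350⟩

theorem w351 : Wx (EX xs7) Vale.Agent.P032X.Cert.X3.t1 (Vale.Agent.P032.Fam.fam3 Vale.Agent.P032.Fam.im0) WQ013.W351 := ⟨[0, 8, 16, 24, 32, 40, 48, 4, 12, 20, 28, 36, 44, 52, 60, 68, 76, 84, 92, 100, 108, 116, 124, 132, 140, 148, 109350297, 42241433, 40897945],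
  Vale.Agent.P032.Lt.q_of (e' := WQ013.e351) (by decide +kernel) WQ013.q351⟩

theorem w352 : Wx (EX xs7) Vale.Agent.P032X.Cert.X3.t1 (Vale.Agent.P032.Fam.fam3 Vale.Agent.P032.Fam.im0) WQ013.W352 := ⟨[0, 8, 16, 24, 32, 40, 48, 4, 12, 20, 28, 36, 44, 52, 60, 68, 76, 84, 92, 100, 108, 116, 124, 132, 130875393, 70057985, 33308673, 2949121, 335878, 892934, 1376262, 1417222, 2424838],
  Vale.Agent.P032.Lt.q_of (e' := WQ013.e352) (by decide +kernel) WQ013.q352⟩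

theorem w353 : Wx (EX xs7) Vale.Agent.P032X.Cert.X3.t1 (Vale.Agent.P032.Fam.fam3 Vale.Agent.P032.Fam.im0) WQ013.W353 := ⟨[0, 8, 16, 24, 32, 40, 48, 4, 12, 20, 28, 36, 44, 52, 60, 68, 76, 84, 92, 100, 108, 116, 124, 132, 140, 148, 156, 22151233, 1900550, 1908742, 2949126],
  Vale.Agent.P032.Lt.q_of (e' := WQ013.e353) (by decide +kernel) WQ013.q353⟩

theorem w354 : Wx (EX xs7) Vale.Agent.P032X.Cert.X3.t1 (Vale.Agent.P032.Fam.fam3 Vale.Agent.P032.Fam.im0) WQ013.W354 := ⟨[0, 8, 16, 24, 32, 40, 48, 4, 12, 20, 28, 36, 44, 52, 60, 68, 76, 84, 92, 100, 108, 116, 2559449, 2555905, 1900550, 2424838],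
  Vale.Agent.P032.Lt.q_of (e' := WQ013.e354) (by decide +kernel) WQ013.q354⟩

theorem w355 : Wx (EX xs7) Vale.Agent.P032X.Cert.X3.t1 (Vale.Agent.P032.Fam.fam3 Vale.Agent.P032.Fam.im0) WQ013.W355 := ⟨[0, 8, 16, 24, 32, 40, 48, 4, 12, 20, 28, 36, 44, 52, 60, 68, 76, 84, 92, 100, 108, 116, 124, 132, 140, 148, 46661633, 130095649],
  Vale.Agent.P032.Lt.q_of (e' := WQ013.e355) (by decide +kernel) WQ013.q355⟩

theorem w356 : Wx (EX xs7) Vale.Agent.P032X.Cert.X3.t1 (Vale.Agent.P032.Fam.fam3 Vale.Agent.P032.Fam.im0) WQ013.W356 := ⟨[0, 8, 16, 24, 32, 40, 48, 4, 12, 20, 28, 36, 44, 52, 60, 68, 76, 84, 92, 100, 108, 116, 124, 132, 140, 148, 156, 164, 20972561, 49217793, 7605657, 36179353, 22056345, 91557337, 51383769, 17826393, 49221161, 860166, 1900550, 1908742, 2949126],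
  Vale.Agent.P032.Lt.q_of (e' := WQ013.e356) (by decide +kernel) WQ013.q356⟩

theorem w357 : Wx (EX xs7) Vale.Agent.P032X.Cert.X3.t1 (Vale.Agent.P032.Fam.fam3 Vale.Agent.P032.Fam.im0) WQ013.W357 := ⟨[0, 8, 16, 24, 32, 40, 48, 4, 12, 20, 28, 36, 44, 52, 60, 68, 76, 84, 92, 100, 108, 116, 124, 132, 140, 148, 156, 164, 172, 8717833, 12746753],
  Vale.Agent.P032.Lt.q_of (e' := WQ013.e357) (by decide +kernel) WQ013.q357⟩

theorem w358 : Wx (EX xs7) Vale.Agent.P032X.Cert.X3.t1 (Vale.Agent.P032.Fam.fam3 Vale.Agent.P032.Fam.im0) WQ013.W358 := ⟨[0, 8, 16, 24, 32, 40, 48, 4, 12, 20, 28, 36, 44, 52, 60, 68, 76, 84, 92, 100, 108, 116, 124, 132, 140, 148, 156, 130025497, 41422361, 63177985, 18368929, 35147161],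
  Vale.Agent.P032.Lt.q_of (e' := WQ013.e358) (by decide +kernel) WQ013.q358⟩

theorem w359 : Wx (EX xs7) Vale.Agent.P032X.Cert.X3.t1 (Vale.Agent.P032.Fam.fam3 Vale.Agent.P032.Fam.im0) WQ013.W359 := ⟨[0, 8, 16, 24, 32, 40, 48, 4, 12, 20, 28, 36, 44, 52, 60, 68, 76, 84, 92, 100, 108, 116, 124, 132, 140, 148, 156, 164, 172, 180, 123243993, 100961753, 13569497, 80678361, 66358745, 109314049, 114229249, 860166, 1900550, 1908742, 2949126],
  Vale.Agent.P032.Lt.q_of (e' := WQ013.e359) (by decide +kernel) WQ013.q359⟩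

theorem w360 : Wx (EX xs7) Vale.Agent.P032X.Cert.X3.t1 (Vale.Agent.P032.Fam.fam3 Vale.Agent.P032.Fam.im0) WQ013.W360 := ⟨[0, 8, 16, 24, 32, 40, 48, 4, 12, 20, 28, 36, 44, 52, 60, 68, 76, 84, 92, 100, 108, 116, 124, 132, 140, 148, 156, 164, 172, 180, 12845057, 21564825, 82906521],
  Vale.Agent.P032.Lt.q_of (e' := WQ013.e360) (by decide +kernel) WQ013.q360⟩

theorem w361 : Wx (EX xs7) Vale.Agent.P032X.Cert.X3.t1 (Vale.Agent.P032.Fam.fam3 Vale.Agent.P032.Fam.im0) WQ013.W361 := ⟨[0, 8, 16, 24, 32, 40, 48, 4, 12, 20, 28, 36, 44, 52, 60, 68, 76, 84, 92, 100, 108, 116, 124, 132, 140, 148, 156, 164, 130974593, 104988673, 130551193, 77073817, 10485761, 130023681, 50334745, 123735065, 130025625, 7356417, 860166, 2424838, 2949126],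
  Vale.Agent.P032.Lt.q_of (e' := WQ013.e361) (by decide +kernel) WQ013.q361⟩

theorem w362 : Wx (EX xs7) Vale.Agent.P032X.Cert.X3.t1 (Vale.Agent.P032.Fam.fam3 Vale.Agent.P032.Fam.im0) WQ013.W362 := ⟨[0, 8, 16, 24, 32, 40, 48, 4, 12, 20, 28, 36, 44, 52, 60, 68, 76, 84, 92, 100, 108, 116, 124, 132, 140, 148, 156, 164, 172, 180, 62062873, 128485133],
  Vale.Agent.P032.Lt.q_of (e' := WQ013.e362) (by decide +kernel) WQ013.q362⟩

theorem w363 : Wx (EX xs7) Vale.Agent.P032X.Cert.X3.t1 (Vale.Agent.P032.Fam.fam3 Vale.Agent.P032.Fam.im0) WQ013.W363 := ⟨[0, 8, 16, 24, 32, 40, 48, 4, 12, 20, 28, 36, 44, 52, 60, 68, 76, 84, 92, 100, 108, 116, 124, 132, 140, 148, 156, 164, 172, 180, 188, 196, 204, 212, 24199169, 46399489, 12520857],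
  Vale.Agent.P032.Lt.q_of (e' := WQ013.e363) (by decide +kernel) WQ013.q363⟩

theorem w364 : Wx (EX xs7) Vale.Agent.P032X.Cert.X3.t1 (Vale.Agent.P032.Fam.fam3 Vale.Agent.P032.Fam.im0) WQ013.W364 := ⟨[0, 8, 16, 24, 32, 40, 48, 4, 12, 20, 28, 36, 44, 52, 60, 68, 76, 84, 92, 100, 108, 116, 124, 132, 140, 148, 156, 164, 172, 22052865, 63182785, 130023745, 130976025, 4194305, 112758169, 53510861, 63182489, 37754521, 31002009, 115183001, 98110873, 4197401, 132775937, 131665369, 22056409, 118033881, 64556505, 2965569, 50924953, 23876505, 3736833, 130974593, 44568025, 130023769, 53513573, 7602241, 112754689, 37754817, 115179521, 30998529, 131661889, 98107393, 118030401, 132779033, 3739801, 64553025, 2969049, 50921473, 23876609, 44564481, 44567961, 63184321, 63184025, 1900550, 2949126],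
  Vale.Agent.P032.Lt.q_of (e' := WQ013.e364) (by decide +kernel) WQ013.q364⟩

theorem w365 : Wx (EX xs7) Vale.Agent.P032X.Cert.X3.t1 (Vale.Agent.P032.Fam.fam3 Vale.Agent.P032.Fam.im0) WQ013.W365 := ⟨[0, 8, 16, 24, 32, 40, 48, 4, 12, 20, 28, 36, 44, 52, 60, 68, 76, 84, 92, 100, 108, 116, 124, 132, 140, 148, 156, 164, 172, 180, 188, 19562497, 99747873, 55117857, 56230297, 851974, 2424838, 2949126],
  Vale.Agent.P032.Lt.q_of (e' := WQ013.e365) (by decide +kernel) WQ013.q365⟩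

theorem w366 : Wx (EX xs7) Vale.Agent.P032X.Cert.X3.t1 (Vale.Agent.P032.Fam.fam3 Vale.Agent.P032.Fam.im0) WQ014.W366 := ⟨[0, 8, 16, 24, 32, 40, 48, 4, 12, 20, 28, 36, 44, 52, 60, 68, 76, 84, 92, 100, 108, 116, 124, 132, 140, 148, 156, 164, 172, 5409345, 860166, 1900550, 2424838],
  Vale.Agent.P032.Lt.q_of (e' := WQ014.e366) (by decide +kernel) WQ014.q366⟩

theorem w367 : Wx (EX xs7) Vale.Agent.P032X.Cert.X3.t1 (Vale.Agent.P032.Fam.fam3 Vale.Agent.P032.Fam.im0) WQ014.W367 := ⟨[0, 8, 16, 24, 32, 40, 48, 4, 12, 20, 28, 36, 44, 52, 60, 68, 76, 84, 92, 100, 108, 116, 124, 132, 140, 148, 156, 164, 172, 180, 188, 196, 204, 212, 220, 228, 236, 244, 252, 5506593, 98566937, 122686593, 102760641, 4587521, 52330497, 18776153, 52559873, 97943745, 10387521, 5506657, 102760601, 39421797, 18808921, 67633409, 51937281, 36700161, 892934, 1900550, 2949126],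
  Vale.Agent.P032.Lt.q_of (e' := WQ014.e367) (by decide +kernel) WQ014.q367⟩

theorem w368 : Wx (EX xs7) Vale.Agent.P032X.Cert.X3.t1 (Vale.Agent.P032.Fam.fam3 Vale.Agent.P032.Fam.im0) WQ014.W368 := ⟨[0, 8, 16, 24, 32, 40, 48, 4, 12, 20, 28, 36, 44, 52, 60, 68, 76, 84, 92, 100, 108, 116, 124, 132, 140, 148, 156, 164, 172, 180, 188, 196, 204, 212, 220, 228, 236, 244, 252, 260, 268, 276, 284, 102760641, 41795993, 102760665, 41796825, 31457537, 75630181, 130023617, 31457281, 31457601, 75630309, 130023553, 75630245, 102760577, 31457345, 75630373, 20316481, 20316161, 102760601],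
  Vale.Agent.P032.Lt.q_of (e' := WQ014.e368) (by decide +kernel) WQ014.q368⟩

theorem w369 : Wx (EX xs7) Vale.Agent.P032X.Cert.X3.t1 (Vale.Agent.P032.Fam.fam3 Vale.Agent.P032.Fam.im0) WQ014.W369 := ⟨[0, 8, 16, 24, 32, 40, 48, 4, 12, 20, 28, 36, 44, 52, 60, 68, 76, 84, 92, 100, 108, 116, 124, 132, 140, 148, 156, 164, 172, 180, 188, 196, 204, 212, 87031809, 76742657, 70159769, 87723417, 47353241, 50892185, 14749081, 80907673, 58805657, 60706201, 84446617, 59133337, 47861145],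
  Vale.Agent.P032.Lt.q_of (e' := WQ014.e369) (by decide +kernel) WQ014.q369⟩

theorem w370 : Wx (EX xs7) Vale.Agent.P032X.Cert.X3.t1 (Vale.Agent.P032.Fam.fam3 Vale.Agent.P032.Fam.im0) WQ014.W370 := ⟨[0, 8, 16, 24, 32, 40, 48, 4, 12, 20, 28, 36, 44, 52, 60, 68, 76, 84, 92, 100, 108, 116, 124, 132, 140, 148, 156, 164, 172, 94896129, 4194881, 42729473, 50188353, 4685825, 73931329, 96632833, 73924609, 27820033, 25661209, 49217729, 20975385, 71307225, 56639489],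
  Vale.Agent.P032.Lt.q_of (e' := WQ014.e370) (by decide +kernel) WQ014.q370⟩

theorem w371 : Wx (EX xs7) Vale.Agent.P032X.Cert.X3.t1 (Vale.Agent.P032.Fam.fam3 Vale.Agent.P032.Fam.im0) WQ014.W371 := ⟨[0, 8, 16, 24, 32, 40, 48, 4, 12, 20, 28, 36, 44, 52, 60, 68, 76, 84, 92, 100, 108, 116, 124, 132, 140, 148, 156, 164, 172, 18874369, 108528025, 100663297, 78512129, 655361, 4758361, 59441153, 71860633, 42221977, 851974, 1900550, 2949126],
  Vale.Agent.P032.Lt.q_of (e' := WQ014.e371) (by decide +kernel) WQ014.q371⟩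

theorem w372 : Wx (EX xs7) Vale.Agent.P032X.Cert.X3.t1 (Vale.Agent.P032.Fam.fam3 Vale.Agent.P032.Fam.im0) WQ014.W372 := ⟨[0, 8, 16, 24, 32, 40, 48, 4, 12, 20, 28, 36, 44, 52, 60, 68, 76, 84, 92, 100, 108, 116, 124, 132, 140, 148, 156, 164, 96206849, 39980441, 85854745, 94244249, 122031513, 69732577, 1900550, 2949126],
  Vale.Agent.P032.Lt.q_of (e' := WQ014.e372) (by decide +kernel) WQ014.q372⟩

theorem w373 : Wx (EX xs7) Vale.Agent.P032X.Cert.X3.t1 (Vale.Agent.P032.Fam.fam3 Vale.Agent.P032.Fam.im0) WQ014.W373 := ⟨[0, 8, 16, 24, 32, 40, 48, 4, 12, 20, 28, 36, 44, 52, 60, 68, 76, 84, 92, 100, 108, 116, 124, 132, 140, 148, 156, 164, 172, 180, 188, 196, 85884929, 3145857, 18776065, 119439385, 52330585, 10387481, 2424838, 2949126],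
  Vale.Agent.P032.Lt.q_of (e' := WQ014.e373) (by decide +kernel) WQ014.q373⟩

theorem w374 : Wx (EX xs7) Vale.Agent.P032X.Cert.X3.t1 (Vale.Agent.P032.Fam.fam3 Vale.Agent.P032.Fam.im0) WQ014.W374 := ⟨[0, 8, 16, 24, 32, 40, 48, 4, 12, 20, 28, 36, 44, 52, 60, 68, 76, 84, 92, 100, 108, 116, 124, 132, 140, 148, 156, 164, 172, 180, 188, 196, 204, 212, 220, 228, 236, 102760769, 102760705, 11010073, 20973201, 75630349, 130023769, 2424838, 2949126],
  Vale.Agent.P032.Lt.q_of (e' := WQ014.e374) (by decide +kernel) WQ014.q374⟩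

theorem w375 : Wx (EX xs7) Vale.Agent.P032X.Cert.X3.t1 (Vale.Agent.P032.Fam.fam3 Vale.Agent.P032.Fam.im0) WQ014.W375 := ⟨[0, 8, 16, 24, 32, 40, 48, 4, 12, 20, 28, 36, 44, 52, 60, 68, 76, 84, 92, 100, 108, 116, 124, 132, 140, 148, 156, 164, 172, 180, 188, 101842945],
  Vale.Agent.P032.Lt.q_of (e' := WQ014.e375) (by decide +kernel) WQ014.q375⟩

theorem w376 : Wx (EX xs7) Vale.Agent.P032X.Cert.X3.t1 (Vale.Agent.P032.Fam.fam3 Vale.Agent.P032.Fam.im0) WQ014.W376 := ⟨[0, 8, 16, 24, 32, 40, 48, 4, 12, 20, 28, 36, 44, 52, 60, 68, 76, 84, 92, 100, 108, 116, 124, 36667393],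
  Vale.Agent.P032.Lt.q_of (e' := WQ014.e376) (by decide +kernel) WQ014.q376⟩

theorem w377 : Wx (EX xs7) Vale.Agent.P032X.Cert.X3.t1 (Vale.Agent.P032.Fam.fam3 Vale.Agent.P032.Fam.im0) WQ014.W377 := ⟨[0, 8, 16, 24, 32, 40, 48, 4, 12, 20, 28, 36, 44, 52, 60, 68, 76, 84, 92, 100, 108, 116, 26476609, 42729473, 26480025, 17334593, 17337817, 1900550, 2424838],
  Vale.Agent.P032.Lt.q_of (e' := WQ014.e377) (by decide +kernel) WQ014.q377⟩

theorem w378 : Wx (EX xs7) Vale.Agent.P032X.Cert.X3.t1 (Vale.Agent.P032.Fam.fam3 Vale.Agent.P032.Fam.im0) WQ014.W378 := ⟨[0, 8, 16, 24, 32, 40, 48, 4, 12, 20, 28, 36, 44, 52, 60, 68, 76, 84, 92, 100, 108, 116, 124, 132, 140, 148, 156, 164, 172, 180, 188, 126386177, 335878, 1384454, 1908742, 2433030],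
  Vale.Agent.P032.Lt.q_of (e' := WQ014.e378) (by decide +kernel) WQ014.q378⟩

theorem w379 : Wx (EX xs7) Vale.Agent.P032X.Cert.X3.t1 (Vale.Agent.P032.Fam.fam3 Vale.Agent.P032.Fam.im0) WQ014.W379 := ⟨[0, 8, 16, 24, 32, 40, 48, 4, 12, 20, 28, 36, 44, 52, 60, 68, 76, 84, 92, 100, 108, 116, 124, 132, 140, 148, 156, 164, 172, 180, 188, 29622273, 30690713, 113511833, 79957401, 27544985],
  Vale.Agent.P032.Lt.q_of (e' := WQ014.e379) (by decide +kernel) WQ014.q379⟩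

theorem w380 : Wx (EX xs7) Vale.Agent.P032X.Cert.X3.t1 (Vale.Agent.P032.Fam.fam3 Vale.Agent.P032.Fam.im0) WQ015.W380 := ⟨[0, 8, 16, 24, 32, 40, 48, 4, 12, 20, 28, 36, 44, 52, 60, 68, 76, 84, 92, 85920857],
  Vale.Agent.P032.Lt.q_of (e' := WQ015.e380) (by decide +kernel) WQ015.q380⟩

theorem w381 : Wx (EX xs7) Vale.Agent.P032X.Cert.X3.t1 (Vale.Agent.P032.Fam.fam3 Vale.Agent.P032.Fam.im0) WQ015.W381 := ⟨[0, 8, 16, 24, 32, 40, 48, 4, 12, 20, 28, 36, 44, 52, 60, 68, 76, 84, 121933209, 38764545, 13602305, 21987329],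
  Vale.Agent.P032.Lt.q_of (e' := WQ015.e381) (by decide +kernel) WQ015.q381⟩

theorem w382 : Wx (EX xs7) Vale.Agent.P032X.Cert.X3.t1 (Vale.Agent.P032.Fam.fam3 Vale.Agent.P032.Fam.im0) WQ015.W382 := ⟨[0, 8, 16, 24, 32, 40, 48, 4, 12, 20, 28, 36, 44, 52, 60, 68, 76, 84, 92, 100, 108, 116, 124, 113246337],
  Vale.Agent.P032.Lt.q_of (e' := WQ015.e382) (by decide +kernel) WQ015.q382⟩

theorem w383 : Wx (EX xs7) Vale.Agent.P032X.Cert.X3.t1 (Vale.Agent.P032.Fam.fam3 Vale.Agent.P032.Fam.im0) WQ015.W383 := ⟨[0, 8, 16, 24, 32, 40, 48, 4, 12, 20, 28, 36, 44, 52, 60, 68, 76, 84, 92, 100, 108, 116, 124, 132, 140, 148, 77073881, 860166, 1900550, 2949126],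
  Vale.Agent.P032.Lt.q_of (e' := WQ015.e383) (by decide +kernel) WQ015.q383⟩

theorem w384 : Wx (EX xs7) Vale.Agent.P032X.Cert.X3.t1 (Vale.Agent.P032.Fam.fam3 Vale.Agent.P032.Fam.im0) WQ015.W384 := ⟨[0, 8, 16, 24, 32, 40, 48, 4, 12, 20, 28, 36, 44, 52, 60, 68, 76, 84, 92, 100, 108, 116, 124, 132, 140, 148, 106364929, 44662785, 38048157],
  Vale.Agent.P032.Lt.q_of (e' := WQ015.e384) (by decide +kernel) WQ015.q384⟩

theorem w385 : Wx (EX xs7) Vale.Agent.P032X.Cert.X3.t1 (Vale.Agent.P032.Fam.fam3 Vale.Agent.P032.Fam.im0) WQ015.W385 := ⟨[0, 8, 16, 24, 32, 40, 48, 4, 12, 20, 28, 36, 44, 52, 60, 68, 76, 84, 92, 100, 108, 116, 124, 132, 140, 148, 156, 106364929, 103415809, 39256065, 335878, 1376262, 1900550, 2957318],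
  Vale.Agent.P032.Lt.q_of (e' := WQ015.e385) (by decide +kernel) WQ015.q385⟩

theorem w386 : Wx (EX xs7) Vale.Agent.P032X.Cert.X3.t1 (Vale.Agent.P032.Fam.fam3 Vale.Agent.P032.Fam.im0) WQ015.W386 := ⟨[0, 8, 16, 24, 32, 40, 48, 4, 12, 20, 28, 36, 44, 52, 60, 68, 76, 84, 92, 100, 108, 116, 124, 132, 140, 148, 156, 164, 172, 180, 188, 133693441, 130095009, 18894617, 130096545, 23068673, 18939905, 39849753, 106958617, 124059649],
  Vale.Agent.P032.Lt.q_of (e' := WQ015.e386) (by decide +kernel) WQ015.q386⟩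

theorem w387 : Wx (EX xs7) Vale.Agent.P032X.Cert.X3.t1 (Vale.Agent.P032.Fam.fam3 Vale.Agent.P032.Fam.im0) WQ015.W387 := ⟨[0, 8, 16, 24, 32, 40, 48, 4, 12, 20, 28, 36, 44, 52, 60, 68, 76, 84, 92, 100, 108, 71663617],
  Vale.Agent.P032.Lt.q_of (e' := WQ015.e387) (by decide +kernel) WQ015.q387⟩

theorem w388 : Wx (EX xs7) Vale.Agent.P032X.Cert.X3.t1 (Vale.Agent.P032.Fam.fam3 Vale.Agent.P032.Fam.im0) WQ015.W388 := ⟨[0, 8, 16, 24, 32, 40, 48, 4, 12, 20, 28, 36, 44, 52, 60, 68, 76, 84, 92, 100, 108, 116, 124, 132, 140, 148, 156, 164, 172, 180, 114004889, 114003353],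
  Vale.Agent.P032.Lt.q_of (e' := WQ015.e388) (by decide +kernel) WQ015.q388⟩

theorem w389 : Wx (EX xs7) Vale.Agent.P032X.Cert.X3.t1 (Vale.Agent.P032.Fam.fam3 Vale.Agent.P032.Fam.im0) WQ015.W389 := ⟨[0, 8, 16, 24, 32, 40, 48, 4, 12, 20, 28, 36, 44, 52, 60, 68, 76, 84, 92, 100, 108, 116, 124, 132, 140, 148, 156, 164, 130023681, 105745817, 30081025, 12848537, 50188353, 50188737, 104992153, 91226113],
  Vale.Agent.P032.Lt.q_of (e' := WQ015.e389) (by decide +kernel) WQ015.q389⟩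

theorem w390 : Wx (EX xs7) Vale.Agent.P032X.Cert.X3.t1 (Vale.Agent.P032.Fam.fam3 Vale.Agent.P032.Fam.im0) WQ015.W390 := ⟨[0, 8, 16, 24, 32, 40, 48, 4, 12, 20, 28, 36, 44, 52, 60, 68, 76, 84, 92, 100, 108, 116, 124, 132, 140, 148, 156, 164, 172, 180, 188, 25021849, 92409305, 99093977, 73662529, 104205721, 118784001, 43450369, 25165977, 120127705, 39355145, 72908801, 5803417, 10896137, 52838401, 69992513, 97521049, 25021913, 41418881, 31457305, 31457625, 45485529, 69730641, 130023553, 1900550, 2949126],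
  Vale.Agent.P032.Lt.q_of (e' := WQ015.e390) (by decide +kernel) WQ015.q390⟩

theorem w391 : Wx (EX xs7) Vale.Agent.P032X.Cert.X3.t1 (Vale.Agent.P032.Fam.fam3 Vale.Agent.P032.Fam.im0) WQ015.W391 := ⟨[0, 8, 16, 24, 32, 40, 48, 4, 12, 20, 28, 36, 44, 52, 60, 68, 76, 84, 92, 100, 108, 116, 124, 83394561],
  Vale.Agent.P032.Lt.q_of (e' := WQ015.e391) (by decide +kernel) WQ015.q391⟩

theorem w392 : Wx (EX xs7) Vale.Agent.P032X.Cert.X3.t1 (Vale.Agent.P032.Fam.fam3 Vale.Agent.P032.Fam.im0) WQ015.W392 := ⟨[0, 8, 16, 24, 32, 40, 48, 4, 12, 20, 28, 36, 44, 52, 60, 68, 76, 84, 92, 100, 108, 116, 124, 132, 140, 148, 156, 164, 172, 180, 188, 196, 204, 212, 220, 63184025, 125832665, 125832601, 38178281, 63184289, 38175137, 63182489, 37754521, 31002009, 11963801, 64556505, 2965569, 17892961, 17894873, 851974, 892934, 1376262, 1900550, 2949126],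
  Vale.Agent.P032.Lt.q_of (e' := WQ015.e392) (by decide +kernel) WQ015.q392⟩

theorem w393 : Wx (EX xs7) Vale.Agent.P032X.Cert.X3.t1 (Vale.Agent.P032.Fam.fam3 Vale.Agent.P032.Fam.im0) WQ015.W393 := ⟨[0, 8, 16, 24, 32, 40, 48, 4, 12, 20, 28, 36, 44, 52, 60, 68, 76, 84, 92, 100, 108, 116, 124, 132, 140, 148, 156, 164, 172, 180, 18894617, 45989889, 55054105, 47645225, 5505641, 42618713],
  Vale.Agent.P032.Lt.q_of (e' := WQ015.e393) (by decide +kernel) WQ015.q393⟩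

theorem w394 : Wx (EX xs7) Vale.Agent.P032X.Cert.X3.t1 (Vale.Agent.P032.Fam.fam3 Vale.Agent.P032.Fam.im0) WQ015.W394 := ⟨[0, 8, 16, 24, 32, 40, 48, 4, 12, 20, 28, 36, 44, 52, 60, 68, 76, 84, 92, 100, 108, 116, 124, 132, 140, 26477441, 41030045],
  Vale.Agent.P032.Lt.q_of (e' := WQ015.e394) (by decide +kernel) WQ015.q394⟩

theorem w395 : Wx (EX xs7) Vale.Agent.P032X.Cert.X3.t1 (Vale.Agent.P032.Fam.fam3 Vale.Agent.P032.Fam.im0) WQ015.W395 := ⟨[0, 8, 16, 24, 32, 40, 48, 4, 12, 20, 28, 36, 44, 52, 60, 68, 76, 84, 92, 100, 108, 116, 124, 132, 114295681, 28639233],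
  Vale.Agent.P032.Lt.q_of (e' := WQ015.e395) (by decide +kernel) WQ015.q395⟩

theorem w396 : Wx (EX xs7) Vale.Agent.P032X.Cert.X3.t1 (Vale.Agent.P032.Fam.fam3 Vale.Agent.P032.Fam.im0) WQ015.W396 := ⟨[0, 8, 16, 24, 32, 40, 48, 4, 12, 20, 28, 36, 44, 52, 60, 68, 76, 84, 92, 100, 108, 116, 124, 132, 115048449, 31165529],
  Vale.Agent.P032.Lt.q_of (e' := WQ015.e396) (by decide +kernel) WQ015.q396⟩

theorem w397 : Wx (EX xs7) Vale.Agent.P032X.Cert.X3.t1 (Vale.Agent.P032.Fam.fam3 Vale.Agent.P032.Fam.im0) WQ015.W397 := ⟨[0, 8, 16, 24, 32, 40, 48, 4, 12, 20, 28, 36, 44, 52, 60, 68, 76, 84, 92, 100, 108, 116, 124, 132, 140, 148, 156, 51675137, 37224577, 5260193, 47186817, 114295681, 91131393],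
  Vale.Agent.P032.Lt.q_of (e' := WQ015.e397) (by decide +kernel) WQ015.q397⟩

theorem w398 : Wx (EX xs7) Vale.Agent.P032X.Cert.X3.t1 (Vale.Agent.P032.Fam.fam3 Vale.Agent.P032.Fam.im0) WQ015.W398 := ⟨[0, 8, 16, 24, 32, 40, 48, 4, 12, 20, 28, 36, 44, 52, 60, 68, 76, 84, 92, 100, 108, 116, 124, 132, 140, 148, 156, 164, 130023681, 130023769, 31457497, 31457369, 41419009, 69730305, 2097345, 2097217, 31457553, 47185921, 91131393, 69730641, 99287105, 27197441, 31457305, 41418881, 2097473, 67633305, 104205785, 103546881, 36438017, 114294785, 2883801],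
  Vale.Agent.P032.Lt.q_of (e' := WQ015.e398) (by decide +kernel) WQ015.q398⟩

theorem w399 : Wx (EX xs7) Vale.Agent.P032X.Cert.X3.t1 (Vale.Agent.P032.Fam.fam3 Vale.Agent.P032.Fam.im0) WQ016.W399 := ⟨[0, 8, 16, 24, 32, 40, 48, 4, 12, 20, 28, 36, 44, 52, 60, 68, 76, 84, 92, 100, 108, 116, 124, 132, 140, 148, 156, 164, 172, 180, 22282241, 2559449, 36110337, 1900550, 2424838],
  Vale.Agent.P032.Lt.q_of (e' := WQ016.e399) (by decide +kernel) WQ016.q399⟩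

def L : List (List ℕ) := [WQ012.W300, WQ012.W301, WQ012.W302, WQ012.W303, WQ012.W304, WQ012.W305, WQ012.W306, WQ012.W307, WQ012.W308, WQ012.W309, WQ012.W310, WQ012.W311, WQ012.W312, WQ012.W313, WQ012.W314, WQ012.W315, WQ012.W316, WQ012.W317, WQ012.W318, WQ012.W319, WQ012.W320, WQ012.W321, WQ012.W322, WQ012.W323, WQ012.W324, WQ012.W325, WQ012.W326, WQ012.W327, WQ012.W328, WQ012.W329, WQ012.W330, WQ012.W331, WQ012.W332, WQ012.W333, WQ012.W334, WQ012.W335, WQ013.W336, WQ013.W337, WQ013.W338, WQ013.W339, WQ013.W340, WQ013.W341, WQ013.W342, WQ013.W343, WQ013.W344, WQ013.W345, WQ013.W346, WQ013.W347, WQ013.W348, WQ013.W349, WQ013.W350, WQ013.W351, WQ013.W352, WQ013.W353, WQ013.W354, WQ013.W355, WQ013.W356, WQ013.W357, WQ013.W358, WQ013.W359, WQ013.W360, WQ013.W361, WQ013.W362, WQ013.W363, WQ013.W364, WQ013.W365, WQ014.W366, WQ014.W367, WQ014.W368, WQ014.W369, WQ014.W370, WQ014.W371, WQ014.W372, WQ014.W373,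 WQ014.W374, WQ014.W375, WQ014.W376, WQ014.W377, WQ014.W378, WQ014.W379, WQ015.W380, WQ015.W381, WQ015.W382, WQ015.W383, WQ015.W384, WQ015.W385, WQ015.W386, WQ015.W387, WQ015.W388, WQ015.W389, WQ015.W390, WQ015.W391, WQ015.W392, WQ015.W393, WQ015.W394, WQ015.W395, WQ015.W396, WQ015.W397, WQ015.W398, WQ016.W399]

theorem all : ∀ P ∈ L, Wx (EX xs7) Vale.Agent.P032X.Cert.X3.t1 (Vale.Agent.P032.Fam.fam3 Vale.Agent.P032.Fam.im0) P := wx_cons w300 (wx_cons w301 (wx_cons w302 (wx_cons w303 (wx_cons w304 (wx_cons w305 (wx_cons w306 (wx_cons w307 (wx_cons w308 (wx_cons w309 (wx_cons w310 (wx_cons w311 (wx_cons w312 (wx_cons w313 (wx_cons w314 (wx_cons w315 (wx_cons w316 (wx_cons w317 (wx_cons w318 (wx_cons w319 (wx_cons w320 (wx_cons w321 (wx_cons w322 (wx_cons w323 (wx_cons w324 (wx_cons w325 (wx_cons w326 (wx_cons w327 (wx_cons w328 (wx_cons w329 (wx_cons w330 (wx_cons w331 (wx_cons w332 (wx_cons w333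 (wx_cons w334 (wx_cons w335 (wx_cons w336 (wx_cons w337 (wx_cons w338 (wx_cons w339 (wx_cons w340 (wx_cons w341 (wx_cons w342 (wx_cons w343 (wx_cons w344 (wx_cons w345 (wx_cons w346 (wx_cons w347 (wx_cons w348 (wx_cons w349 (wx_cons w350 (wx_cons w351 (wx_cons w352 (wx_cons w353 (wx_cons w354 (wx_cons w355 (wx_cons w356 (wx_cons w357 (wx_cons w358 (wx_cons w359 (wx_cons w360 (wx_cons w361 (wx_cons w362 (wx_cons w363 (wx_cons w364 (wx_cons w365 (wx_cons w366 (wx_cons w367 (wx_cons w368 (wx_cons w369 (wx_cons w370 (wx_cons w371 (wx_cons w372 (wx_cons w373 (wx_cons w374 (wx_cons w375 (wx_cons w376 (wx_cons w377 (wx_cons w378 (wx_cons w379 (wx_cons w380 (wx_cons w381 (wx_cons w382 (wx_cons w383 (wx_cons w384 (wx_cons w385 (wx_cons w386 (wx_cons w387 (wx_cons w388 (wx_cons w389 (wx_cons w390 (wx_cons w391 (wx_cons w392 (wx_cons w393 (wx_cons w394 (wx_cons w395 (wx_cons w396 (wx_cons w397 (wx_cons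 w398 (wx_cons w399 wx_nil)))))))))))))))))))))))))))))))))))))))))))))))))))))))))))))))))))))))))))))))))))))))))))))))))))

theorem ch : chT 73 73 TCm Vale.Agent.P032X.Cert.X3.W1.sW_003 L = true := by decide +kernel

end Vale.Agent.P032X.Cert.X3.W1.WH003
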