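import Vale.Agent.P032X.H892.LtH
import Vale.Agent.P032X.H286.A73
import Vale.Agent.P032X.Cert.X3.T1
import Vale.Agent.P032X.Cert.X3.W1.WT
import Vale.Agent.P032X.Cert.X3.W1.WQ017
import Vale.Agent.P032X.Cert.X3.W1.WQ018
import Vale.Agent.P032X.Cert.X3.W1.WQ019
import Vale.Agent.P032X.Cert.X3.W1.WQ020

set_option maxRecDepth 1000000

namespace Vale.Agent.P032X.Cert.X3.W1.WH004

open Vale.Agent.P032.H820.K Vale.Agent.P032.H357.MK Vale.Agent.P032.H286.E Vale.Agent.P032.H61 Vale.Agent.P032.H61.TF Vale.Agent.P032.BlkE Vale.Agent.P032.BlkS Vale.Agent.P032.H357 Vale.Agent.P032 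

theorem w400 : Wx (EX xs7) Vale.Agent.P032X.Cert.X3.t1 (Vale.Agent.P032.Fam.fam3 Vale.Agent.P032.Fam.im0) WQ017.W400 := ⟨[0, 8, 16, 24, 32, 40, 48, 4, 12, 20, 28, 36, 44, 52, 60, 68, 76, 84, 92, 100, 108, 116, 124, 132, 140, 148, 156, 164, 63180953, 2641305, 36192449, 29904281, 2424838, 2949126],
  Vale.Agent.P032.Lt.q_of (e' := WQ017.e400) (by decide +kernel) WQ017.q400⟩

theorem w401 : Wx (EX xs7) Vale.Agent.P032X.Cert.X3.t1 (Vale.Agent.P032.Fam.fam3 Vale.Agent.P032.Fam.im0) WQ017.W401 := ⟨[0, 8, 16, 24, 32, 40, 48, 4, 12, 20, 28, 36, 44, 52, 60, 68, 76, 84, 92, 100, 108, 116, 124, 132, 140, 148, 128811009, 93848281],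
  Vale.Agent.P032.Lt.q_of (e' := WQ017.e401) (by decide +kernel) WQ017.q401⟩

theorem w402 : Wx (EX xs7) Vale.Agent.P032X.Cert.X3.t1 (Vale.Agent.P032.Fam.fam3 Vale.Agent.P032.Fam.im0) WQ017.W402 := ⟨[0, 8, 16, 24, 32, 40, 48, 4, 12, 20, 28, 36, 44, 52, 60, 68, 76, 84, 92, 100, 108, 116, 124, 132, 140, 57147393],
  Vale.Agent.P032.Lt.q_of (e' := WQ017.e402) (by decide +kernel) WQ017.q402⟩

theorem w403 : Wx (EX xs7) Vale.Agent.P032X.Cert.X3.t1 (Vale.Agent.P032.Fam.fam3 Vale.Agent.P032.Fam.im0) WQ017.W403 := ⟨[0, 8, 16, 24, 32, 40, 48, 4, 12, 20, 28, 36, 44, 52, 60, 68, 76, 84, 92, 100, 108, 116, 124, 132, 140, 96112409],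
  Vale.Agent.P032.Lt.q_of (e' := WQ017.e403) (by decide +kernel) WQ017.q403⟩

theorem w404 : Wx (EX xs7) Vale.Agent.P032X.Cert.X3.t1 (Vale.Agent.P032.Fam.fam3 Vale.Agent.P032.Fam.im0) WQ017.W404 := ⟨[0, 8, 16, 24, 32, 40, 48, 4, 12, 20, 28, 36, 44, 52, 60, 68, 76, 84, 92, 100, 108, 116, 124, 57147393, 38141953, 71696449],
  Vale.Agent.P032.Lt.q_of (e' := WQ017.e404) (by decide +kernel) WQ017.q404⟩

theorem w405 : Wx (EX xs7) Vale.Agent.P032X.Cert.X3.t1 (Vale.Agent.P032.Fam.fam3 Vale.Agent.P032.Fam.im0) WQ017.W405 := ⟨[0, 8, 16, 24, 32, 40, 48, 4, 12, 20, 28, 36, 44, 52, 60, 68, 76, 84, 92, 100, 108, 116, 124, 132, 140, 36376837],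
  Vale.Agent.P032.Lt.q_of (e' := WQ017.e405) (by decide +kernel) WQ017.q405⟩

theorem w406 : Wx (EX xs7) Vale.Agent.P032X.Cert.X3.t1 (Vale.Agent.P032.Fam.fam3 Vale.Agent.P032.Fam.im0) WQ017.W406 := ⟨[0, 8, 16, 24, 32, 40, 48, 4, 12, 20, 28, 36, 44, 52, 60, 68, 76, 84, 92, 100, 108, 116, 124, 132, 20807681, 87920089, 89653249, 17842177],
  Vale.Agent.P032.Lt.q_of (e' := WQ017.e406) (by decide +kernel) WQ017.q406⟩

theorem w407 : Wx (EX xs7) Vale.Agent.P032X.Cert.X3.t1 (Vale.Agent.P032.Fam.fam3 Vale.Agent.P032.Fam.im0) WQ017.W407 := ⟨[0, 8, 16, 24, 32, 40, 48, 4, 12, 20, 28, 36, 44, 52, 60, 68, 76, 84, 92, 100, 108, 116, 124, 132, 140, 109215745],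
  Vale.Agent.P032.Lt.q_of (e' := WQ017.e407) (by decide +kernel) WQ017.q407⟩

theorem w408 : Wx (EX xs7) Vale.Agent.P032X.Cert.X3.t1 (Vale.Agent.P032.Fam.fam3 Vale.Agent.P032.Fam.im0) WQ017.W408 := ⟨[0, 8, 16, 24, 32, 40, 48, 4, 12, 20, 28, 36, 44, 52, 60, 68, 76, 84, 92, 100, 108, 116, 124, 132, 140, 148, 156, 164, 172, 130023681, 96210329, 43450369, 73662529, 118784001, 9732097, 48908197, 97091585, 129765965, 96210393, 130023553, 43450433, 129767501, 1900550, 2949126],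
  Vale.Agent.P032.Lt.q_of (e' := WQ017.e408) (by decide +kernel) WQ017.q408⟩

theorem w409 : Wx (EX xs7) Vale.Agent.P032X.Cert.X3.t1 (Vale.Agent.P032.Fam.fam3 Vale.Agent.P032.Fam.im0) WQ017.W409 := ⟨[0, 8, 16, 24, 32, 40, 48, 4, 12, 20, 28, 36, 44, 52, 60, 68, 76, 84, 92, 100, 108, 116, 124, 132, 140, 115605505],
  Vale.Agent.P032.Lt.q_of (e' := WQ017.e409) (by decide +kernel) WQ017.q409⟩

theorem w410 : Wx (EX xs7) Vale.Agent.P032X.Cert.X3.t1 (Vale.Agent.P032.Fam.fam3 Vale.Agent.P032.Fam.im0) WQ017.W410 := ⟨[0, 8, 16, 24, 32, 40, 48, 4, 12, 20, 28, 36, 44, 52, 60, 68, 76, 84, 92, 100, 108, 116, 124, 132, 140, 148, 156, 164, 172, 180, 188, 196, 204, 45993753, 47647753, 17891329, 38174729, 2424838, 2433030, 2949126],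
  Vale.Agent.P032.Lt.q_of (e' := WQ017.e410) (by decide +kernel) WQ017.q410⟩

theorem w411 : Wx (EX xs7) Vale.Agent.P032X.Cert.X3.t1 (Vale.Agent.P032.Fam.fam3 Vale.Agent.P032.Fam.im0) WQ017.W411 := ⟨[0, 8, 16, 24, 32, 40, 48, 4, 12, 20, 28, 36, 44, 52, 60, 68, 76, 84, 92, 100, 108, 116, 124, 132, 140, 148, 156, 129767129, 61751513, 125704397, 28197081, 2261209, 69370073],
  Vale.Agent.P032.Lt.q_of (e' := WQ017.e411) (by decide +kernel) WQ017.q411⟩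

theorem w412 : Wx (EX xs7) Vale.Agent.P032X.Cert.X3.t1 (Vale.Agent.P032.Fam.fam3 Vale.Agent.P032.Fam.im0) WQ017.W412 := ⟨[0, 8, 16, 24, 32, 40, 48, 4, 12, 20, 28, 36, 44, 52, 60, 68, 76, 84, 92, 100, 108, 116, 124, 132, 140, 148, 156, 164, 172, 76742721, 110297089, 26411009, 93519873, 59965441, 72253441, 71245281, 2424838, 2949126],
  Vale.Agent.P032.Lt.q_of (e' := WQ017.e412) (by decide +kernel) WQ017.q412⟩

theorem w413 : Wx (EX xs7) Vale.Agent.P032X.Cert.X3.t1 (Vale.Agent.P032.Fam.fam3 Vale.Agent.P032.Fam.im0) WQ017.W413 := ⟨[0, 8, 16, 24, 32, 40, 48, 4, 12, 20, 28, 36, 44, 52, 60, 68, 76, 84, 92, 100, 108, 116, 124, 132, 140, 148, 156, 164, 172, 180, 188, 116595237, 39849753, 114722753],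
  Vale.Agent.P032.Lt.q_of (e' := WQ017.e413) (by decide +kernel) WQ017.q413⟩

theorem w414 : Wx (EX xs7) Vale.Agent.P032X.Cert.X3.t1 (Vale.Agent.P032.Fam.fam3 Vale.Agent.P032.Fam.im0) WQ017.W414 := ⟨[0, 8, 16, 24, 32, 40, 48, 4, 12, 20, 28, 36, 44, 52, 60, 68, 76, 84, 92, 100, 108, 116, 124, 132, 140, 148, 156, 164, 4390913, 4390977, 88872001, 4391105, 88870465, 1376262, 1900550, 2949126],
  Vale.Agent.P032.Lt.q_of (e' := WQ017.e414) (by decide +kernel) WQ017.q414⟩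

theorem w415 : Wx (EX xs7) Vale.Agent.P032X.Cert.X3.t1 (Vale.Agent.P032.Fam.fam3 Vale.Agent.P032.Fam.im0) WQ017.W415 := ⟨[0, 8, 16, 24, 32, 40, 48, 4, 12, 20, 28, 36, 44, 52, 60, 68, 76, 84, 92, 100, 108, 116, 124, 132, 140, 148, 156, 164, 105745881, 115277825, 65736089, 105745817, 1773017, 25018369, 50188737, 99289113, 76021761, 71303361, 105742401, 10489241, 107085889, 5409345],
  Vale.Agent.P032.Lt.q_of (e' := WQ017.e415) (by decide +kernel) WQ017.q415⟩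

theorem w416 : Wx (EX xs7) Vale.Agent.P032X.Cert.X3.t1 (Vale.Agent.P032.Fam.fam3 Vale.Agent.P032.Fam.im0) WQ017.W416 := ⟨[0, 8, 16, 24, 32, 40, 48, 4, 12, 20, 28, 36, 44, 52, 60, 68, 76, 84, 92, 100, 108, 116, 124, 132, 140, 148, 156, 164, 172, 180, 188, 196, 204, 88874137, 88872601, 88870681, 10636225, 22023641, 2424838, 2949126],
  Vale.Agent.P032.Lt.q_of (e' := WQ017.e416) (by decide +kernel) WQ017.q416⟩

theorem w417 : Wx (EX xs7) Vale.Agent.P032X.Cert.X3.t1 (Vale.Agent.P032.Fam.fam3 Vale.Agent.P032.Fam.im0) WQ017.W417 := ⟨[0, 8, 16, 24, 32, 40, 48, 4, 12, 20, 28, 36, 44, 52, 60, 68, 76, 84, 92, 100, 108, 116, 124, 132, 140, 71073793, 131432449],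
  Vale.Agent.P032.Lt.q_of (e' := WQ017.e417) (by decide +kernel) WQ017.q417⟩

theorem w418 : Wx (EX xs7) Vale.Agent.P032X.Cert.X3.t1 (Vale.Agent.P032.Fam.fam3 Vale.Agent.P032.Fam.im0) WQ017.W418 := ⟨[0, 8, 16, 24, 32, 40, 48, 4, 12, 20, 28, 36, 44, 52, 60, 68, 76, 84, 92, 100, 108, 116, 124, 120524249, 43666905, 860166, 1900550, 2424838],
  Vale.Agent.P032.Lt.q_of (e' := WQ017.e418) (by decide +kernel) WQ017.q418⟩

theorem w419 : Wx (EX xs7) Vale.Agent.P032X.Cert.X3.t1 (Vale.Agent.P032.Fam.fam3 Vale.Agent.P032.Fam.im0) WQ017.W419 := ⟨[0, 8, 16, 24, 32, 40, 48, 4, 12, 20, 28, 36, 44, 52, 60, 68, 76, 84, 92, 100, 108, 116, 124, 132, 140, 148, 156, 164, 172, 96210329, 69730305, 99090433, 25018369, 50188737, 107085825, 46071873, 14683609, 130023553, 1900550, 2949126],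
  Vale.Agent.P032.Lt.q_of (e' := WQ017.e419) (by decide +kernel) WQ017.q419⟩

theorem w420 : Wx (EX xs7) Vale.Agent.P032X.Cert.X3.t1 (Vale.Agent.P032.Fam.fam3 Vale.Agent.P032.Fam.im0) WQ017.W420 := ⟨[0, 8, 16, 24, 32, 40, 48, 4, 12, 20, 28, 36, 44, 52, 60, 68, 76, 84, 92, 100, 108, 116260865, 32374785, 49152001, 82706433, 1900550, 2424838],
  Vale.Agent.P032.Lt.q_of (e' := WQ017.e420) (by decide +kernel) WQ017.q420⟩

theorem w421 : Wx (EX xs7) Vale.Agent.P032X.Cert.X3.t1 (Vale.Agent.P032.Fam.fam3 Vale.Agent.P032.Fam.im0) WQ017.W421 := ⟨[0, 8, 16, 24, 32, 40, 48, 4, 12, 20, 28, 36, 44, 52, 60, 68, 76, 84, 92, 100, 108, 116, 124, 132, 140, 148, 120324441, 19660801, 50185433, 53215577, 86770009, 335878, 860166, 1900550, 1908742, 2424838, 2957318],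
  Vale.Agent.P032.Lt.q_of (e' := WQ017.e421) (by decide +kernel) WQ017.q421⟩

theorem w422 : Wx (EX xs7) Vale.Agent.P032X.Cert.X3.t1 (Vale.Agent.P032.Fam.fam3 Vale.Agent.P032.Fam.im0) WQ017.W422 := ⟨[0, 8, 16, 24, 32, 40, 48, 4, 12, 20, 28, 36, 44, 52, 60, 68, 76, 84, 92, 100, 108, 116, 124, 132, 140, 148, 55054105, 45989889, 11928513, 46858241, 14683929, 71307225, 56627033, 851974, 2424838, 2433030, 2949126],
  Vale.Agent.P032.Lt.q_of (e' := WQ017.e422) (by decide +kernel) WQ017.q422⟩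

theorem w423 : Wx (EX xs7) Vale.Agent.P032X.Cert.X3.t1 (Vale.Agent.P032.Fam.fam3 Vale.Agent.P032.Fam.im0) WQ017.W423 := ⟨[0, 8, 16, 24, 32, 40, 48, 4, 12, 20, 28, 36, 44, 52, 60, 68, 76, 84, 92, 100, 108, 116, 92079277, 62324737, 335878, 1900550, 1908742, 2424838, 2433030],
  Vale.Agent.P032.Lt.q_of (e' := WQ017.e423) (by decide +kernel) WQ017.q423⟩

theorem w424 : Wx (EX xs7) Vale.Agent.P032X.Cert.X3.t1 (Vale.Agent.P032.Fam.fam3 Vale.Agent.P032.Fam.im0) WQ017.W424 := ⟨[0, 8, 16, 24, 32, 40, 48, 4, 12, 20, 28, 36, 44, 52, 60, 68, 76, 84, 92, 100, 108, 53411841],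
  Vale.Agent.P032.Lt.q_of (e' := WQ017.e424) (by decide +kernel) WQ017.q424⟩

theorem w425 : Wx (EX xs7) Vale.Agent.P032X.Cert.X3.t1 (Vale.Agent.P032.Fam.fam3 Vale.Agent.P032.Fam.im0) WQ017.W425 := ⟨[0, 8, 16, 24, 32, 40, 48, 4, 12, 20, 28, 36, 44, 52, 60, 68, 76, 84, 92, 30834689],
  Vale.Agent.P032.Lt.q_of (e' := WQ017.e425) (by decide +kernel) WQ017.q425⟩

theorem w426 : Wx (EX xs7) Vale.Agent.P032X.Cert.X3.t1 (Vale.Agent.P032.Fam.fam3 Vale.Agent.P032.Fam.im0) WQ017.W426 := ⟨[0, 8, 16, 24, 32, 40, 48, 4, 12, 20, 28, 36, 44, 52, 60, 68, 76, 84, 92, 100, 108, 49155545, 116264409, 82709977, 16076249, 335878, 860166, 1900550, 2424838],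
  Vale.Agent.P032.Lt.q_of (e' := WQ017.e426) (by decide +kernel) WQ017.q426⟩

theorem w427 : Wx (EX xs7) Vale.Agent.P032X.Cert.X3.t1 (Vale.Agent.P032.Fam.fam3 Vale.Agent.P032.Fam.im0) WQ017.W427 := ⟨[0, 8, 16, 24, 32, 40, 48, 4, 12, 20, 28, 36, 44, 52, 60, 68, 76, 84, 92, 100, 108, 116, 124, 82873433, 130485721, 1900550, 1908742, 2424838],
  Vale.Agent.P032.Lt.q_of (e' := WQ017.e427) (by decide +kernel) WQ017.q427⟩

theorem w428 : Wx (EX xs7) Vale.Agent.P032X.Cert.X3.t1 (Vale.Agent.P032.Fam.fam3 Vale.Agent.P032.Fam.im0) WQ017.W428 := ⟨[0, 8, 16, 24, 32, 40, 48, 4, 12, 20, 28, 36, 44, 52, 60, 68, 76, 84, 92, 100, 108, 116, 124, 132, 140, 148, 121307137, 88211777, 88869601, 15892481, 39124993, 124947105, 91131393, 88215641, 128974977, 128978841, 27198465, 344070, 860166, 1392646, 2424838, 2433030, 2949126],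
  Vale.Agent.P032.Lt.q_of (e' := WQ017.e428) (by decide +kernel) WQ017.q428⟩

theorem w429 : Wx (EX xs7) Vale.Agent.P032X.Cert.X3.t1 (Vale.Agent.P032.Fam.fam3 Vale.Agent.P032.Fam.im0) WQ017.W429 := ⟨[0, 8, 16, 24, 32, 40, 48, 4, 12, 20, 28, 36, 44, 52, 60, 68, 76, 84, 92, 100, 108, 116, 124, 132, 140, 71437785, 860166, 1900550, 2424838],
  Vale.Agent.P032.Lt.q_of (e' := WQ017.e429) (by decide +kernel) WQ017.q429⟩

theorem w430 : Wx (EX xs7) Vale.Agent.P032X.Cert.X3.t1 (Vale.Agent.P032.Fam.fam3 Vale.Agent.P032.Fam.im0) WQ017.W430 := ⟨[0, 8, 16, 24, 32, 40, 48, 4, 12, 20, 28, 36, 44, 52, 60, 68, 76, 84, 92, 100, 108, 116, 124, 132, 140, 44564545, 44564481],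
  Vale.Agent.P032.Lt.q_of (e' := WQ017.e430) (by decide +kernel) WQ017.q430⟩

theorem w431 : Wx (EX xs7) Vale.Agent.P032X.Cert.X3.t1 (Vale.Agent.P032.Fam.fam3 Vale.Agent.P032.Fam.im0) WQ018.W431 := ⟨[0, 8, 16, 24, 32, 40, 48, 4, 12, 20, 28, 36, 44, 52, 60, 68, 76, 84, 92, 100, 108, 116, 124, 132, 140, 148, 156, 130023897, 130973697, 54365977, 4197465, 64753433, 82120473, 48566041, 15010841, 4194881, 130976409, 33689369, 128974977, 43139073, 22564633, 64749569, 851974, 2424838, 2949126],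
  Vale.Agent.P032.Lt.q_of (e' := WQ018.e431) (by decide +kernel) WQ018.q431⟩

theorem w432 : Wx (EX xs7) Vale.Agent.P032X.Cert.X3.t1 (Vale.Agent.P032.Fam.fam3 Vale.Agent.P032.Fam.im0) WQ018.W432 := ⟨[0, 8, 16, 24, 32, 40, 48, 4, 12, 20, 28, 36, 44, 52, 60, 68, 76, 84, 92, 100, 108, 116, 124, 22282241, 26492929, 1900550, 2949126],
  Vale.Agent.P032.Lt.q_of (e' := WQ018.e432) (by decide +kernel) WQ018.q432⟩

theorem w433 : Wx (EX xs7) Vale.Agent.P032X.Cert.X3.t1 (Vale.Agent.P032.Fam.fam3 Vale.Agent.P032.Fam.im0) WQ018.W433 := ⟨[0, 8, 16, 24, 32, 40, 48, 4, 12, 20, 28, 36, 44, 52, 60, 68, 76, 84, 92, 100, 108, 116, 124, 132, 140, 148, 156, 164, 172, 36441497, 65179033, 265625, 12094873, 77335961, 43781529, 65015193],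
  Vale.Agent.P032.Lt.q_of (e' := WQ018.e433) (by decide +kernel) WQ018.q433⟩

theorem w434 : Wx (EX xs7) Vale.Agent.P032X.Cert.X3.t1 (Vale.Agent.P032.Fam.fam3 Vale.Agent.P032.Fam.im0) WQ018.W434 := ⟨[0, 8, 16, 24, 32, 40, 48, 4, 12, 20, 28, 36, 44, 52, 60, 68, 76, 84, 92, 100, 108, 116, 124, 132, 140, 148, 156, 164, 172, 180, 188, 93195673, 265625, 6704537, 8736153, 62016921, 124456345, 28462489, 7359897, 130023681, 127407065],
  Vale.Agent.P032.Lt.q_of (e' := WQ018.e434) (by decide +kernel) WQ018.q434⟩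

theorem w435 : Wx (EX xs7) Vale.Agent.P032X.Cert.X3.t1 (Vale.Agent.P032.Fam.fam3 Vale.Agent.P032.Fam.im0) WQ018.W435 := ⟨[0, 8, 16, 24, 32, 40, 48, 4, 12, 20, 28, 36, 44, 52, 60, 68, 76, 84, 92, 100, 108, 116, 124, 132, 140, 148, 130023553, 130023681, 89066905, 75500953, 55119321, 50188737, 50188353, 104992217, 92799321, 86245657],
  Vale.Agent.P032.Lt.q_of (e' := WQ018.e435) (by decide +kernel) WQ018.q435⟩

theorem w436 : Wx (EX xs7) Vale.Agent.P032X.Cert.X3.t1 (Vale.Agent.P032.Fam.fam3 Vale.Agent.P032.Fam.im0) WQ018.W436 := ⟨[0, 8, 16, 24, 32, 40, 48, 4, 12, 20, 28, 36, 44, 52, 60, 68, 76, 84, 92, 100, 108, 116, 124, 132, 140, 148, 156, 164, 172, 180, 188, 196, 204, 129766745, 11865857, 75235329, 47267841, 48906241, 68091905, 34537473],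
  Vale.Agent.P032.Lt.q_of (e' := WQ018.e436) (by decide +kernel) WQ018.q436⟩

theorem w437 : Wx (EX xs7) Vale.Agent.P032X.Cert.X3.t1 (Vale.Agent.P032.Fam.fam3 Vale.Agent.P032.Fam.im0) WQ018.W437 := ⟨[0, 8, 16, 24, 32, 40, 48, 4, 12, 20, 28, 36, 44, 52, 60, 68, 76, 84, 92, 100, 108, 11403353, 120455257, 851974, 1376262, 2424838],
  Vale.Agent.P032.Lt.q_of (e' := WQ018.e437) (by decide +kernel) WQ018.q437⟩

theorem w438 : Wx (EX xs7) Vale.Agent.P032X.Cert.X3.t1 (Vale.Agent.P032.Fam.fam3 Vale.Agent.P032.Fam.im0) WQ018.W438 := ⟨[0, 8, 16, 24, 32, 40, 48, 4, 12, 20, 28, 36, 44, 52, 60, 68, 76, 84, 92, 100, 108, 116, 124, 132, 140, 148, 156, 164, 172, 180, 188, 196, 204, 130023641, 63182465, 31457305, 41418945, 31457625, 63184001, 69206721, 3964953, 5506641, 3145817, 38174793, 131235929, 58720473, 47645129, 5508489, 11995045, 1900550, 2949126],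
  Vale.Agent.P032.Lt.q_of (e' := WQ018.e438) (by decide +kernel) WQ018.q438⟩

theorem w439 : Wx (EX xs7) Vale.Agent.P032X.Cert.X3.t1 (Vale.Agent.P032.Fam.fam3 Vale.Agent.P032.Fam.im0) WQ018.W439 := ⟨[0, 8, 16, 24, 32, 40, 48, 4, 12, 20, 28, 36, 44, 52, 60, 68, 76, 84, 92, 100, 108, 116, 124, 132, 140, 148, 156, 164, 172, 180, 3146009, 851974, 1376262, 2949126],
  Vale.Agent.P032.Lt.q_of (e' := WQ018.e439) (by decide +kernel) WQ018.q439⟩

theorem w440 : Wx (EX xs7) Vale.Agent.P032X.Cert.X3.t1 (Vale.Agent.P032.Fam.fam3 Vale.Agent.P032.Fam.im0) WQ018.W440 := ⟨[0, 8, 16, 24, 32, 40, 48, 4, 12, 20, 28, 36, 44, 52, 60, 68, 76, 84, 92, 100, 108, 116, 124, 132, 140, 148, 156, 164, 172, 180, 37755265, 116424769, 35062169, 6291521, 18874369, 31883265, 69730449, 69730521, 58589593, 55591065, 125305241, 92144025, 58720537, 1376262, 2424838, 2949126],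
  Vale.Agent.P032.Lt.q_of (e' := WQ018.e440) (by decide +kernel) WQ018.q440⟩

theorem w441 : Wx (EX xs7) Vale.Agent.P032X.Cert.X3.t1 (Vale.Agent.P032.Fam.fam3 Vale.Agent.P032.Fam.im0) WQ018.W441 := ⟨[0, 8, 16, 24, 32, 40, 48, 4, 12, 20, 28, 36, 44, 52, 60, 68, 76, 84, 92, 100, 108, 116, 124, 132, 140, 148, 156, 3146009, 122686593, 53510485, 11010049, 80740377, 119439449, 121110553, 860166, 1900550, 2949126],
  Vale.Agent.P032.Lt.q_of (e' := WQ018.e441) (by decide +kernel) WQ018.q441⟩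

theorem w442 : Wx (EX xs7) Vale.Agent.P032X.Cert.X3.t1 (Vale.Agent.P032.Fam.fam3 Vale.Agent.P032.Fam.im0) WQ018.W442 := ⟨[0, 8, 16, 24, 32, 40, 48, 4, 12, 20, 28, 36, 44, 52, 60, 68, 76, 84, 92, 100, 108, 116, 124, 132, 140, 148, 156, 164, 172, 180, 188, 95617217, 74448961, 114163777, 95617089, 116593637, 23003201, 78217345, 30277633, 109707265, 55148545, 90112001, 97386905],
  Vale.Agent.P032.Lt.q_of (e' := WQ018.e442) (by decide +kernel) WQ018.q442⟩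

theorem w443 : Wx (EX xs7) Vale.Agent.P032X.Cert.X3.t1 (Vale.Agent.P032.Fam.fam3 Vale.Agent.P032.Fam.im0) WQ018.W443 := ⟨[0, 8, 16, 24, 32, 40, 48, 4, 12, 20, 28, 36, 44, 52, 60, 68, 76, 84, 92, 100, 108, 116, 124, 105185281],
  Vale.Agent.P032.Lt.q_of (e' := WQ018.e443) (by decide +kernel) WQ018.q443⟩

theorem w444 : Wx (EX xs7) Vale.Agent.P032X.Cert.X3.t1 (Vale.Agent.P032.Fam.fam3 Vale.Agent.P032.Fam.im0) WQ018.W444 := ⟨[0, 8, 16, 24, 32, 40, 48, 4, 12, 20, 28, 36, 44, 52, 60, 68, 76, 84, 92, 100, 108, 116, 124, 132, 88872609, 36438017, 114294785, 55115777, 2883801, 88874145, 53020369, 41419009, 851974, 2424838, 2949126],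
  Vale.Agent.P032.Lt.q_of (e' := WQ018.e444) (by decide +kernel) WQ018.q444⟩

theorem w445 : Wx (EX xs7) Vale.Agent.P032X.Cert.X3.t1 (Vale.Agent.P032.Fam.fam3 Vale.Agent.P032.Fam.im0) WQ018.W445 := ⟨[0, 8, 16, 24, 32, 40, 48, 4, 12, 20, 28, 36, 44, 52, 60, 68, 76, 84, 92, 100, 108, 116, 124, 132, 140, 148, 156, 164, 172, 66945089, 130023641, 128385241, 130023769, 66945025, 1376262, 2949126],
  Vale.Agent.P032.Lt.q_of (e' := WQ018.e445) (by decide +kernel) WQ018.q445⟩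

theorem w446 : Wx (EX xs7) Vale.Agent.P032X.Cert.X3.t1 (Vale.Agent.P032.Fam.fam3 Vale.Agent.P032.Fam.im0) WQ018.W446 := ⟨[0, 8, 16, 24, 32, 40, 48, 4, 12, 20, 28, 36, 44, 52, 60, 68, 76, 84, 92, 100, 108, 116, 124, 132, 140, 148, 156, 164, 172, 180, 188, 196, 11865857, 101646337, 48906241, 75235329, 34537473, 983065, 68091905, 32129025],
  Vale.Agent.P032.Lt.q_of (e' := WQ018.e446) (by decide +kernel) WQ018.q446⟩

theorem w447 : Wx (EX xs7) Vale.Agent.P032X.Cert.X3.t1 (Vale.Agent.P032.Fam.fam3 Vale.Agent.P032.Fam.im0) WQ018.W447 := ⟨[0, 8, 16, 24, 32, 40, 48, 4, 12, 20, 28, 36, 44, 52, 60, 68, 76, 84, 92, 100, 108, 116, 124, 132, 140, 148, 156, 164, 172, 98568481, 4194305, 98568593, 4197401, 44564545, 25018369, 99090497, 44564481, 25018433],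
  Vale.Agent.P032.Lt.q_of (e' := WQ018.e447) (by decide +kernel) WQ018.q447⟩

theorem w448 : Wx (EX xs7) Vale.Agent.P032X.Cert.X3.t1 (Vale.Agent.P032.Fam.fam3 Vale.Agent.P032.Fam.im0) WQ018.W448 := ⟨[0, 8, 16, 24, 32, 40, 48, 4, 12, 20, 28, 36, 44, 52, 60, 68, 76, 84, 92, 100, 108, 116, 124, 132, 140, 148, 15797097, 15796713, 85854745, 107089369, 31982849, 18107905, 104988673, 39980441, 55840153, 23203225, 89394585, 7356417, 125829121, 94244249, 83889177, 50334809, 96206913, 851974, 1900550, 2949126],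
  Vale.Agent.P032.Lt.q_of (e' := WQ018.e448) (by decide +kernel) WQ018.q448⟩

theorem w449 : Wx (EX xs7) Vale.Agent.P032X.Cert.X3.t1 (Vale.Agent.P032.Fam.fam3 Vale.Agent.P032.Fam.im0) WQ018.W449 := ⟨[0, 8, 16, 24, 32, 40, 48, 4, 12, 20, 28, 36, 44, 52, 60, 68, 76, 84, 92, 100, 108, 116, 124, 132, 140, 148, 10485825, 119770521],
  Vale.Agent.P032.Lt.q_of (e' := WQ018.e449) (by decide +kernel) WQ018.q449⟩

theorem w450 : Wx (EX xs7) Vale.Agent.P032X.Cert.X3.t1 (Vale.Agent.P032.Fam.fam3 Vale.Agent.P032.Fam.im0) WQ018.W450 := ⟨[0, 8, 16, 24, 32, 40, 48, 4, 12, 20, 28, 36, 44, 52, 60, 68, 76, 84, 92, 100, 108, 116, 124, 132, 140, 148, 156, 164, 172, 180, 188, 196, 204, 212, 220, 228, 236, 20972321, 53510357, 53511013, 100860313, 115081281, 62799937, 69501337, 78020609, 79364097, 130580889, 53117337, 98304409, 69730977, 111837593, 44728729, 120225793, 50561089, 86671769, 91258945, 19939329,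 55246913, 88801281, 46994201, 78283161, 11173953, 2392473, 109707329, 2654617, 130023897, 2424838, 2949126],
  Vale.Agent.P032.Lt.q_of (e' := WQ018.e450) (by decide +kernel) WQ018.q450⟩

theorem w451 : Wx (EX xs7) Vale.Agent.P032X.Cert.X3.t1 (Vale.Agent.P032.Fam.fam3 Vale.Agent.P032.Fam.im0) WQ018.W451 := ⟨[0, 8, 16, 24, 32, 40, 48, 4, 12, 20, 28, 36, 44, 52, 60, 68, 76, 84, 92, 100, 108, 116, 124, 132, 140, 148, 156, 164, 25661209, 20221721, 92901145, 126455577, 59346713, 102174553, 1900550, 1908742, 2424838, 2949126],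
  Vale.Agent.P032.Lt.q_of (e' := WQ018.e451) (by decide +kernel) WQ018.q451⟩

theorem w452 : Wx (EX xs7) Vale.Agent.P032X.Cert.X3.t1 (Vale.Agent.P032.Fam.fam3 Vale.Agent.P032.Fam.im0) WQ018.W452 := ⟨[0, 8, 16, 24, 32, 40, 48, 4, 12, 20, 28, 36, 44, 52, 60, 68, 76, 84, 92, 100, 108, 116, 124, 132, 81854529, 93883801, 4784129, 48840705, 57508161, 851974, 860166, 1900550, 2949126],
  Vale.Agent.P032.Lt.q_of (e' := WQ018.e452) (by decide +kernel) WQ018.q452⟩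

theorem w453 : Wx (EX xs7) Vale.Agent.P032X.Cert.X3.t1 (Vale.Agent.P032.Fam.fam3 Vale.Agent.P032.Fam.im0) WQ018.W453 := ⟨[0, 8, 16, 24, 32, 40, 48, 4, 12, 20, 28, 36, 44, 52, 60, 68, 76, 84, 92, 100, 108, 116, 124, 132, 140, 148, 156, 164, 172, 180, 188, 196, 204, 58720537, 83525633, 83689689],
  Vale.Agent.P032.Lt.q_of (e' := WQ018.e453) (by decide +kernel) WQ018.q453⟩

theorem w454 : Wx (EX xs7) Vale.Agent.P032X.Cert.X3.t1 (Vale.Agent.P032.Fam.fam3 Vale.Agent.P032.Fam.im0) WQ018.W454 := ⟨[0, 8, 16, 24, 32, 40, 48, 4, 12, 20, 28, 36, 44, 52, 60, 68, 76, 84, 92, 100, 108, 116, 124, 132, 140, 148, 156, 164, 172, 180, 188, 196, 204, 212, 220, 228, 236, 244, 252, 260, 268, 5506577, 5506641, 133169241, 31457305, 41418945, 31457625, 128385345, 63182465, 47645129, 130023745, 31457497, 41419073, 31457369, 69730329, 58720473, 38174793, 96927833, 63373337, 3031129],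
  Vale.Agent.P032.Lt.q_of (e' := WQ018.e454) (by decide +kernel) WQ018.q454⟩

theorem w455 : Wx (EX xs7) Vale.Agent.P032X.Cert.X3.t1 (Vale.Agent.P032.Fam.fam3 Vale.Agent.P032.Fam.im0) WQ018.W455 := ⟨[0, 8, 16, 24, 32, 40, 48, 4, 12, 20, 28, 36, 44, 52, 60, 68, 76, 84, 92, 100, 108, 116, 124, 132, 140, 91128601, 91131393, 128974977, 128978841, 25661209, 6586369, 128225113, 1900550, 2424838, 2949126],
  Vale.Agent.P032.Lt.q_of (e' := WQ018.e455) (by decide +kernel) WQ018.q455⟩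

theorem w456 : Wx (EX xs7) Vale.Agent.P032X.Cert.X3.t1 (Vale.Agent.P032.Fam.fam3 Vale.Agent.P032.Fam.im0) WQ018.W456 := ⟨[0, 8, 16, 24, 32, 40, 48, 4, 12, 20, 28, 36, 44, 52, 60, 68, 76, 84, 92, 100, 108, 116, 124, 132, 140, 148, 156, 164, 93622041, 55054105, 119111681, 50188353, 43142937, 50184537, 64749569, 89329433, 4194881, 92799321, 22220569, 80940825, 12058905, 93458201, 37240833, 26365721, 55775001, 122883865, 13828097, 5505641, 17530881, 128974977, 56921881, 1900550, 1941510, 2424838, 2949126],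
  Vale.Agent.P032.Lt.q_of (e' := WQ018.e456) (by decide +kernel) WQ018.q456⟩

theorem w457 : Wx (EX xs7) Vale.Agent.P032X.Cert.X3.t1 (Vale.Agent.P032.Fam.fam3 Vale.Agent.P032.Fam.im0) WQ018.W457 := ⟨[0, 8, 16, 24, 32, 40, 48, 4, 12, 20, 28, 36, 44, 52, 60, 68, 76, 84, 92, 100, 108, 116, 124, 132, 140, 148, 156, 164, 172, 180, 188, 196, 88477465, 63786777, 24346625, 91455489, 7573273, 74682137, 108232705, 41123841],
  Vale.Agent.P032.Lt.q_of (e' := WQ018.e457) (by decide +kernel) WQ018.q457⟩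

theorem w458 : Wx (EX xs7) Vale.Agent.P032X.Cert.X3.t1 (Vale.Agent.P032.Fam.fam3 Vale.Agent.P032.Fam.im0) WQ018.W458 := ⟨[0, 8, 16, 24, 32, 40, 48, 4, 12, 20, 28, 36, 44, 52, 60, 68, 76, 84, 92, 100, 108, 116, 124, 132, 140, 148, 156, 18612633, 17957401, 50185089, 17956865, 2424838, 2949126],
  Vale.Agent.P032.Lt.q_of (e' := WQ018.e458) (by decide +kernel) WQ018.q458⟩

theorem w459 : Wx (EX xs7) Vale.Agent.P032X.Cert.X3.t1 (Vale.Agent.P032.Fam.fam3 Vale.Agent.P032.Fam.im0) WQ018.W459 := ⟨[0, 8, 16, 24, 32, 40, 48, 4, 12, 20, 28, 36, 44, 52, 60, 68, 76, 84, 92, 100, 108, 116, 124, 132, 140, 93323417, 87425049, 2424838, 2949126],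
  Vale.Agent.P032.Lt.q_of (e' := WQ018.e459) (by decide +kernel) WQ018.q459⟩

theorem w460 : Wx (EX xs7) Vale.Agent.P032X.Cert.X3.t1 (Vale.Agent.P032.Fam.fam3 Vale.Agent.P032.Fam.im0) WQ018.W460 := ⟨[0, 8, 16, 24, 32, 40, 48, 4, 12, 20, 28, 36, 44, 52, 60, 68, 76, 84, 92, 100, 108, 25466845, 100597761, 67043329, 86278145, 134152193, 85006301, 51451653, 118560733, 52303837, 32769],
  Vale.Agent.P032.Lt.q_of (e' := WQ018.e460) (by decide +kernel) WQ018.q460⟩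

theorem w461 : Wx (EX xs7) Vale.Agent.P032X.Cert.X3.t1 (Vale.Agent.P032.Fam.fam3 Vale.Agent.P032.Fam.im0) WQ018.W461 := ⟨[0, 8, 16, 24, 32, 40, 48, 4, 12, 20, 28, 36, 44, 52, 60, 68, 76, 84, 92, 100, 108, 116, 124, 132, 140, 148, 156, 127992025, 60883161],
  Vale.Agent.P032.Lt.q_of (e' := WQ018.e461) (by decide +kernel) WQ018.q461⟩

theorem w462 : Wx (EX xs7) Vale.Agent.P032X.Cert.X3.t1 (Vale.Agent.P032.Fam.fam3 Vale.Agent.P032.Fam.im0) WQ019.W462 := ⟨[0, 8, 16, 24, 32, 40, 48, 4, 12, 20, 28, 36, 44, 52, 60, 68, 76, 84, 92, 100, 108, 116, 124, 132, 9633793],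
  Vale.Agent.P032.Lt.q_of (e' := WQ019.e462) (by decide +kernel) WQ019.q462⟩

theorem w463 : Wx (EX xs7) Vale.Agent.P032X.Cert.X3.t1 (Vale.Agent.P032.Fam.fam3 Vale.Agent.P032.Fam.im0) WQ019.W463 := ⟨[0, 8, 16, 24, 32, 40, 48, 4, 12, 20, 28, 36, 44, 52, 60, 68, 76, 84, 92, 100, 108, 116, 124, 132, 140, 148, 156, 164, 129767129, 8132313, 28197081, 61751513, 2261209, 69370073],
  Vale.Agent.P032.Lt.q_of (e' := WQ019.e463) (by decide +kernel) WQ019.q463⟩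

theorem w464 : Wx (EX xs7) Vale.Agent.P032X.Cert.X3.t1 (Vale.Agent.P032.Fam.fam3 Vale.Agent.P032.Fam.im0) WQ019.W464 := ⟨[0, 8, 16, 24, 32, 40, 48, 4, 12, 20, 28, 36, 44, 52, 60, 68, 76, 84, 92, 100, 108, 116, 124, 109969409, 42860545],
  Vale.Agent.P032.Lt.q_of (e' := WQ019.e464) (by decide +kernel) WQ019.q464⟩

theorem w465 : Wx (EX xs7) Vale.Agent.P032X.Cert.X3.t1 (Vale.Agent.P032.Fam.fam3 Vale.Agent.P032.Fam.im0) WQ019.W465 := ⟨[0, 8, 16, 24, 32, 40, 48, 4, 12, 20, 28, 36, 44, 52, 60, 68, 76, 84, 92, 100, 108, 116, 124, 132, 140, 148, 156, 164, 172, 180, 86576925, 129240861, 40177437, 26496797, 130976029, 119111685, 16617245, 83726109, 50171677, 125669149, 62131997, 117280541, 335878, 851974, 1376262, 1900550, 2424838, 2433030, 2949126, 2957318],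
  Vale.Agent.P032.Lt.q_of (e' := WQ019.e465) (by decide +kernel) WQ019.q465⟩

theorem w466 : Wx (EX xs7) Vale.Agent.P032X.Cert.X3.t1 (Vale.Agent.P032.Fam.fam3 Vale.Agent.P032.Fam.im0) WQ019.W466 := ⟨[0, 8, 16, 24, 32, 40, 48, 4, 12, 20, 28, 36, 44, 52, 60, 68, 76, 84, 92, 100, 108, 116, 124, 132, 140, 71930369, 21594113, 105480193, 38371609, 851974, 1376262, 2424838, 2949126],
  Vale.Agent.P032.Lt.q_of (e' := WQ019.e466) (by decide +kernel) WQ019.q466⟩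

theorem w467 : Wx (EX xs7) Vale.Agent.P032X.Cert.X3.t1 (Vale.Agent.P032.Fam.fam3 Vale.Agent.P032.Fam.im0) WQ019.W467 := ⟨[0, 8, 16, 24, 32, 40, 48, 4, 12, 20, 28, 36, 44, 52, 60, 68, 76, 84, 92, 100, 108, 116, 124, 132, 140, 148, 156, 31461285, 53513665, 32181889, 58736793],
  Vale.Agent.P032.Lt.q_of (e' := WQ019.e467) (by decide +kernel) WQ019.q467⟩

theorem w468 : Wx (EX xs7) Vale.Agent.P032X.Cert.X3.t1 (Vale.Agent.P032.Fam.fam3 Vale.Agent.P032.Fam.im0) WQ019.W468 := ⟨[0, 8, 16, 24, 32, 40, 48, 4, 12, 20, 28, 36, 44, 52, 60, 68, 76, 84, 92, 100, 108, 116, 124, 132, 140, 148, 156, 34406401, 67960833, 45891585],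
  Vale.Agent.P032.Lt.q_of (e' := WQ019.e468) (by decide +kernel) WQ019.q468⟩

theorem w469 : Wx (EX xs7) Vale.Agent.P032X.Cert.X3.t1 (Vale.Agent.P032.Fam.fam3 Vale.Agent.P032.Fam.im0) WQ019.W469 := ⟨[0, 8, 16, 24, 32, 40, 48, 4, 12, 20, 28, 36, 44, 52, 60, 68, 76, 84, 92, 100, 108, 116, 124, 132, 140, 148, 156, 164, 53513665, 58736793, 11766949],
  Vale.Agent.P032.Lt.q_of (e' := WQ019.e469) (by decide +kernel) WQ019.q469⟩

theorem w470 : Wx (EX xs7) Vale.Agent.P032X.Cert.X3.t1 (Vale.Agent.P032.Fam.fam3 Vale.Agent.P032.Fam.im0) WQ019.W470 := ⟨[0, 8, 16, 24, 32, 40, 48, 4, 12, 20, 28, 36, 44, 52, 60, 68, 76, 84, 92, 100, 108, 116, 124, 132, 140, 148, 156, 164, 172, 180, 188, 196, 8929433, 122421401, 30146561, 46923929, 12337153, 42486029, 55511449, 13369497, 80478361, 88868165, 49225053, 114034957, 1376262, 1900550],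
  Vale.Agent.P032.Lt.q_of (e' := WQ019.e470) (by decide +kernel) WQ019.q470⟩

theorem w471 : Wx (EX xs7) Vale.Agent.P032X.Cert.X3.t1 (Vale.Agent.P032.Fam.fam3 Vale.Agent.P032.Fam.im0) WQ019.W471 := ⟨[0, 8, 16, 24, 32, 40, 48, 4, 12, 20, 28, 36, 44, 52, 60, 68, 76, 84, 92, 100, 108, 116, 124, 132, 140, 148, 156, 164, 172, 180, 188, 196, 22839297, 7503873, 59654145, 851974, 2424838, 2957318],
  Vale.Agent.P032.Lt.q_of (e' := WQ019.e471) (by decide +kernel) WQ019.q471⟩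

theorem w472 : Wx (EX xs7) Vale.Agent.P032X.Cert.X3.t1 (Vale.Agent.P032.Fam.fam3 Vale.Agent.P032.Fam.im0) WQ019.W472 := ⟨[0, 8, 16, 24, 32, 40, 48, 4, 12, 20, 28, 36, 44, 52, 60, 68, 76, 84, 92, 100, 108, 116, 124, 132, 140, 148, 156, 164, 172, 180, 188, 196, 24266265, 20973613, 50186445, 24266649],
  Vale.Agent.P032.Lt.q_of (e' := WQ019.e472) (by decide +kernel) WQ019.q472⟩

theorem w473 : Wx (EX xs7) Vale.Agent.P032X.Cert.X3.t1 (Vale.Agent.P032.Fam.fam3 Vale.Agent.P032.Fam.im0) WQ019.W473 := ⟨[0, 8, 16, 24, 32, 40, 48, 4, 12, 20, 28, 36, 44, 52, 60, 68, 76, 84, 92, 100, 108, 116, 124, 132, 140, 148, 156, 164, 172, 180, 188, 196, 65093697, 7767961, 46204825, 15566809, 124618713, 65093633, 7768025, 46204889, 15566745, 124618649, 851974, 1376262],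
  Vale.Agent.P032.Lt.q_of (e' := WQ019.e473) (by decide +kernel) WQ019.q473⟩

theorem w474 : Wx (EX xs7) Vale.Agent.P032X.Cert.X3.t1 (Vale.Agent.P032.Fam.fam3 Vale.Agent.P032.Fam.im0) WQ019.W474 := ⟨[0, 8, 16, 24, 32, 40, 48, 4, 12, 20, 28, 36, 44, 52, 60, 68, 76, 84, 92, 100, 108, 116, 124, 132, 140, 148, 79825369, 72617921, 26742721, 45287425, 11997057, 58722405, 20975109, 49219541, 5263045, 49219733, 49223077, 20978061],
  Vale.Agent.P032.Lt.q_of (e' := WQ019.e474) (by decide +kernel) WQ019.q474⟩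

theorem w475 : Wx (EX xs7) Vale.Agent.P032X.Cert.X3.t1 (Vale.Agent.P032.Fam.fam3 Vale.Agent.P032.Fam.im0) WQ019.W475 := ⟨[0, 8, 16, 24, 32, 40, 48, 4, 12, 20, 28, 36, 44, 52, 60, 68, 76, 84, 92, 100, 108, 116, 124, 132, 140, 148, 156, 75142877, 75137605],
  Vale.Agent.P032.Lt.q_of (e' := WQ019.e475) (by decide +kernel) WQ019.q475⟩

theorem w476 : Wx (EX xs7) Vale.Agent.P032X.Cert.X3.t1 (Vale.Agent.P032.Fam.fam3 Vale.Agent.P032.Fam.im0) WQ019.W476 := ⟨[0, 8, 16, 24, 32, 40, 48, 4, 12, 20, 28, 36, 44, 52, 60, 68, 76, 84, 92, 100, 108, 116, 124, 132, 140, 148, 89849857, 22741145, 851974, 892934, 1376262, 2424838, 2949126],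
  Vale.Agent.P032.Lt.q_of (e' := WQ019.e476) (by decide +kernel) WQ019.q476⟩

theorem w477 : Wx (EX xs7) Vale.Agent.P032X.Cert.X3.t1 (Vale.Agent.P032.Fam.fam3 Vale.Agent.P032.Fam.im0) WQ019.W477 := ⟨[0, 8, 16, 24, 32, 40, 48, 4, 12, 20, 28, 36, 44, 52, 60, 68, 76, 84, 92, 100, 108, 116, 124, 132, 140, 148, 156, 164, 172, 180, 188, 196, 204, 28999681, 56967169],
  Vale.Agent.P032.Lt.q_of (e' := WQ019.e477) (by decide +kernel) WQ019.q477⟩

theorem w478 : Wx (EX xs7) Vale.Agent.P032X.Cert.X3.t1 (Vale.Agent.P032.Fam.fam3 Vale.Agent.P032.Fam.im0) WQ019.W478 := ⟨[0, 8, 16, 24, 32, 40, 48, 4, 12, 20, 28, 36, 44, 52, 60, 68, 76, 84, 92, 100, 108, 116, 124, 132, 140, 148, 2377729, 96864257, 2492417, 9896473, 63309825, 130418689, 77004801, 1376262, 2424838, 2949126, 2957318],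
  Vale.Agent.P032.Lt.q_of (e' := WQ019.e478) (by decide +kernel) WQ019.q478⟩

theorem w479 : Wx (EX xs7) Vale.Agent.P032X.Cert.X3.t1 (Vale.Agent.P032.Fam.fam3 Vale.Agent.P032.Fam.im0) WQ019.W479 := ⟨[0, 8, 16, 24, 32, 40, 48, 4, 12, 20, 28, 36, 44, 52, 60, 68, 76, 84, 92, 100, 108, 116, 124, 132, 140, 88604673, 76578817],
  Vale.Agent.P032.Lt.q_of (e' := WQ019.e479) (by decide +kernel) WQ019.q479⟩

theorem w480 : Wx (EX xs7) Vale.Agent.P032X.Cert.X3.t1 (Vale.Agent.P032.Fam.fam3 Vale.Agent.P032.Fam.im0) WQ019.W480 := ⟨[0, 8, 16, 24, 32, 40, 48, 4, 12, 20, 28, 36, 44, 52, 60, 68, 76, 84, 92, 100, 108, 116, 88605313],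
  Vale.Agent.P032.Lt.q_of (e' := WQ019.e480) (by decide +kernel) WQ019.q480⟩

theorem w481 : Wx (EX xs7) Vale.Agent.P032X.Cert.X3.t1 (Vale.Agent.P032.Fam.fam3 Vale.Agent.P032.Fam.im0) WQ019.W481 := ⟨[0, 8, 16, 24, 32, 40, 48, 4, 12, 20, 28, 36, 44, 52, 60, 68, 76, 84, 92, 100, 108, 116, 124, 132, 140, 148, 132743169, 105846737, 21954585],
  Vale.Agent.P032.Lt.q_of (e' := WQ019.e481) (by decide +kernel) WQ019.q481⟩

theorem w482 : Wx (EX xs7) Vale.Agent.P032X.Cert.X3.t1 (Vale.Agent.P032.Fam.fam3 Vale.Agent.P032.Fam.im0) WQ019.W482 := ⟨[0, 8, 16, 24, 32, 40, 48, 4, 12, 20, 28, 36, 44, 52, 60, 68, 76, 84, 92, 100, 108, 116, 124, 132, 140, 148, 156, 72122457, 126648409, 5013505, 24526937, 41304153],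
  Vale.Agent.P032.Lt.q_of (e' := WQ019.e482) (by decide +kernel) WQ019.q482⟩

theorem w483 : Wx (EX xs7) Vale.Agent.P032X.Cert.X3.t1 (Vale.Agent.P032.Fam.fam3 Vale.Agent.P032.Fam.im0) WQ019.W483 := ⟨[0, 8, 16, 24, 32, 40, 48, 4, 12, 20, 28, 36, 44, 52, 60, 68, 76, 84, 92, 100, 108, 116, 124, 132, 140, 148, 156, 164, 172, 20906137, 104792217, 60375193, 360454, 1376262, 1900550],
  Vale.Agent.P032.Lt.q_of (e' := WQ019.e483) (by decide +kernel) WQ019.q483⟩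

theorem w484 : Wx (EX xs7) Vale.Agent.P032X.Cert.X3.t1 (Vale.Agent.P032.Fam.fam3 Vale.Agent.P032.Fam.im0) WQ020.W484 := ⟨[0, 8, 16, 24, 32, 40, 48, 4, 12, 20, 28, 36, 44, 52, 60, 68, 76, 84, 92, 100, 108, 116, 124, 132, 140, 148, 156, 164, 69079937, 5508717, 75072281],
  Vale.Agent.P032.Lt.q_of (e' := WQ020.e484) (by decide +kernel) WQ020.q484⟩

theorem w485 : Wx (EX xs7) Vale.Agent.P032X.Cert.X3.t1 (Vale.Agent.P032.Fam.fam3 Vale.Agent.P032.Fam.im0) WQ020.W485 := ⟨[0, 8, 16, 24, 32, 40, 48, 4, 12, 20, 28, 36, 44, 52, 60, 68, 76, 84, 92, 100, 108, 116, 124, 132, 46465025],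
  Vale.Agent.P032.Lt.q_of (e' := WQ020.e485) (by decide +kernel) WQ020.q485⟩

theorem w486 : Wx (EX xs7) Vale.Agent.P032X.Cert.X3.t1 (Vale.Agent.P032.Fam.fam3 Vale.Agent.P032.Fam.im0) WQ020.W486 := ⟨[0, 8, 16, 24, 32, 40, 48, 4, 12, 20, 28, 36, 44, 52, 60, 68, 76, 84, 92, 100, 108, 116, 124, 132, 140, 148, 156, 164, 172, 34881689, 79036569],
  Vale.Agent.P032.Lt.q_of (e' := WQ020.e486) (by decide +kernel) WQ020.q486⟩

theorem w487 : Wx (EX xs7) Vale.Agent.P032X.Cert.X3.t1 (Vale.Agent.P032.Fam.fam3 Vale.Agent.P032.Fam.im0) WQ020.W487 := ⟨[0, 8, 16, 24, 32, 40, 48, 4, 12, 20, 28, 36, 44, 52, 60, 68, 76, 84, 92, 100, 108, 116, 124, 132, 140, 148, 156, 164, 172, 180, 126422937],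
  Vale.Agent.P032.Lt.q_of (e' := WQ020.e487) (by decide +kernel) WQ020.q487⟩

theorem w488 : Wx (EX xs7) Vale.Agent.P032X.Cert.X3.t1 (Vale.Agent.P032.Fam.fam3 Vale.Agent.P032.Fam.im0) WQ020.W488 := ⟨[0, 8, 16, 24, 32, 40, 48, 4, 12, 20, 28, 36, 44, 52, 60, 68, 76, 84, 92, 100, 108, 116, 124, 132, 140, 148, 129171457, 62062593],
  Vale.Agent.P032.Lt.q_of (e' := WQ020.e488) (by decide +kernel) WQ020.q488⟩

theorem w489 : Wx (EX xs7) Vale.Agent.P032X.Cert.X3.t1 (Vale.Agent.P032.Fam.fam3 Vale.Agent.P032.Fam.im0) WQ020.W489 := ⟨[0, 8, 16, 24, 32, 40, 48, 4, 12, 20, 28, 36, 44, 52, 60, 68, 76, 84, 92, 100, 108, 116, 124, 132, 140, 5262853, 20974981, 58736793, 31885581, 55511449, 335878, 851974, 1376262, 2424838, 2957318],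
  Vale.Agent.P032.Lt.q_of (e' := WQ020.e489) (by decide +kernel) WQ020.q489⟩

theorem w490 : Wx (EX xs7) Vale.Agent.P032X.Cert.X3.t1 (Vale.Agent.P032.Fam.fam3 Vale.Agent.P032.Fam.im0) WQ020.W490 := ⟨[0, 8, 16, 24, 32, 40, 48, 4, 12, 20, 28, 36, 44, 52, 60, 68, 76, 84, 92, 100, 108, 52822297],
  Vale.Agent.P032.Lt.q_of (e' := WQ020.e490) (by decide +kernel) WQ020.q490⟩

theorem w491 : Wx (EX xs7) Vale.Agent.P032X.Cert.X3.t1 (Vale.Agent.P032.Fam.fam3 Vale.Agent.P032.Fam.im0) WQ020.W491 := ⟨[0, 8, 16, 24, 32, 40, 48, 4, 12, 20, 28, 36, 44, 52, 60, 68, 76, 84, 92, 100, 108, 116, 124, 132, 124026881, 130975681, 3047425, 22102017],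
  Vale.Agent.P032.Lt.q_of (e' := WQ020.e491) (by decide +kernel) WQ020.q491⟩

theorem w492 : Wx (EX xs7) Vale.Agent.P032X.Cert.X3.t1 (Vale.Agent.P032.Fam.fam3 Vale.Agent.P032.Fam.im0) WQ020.W492 := ⟨[0, 8, 16, 24, 32, 40, 48, 4, 12, 20, 28, 36, 44, 52, 60, 68, 76, 84, 92, 100, 108, 116, 124, 132, 140, 58736793, 8129921, 129764737, 20974981],
  Vale.Agent.P032.Lt.q_of (e' := WQ020.e492) (by decide +kernel) WQ020.q492⟩

theorem w493 : Wx (EX xs7) Vale.Agent.P032X.Cert.X3.t1 (Vale.Agent.P032.Fam.fam3 Vale.Agent.P032.Fam.im0) WQ020.W493 := ⟨[0, 8, 16, 24, 32, 40, 48, 4, 12, 20, 28, 36, 44, 52, 60, 68, 76, 84, 92, 100, 108, 116, 124, 23330817],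
  Vale.Agent.P032.Lt.q_of (e' := WQ020.e493) (by decide +kernel) WQ020.q493⟩

theorem w494 : Wx (EX xs7) Vale.Agent.P032X.Cert.X3.t1 (Vale.Agent.P032.Fam.fam3 Vale.Agent.P032.Fam.im0) WQ020.W494 := ⟨[0, 8, 16, 24, 32, 40, 48, 4, 12, 20, 28, 36, 44, 52, 60, 68, 76, 84, 92, 100, 108, 116, 124, 132, 140, 148, 156, 164, 32851497],
  Vale.Agent.P032.Lt.q_of (e' := WQ020.e494) (by decide +kernel) WQ020.q494⟩

theorem w495 : Wx (EX xs7) Vale.Agent.P032X.Cert.X3.t1 (Vale.Agent.P032.Fam.fam3 Vale.Agent.P032.Fam.im0) WQ020.W495 := ⟨[0, 8, 16, 24, 32, 40, 48, 4, 12, 20, 28, 36, 44, 52, 60, 68, 76, 84, 92, 100, 108, 116, 124, 132, 18876837],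
  Vale.Agent.P032.Lt.q_of (e' := WQ020.e495) (by decide +kernel) WQ020.q495⟩

theorem w496 : Wx (EX xs7) Vale.Agent.P032X.Cert.X3.t1 (Vale.Agent.P032.Fam.fam3 Vale.Agent.P032.Fam.im0) WQ020.W496 := ⟨[0, 8, 16, 24, 32, 40, 48, 4, 12, 20, 28, 36, 44, 52, 60, 68, 76, 84, 92, 100, 108, 116, 124, 119930881, 1900550, 1941510],
  Vale.Agent.P032.Lt.q_of (e' := WQ020.e496) (by decide +kernel) WQ020.q496⟩

theorem w497 : Wx (EX xs7) Vale.Agent.P032X.Cert.X3.t1 (Vale.Agent.P032.Fam.fam3 Vale.Agent.P032.Fam.im0) WQ020.W497 := ⟨[0, 8, 16, 24, 32, 40, 48, 4, 12, 20, 28, 36, 44, 52, 60, 68, 76, 84, 92, 100, 108, 116, 124, 132, 140, 148, 156, 29589721, 96698585, 41238745, 110854361, 113278977, 58015961, 24461529, 79921369, 102793433, 124722401, 46366937, 77299929, 113475801, 26968281, 7684313, 4021593, 46170113],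
  Vale.Agent.P032.Lt.q_of (e' := WQ020.e497) (by decide +kernel) WQ020.q497⟩

theorem w498 : Wx (EX xs7) Vale.Agent.P032X.Cert.X3.t1 (Vale.Agent.P032.Fam.fam3 Vale.Agent.P032.Fam.im0) WQ020.W498 := ⟨[0, 8, 16, 24, 32, 40, 48, 4, 12, 20, 28, 36, 44, 52, 60, 68, 76, 84, 92, 100, 108, 116, 124, 132, 140, 148, 156, 164, 54099969, 87654401, 12156929, 92798977, 121209113],
  Vale.Agent.P032.Lt.q_of (e' := WQ020.e498) (by decide +kernel) WQ020.q498⟩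

theorem w499 : Wx (EX xs7) Vale.Agent.P032X.Cert.X3.t1 (Vale.Agent.P032.Fam.fam3 Vale.Agent.P032.Fam.im0) WQ020.W499 := ⟨[0, 8, 16, 24, 32, 40, 48, 4, 12, 20, 28, 36, 44, 52, 60, 68, 76, 84, 92, 100, 108, 116, 124, 35684353, 46170113, 113278977, 96501761, 124722401, 102793433, 69238785, 130056193, 29393113, 2129921, 62947329],
  Vale.Agent.P032.Lt.q_of (e' := WQ020.e499) (by decide +kernel) WQ020.q499⟩

def L : List (List ℕ) := [WQ017.W400, WQ017.W401, WQ017.W402, WQ017.W403, WQ017.W404, WQ017.W405, WQ017.W406, WQ017.W407, WQ017.W408, WQ017.W409, WQ017.W410, WQ017.W411, WQ017.W412, WQ017.W413, WQ017.W414, WQ017.W415, WQ017.W416, WQ017.W417, WQ017.W418, WQ017.W419, WQ017.W420, WQ017.W421, WQ017.W422, WQ017.W423, WQ017.W424, WQ017.W425, WQ017.W426, WQ017.W427, WQ017.W428, WQ017.W429, WQ017.W430, WQ018.W431, WQ018.W432, WQ018.W433, WQ018.W434, WQ018.W435, WQ018.W436, WQ018.W437, WQ018.W438,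 WQ018.W439, WQ018.W440, WQ018.W441, WQ018.W442, WQ018.W443, WQ018.W444, WQ018.W445, WQ018.W446, WQ018.W447, WQ018.W448, WQ018.W449, WQ018.W450, WQ018.W451, WQ018.W452, WQ018.W453, WQ018.W454, WQ018.W455, WQ018.W456, WQ018.W457, WQ018.W458, WQ018.W459, WQ018.W460, WQ018.W461, WQ019.W462, WQ019.W463, WQ019.W464, WQ019.W465, WQ019.W466, WQ019.W467, WQ019.W468, WQ019.W469, WQ019.W470, WQ019.W471, WQ019.W472, WQ019.W473, WQ019.W474, WQ019.W475, WQ019.W476, WQ019.W477, WQ019.W478, WQ019.W479, WQ019.W480, WQ019.W481, WQ019.W482, WQ019.W483, WQ020.W484, WQ020.W485, WQ020.W486, WQ020.W487, WQ020.W488, WQ020.W489, WQ020.W490, WQ020.W491, WQ020.W492, WQ020.W493, WQ020.W494, WQ020.W495, WQ020.W496, WQ020.W497, WQ020.W498, WQ020.W499]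

theorem all : ∀ P ∈ L, Wx (EX xs7) Vale.Agent.P032X.Cert.X3.t1 (Vale.Agent.P032.Fam.fam3 Vale.Agent.P032.Fam.im0) P := wx_cons w400 (wx_cons w401 (wx_cons w402 (wx_cons w403 (wx_cons w404 (wx_cons w405 (wx_cons w406 (wx_cons w407 (wx_cons w408 (wx_cons w409 (wx_cons w410 (wx_cons w411 (wx_cons w412 (wx_cons w413 (wx_cons w414 (wx_cons w415 (wx_cons w416 (wx_cons w417 (wx_cons w418 (wx_cons w419 (wx_cons w420 (wx_cons w421 (wx_cons w422 (wx_cons w423 (wx_cons w424 (wx_cons w425 (wx_cons w426 (wx_cons w427 (wx_cons w428 (wx_cons w429 (wx_cons w430 (wx_cons w431 (wx_cons w432 (wx_cons w433 (wx_cons w434 (wx_cons w435 (wx_cons w436 (wx_cons w437 (wx_cons w438 (wx_cons w439 (wx_cons w440 (wx_cons w441 (wx_cons w442 (wx_cons w443 (wx_cons w444 (wx_cons w445 (wx_cons w446 (wx_cons w447 (wx_cons w448 (wx_cons w449 (wx_cons w450 (wx_cons w451 (wx_cons w452 (wx_cons w453 (wx_cons w454 (wx_cons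 w455 (wx_cons w456 (wx_cons w457 (wx_cons w458 (wx_cons w459 (wx_cons w460 (wx_cons w461 (wx_cons w462 (wx_cons w463 (wx_cons w464 (wx_cons w465 (wx_cons w466 (wx_cons w467 (wx_cons w468 (wx_cons w469 (wx_cons w470 (wx_cons w471 (wx_cons w472 (wx_cons w473 (wx_cons w474 (wx_cons w475 (wx_cons w476 (wx_cons w477 (wx_cons w478 (wx_cons w479 (wx_cons w480 (wx_cons w481 (wx_cons w482 (wx_cons w483 (wx_cons w484 (wx_cons w485 (wx_cons w486 (wx_cons w487 (wx_cons w488 (wx_cons w489 (wx_cons w490 (wx_cons w491 (wx_cons w492 (wx_cons w493 (wx_cons w494 (wx_cons w495 (wx_cons w496 (wx_cons w497 (wx_cons w498 (wx_cons w499 wx_nil)))))))))))))))))))))))))))))))))))))))))))))))))))))))))))))))))))))))))))))))))))))))))))))))))))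

theorem ch : chT 73 73 TCm Vale.Agent.P032X.Cert.X3.W1.sW_004 L = true := by decide +kernel

end Vale.Agent.P032X.Cert.X3.W1.WH004
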