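import Vale.Agent.P032X.H892.LtH
import Vale.Agent.P032X.H286.A73
import Vale.Agent.P032X.Cert.X3.T1
import Vale.Agent.P032X.Cert.X3.W1.WT
import Vale.Agent.P032X.Cert.X3.W1.WQ021
import Vale.Agent.P032X.Cert.X3.W1.WQ022
import Vale.Agent.P032X.Cert.X3.W1.WQ023
import Vale.Agent.P032X.Cert.X3.W1.WQ024
import Vale.Agent.P032X.Cert.X3.W1.WQ025
import Vale.Agent.P032X.Cert.X3.W1.WQ026

set_option maxRecDepth 1000000

namespace Vale.Agent.P032X.Cert.X3.W1.WH005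

open Vale.Agent.P032.H820.K Vale.Agent.P032.H357.MK Vale.Agent.P032.H286.E Vale.Agent.P032.H61 Vale.Agent.P032.H61.TF Vale.Agent.P032.BlkE Vale.Agent.P032.BlkS Vale.Agent.P032.H357 Vale.Agent.P032 

theorem w500 : Wx (EX xs7) Vale.Agent.P032X.Cert.X3.t1 (Vale.Agent.P032.Fam.fam3 Vale.Agent.P032.Fam.im0) WQ021.W500 := ⟨[0, 8, 16, 24, 32, 40, 48, 4, 12, 20, 28, 36, 44, 52, 60, 68, 76, 84, 92, 100, 108, 116, 124, 132, 140, 148, 60375193, 36274329, 69828761, 851974, 1376262, 1400838, 1900550],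
  Vale.Agent.P032.Lt.q_of (e' := WQ021.e500) (by decide +kernel) WQ021.q500⟩

theorem w501 : Wx (EX xs7) Vale.Agent.P032X.Cert.X3.t1 (Vale.Agent.P032.Fam.fam3 Vale.Agent.P032.Fam.im0) WQ021.W501 := ⟨[0, 8, 16, 24, 32, 40, 48, 4, 12, 20, 28, 36, 44, 52, 60, 68, 76, 84, 92, 100, 108, 116, 124, 132, 140, 148, 156, 164, 172, 180, 188, 196, 204, 212, 129764737],
  Vale.Agent.P032.Lt.q_of (e' := WQ021.e501) (by decide +kernel) WQ021.q501⟩

theorem w502 : Wx (EX xs7) Vale.Agent.P032X.Cert.X3.t1 (Vale.Agent.P032.Fam.fam3 Vale.Agent.P032.Fam.im0) WQ021.W502 := ⟨[0, 8, 16, 24, 32, 40, 48, 4, 12, 20, 28, 36, 44, 52, 60, 68, 76, 84, 92, 100, 108, 116, 124, 132, 140, 148, 156, 18350081],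
  Vale.Agent.P032.Lt.q_of (e' := WQ021.e502) (by decide +kernel) WQ021.q502⟩

theorem w503 : Wx (EX xs7) Vale.Agent.P032X.Cert.X3.t1 (Vale.Agent.P032.Fam.fam3 Vale.Agent.P032.Fam.im0) WQ021.W503 := ⟨[0, 8, 16, 24, 32, 40, 48, 4, 12, 20, 28, 36, 44, 52, 60, 68, 76, 84, 92, 100, 108, 116, 124, 132, 140, 148, 156, 164, 172, 180, 188, 196, 204, 212, 54460569, 121569433, 20906137, 104792217, 88016653, 360454, 368646, 1376262, 1400838, 1900550],
  Vale.Agent.P032.Lt.q_of (e' := WQ021.e503) (by decide +kernel) WQ021.q503⟩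

theorem w504 : Wx (EX xs7) Vale.Agent.P032X.Cert.X3.t1 (Vale.Agent.P032.Fam.fam3 Vale.Agent.P032.Fam.im0) WQ021.W504 := ⟨[0, 8, 16, 24, 32, 40, 48, 4, 12, 20, 28, 36, 44, 52, 60, 68, 76, 84, 92, 100, 108, 15597569, 335878, 860166, 1900550, 2957318],
  Vale.Agent.P032.Lt.q_of (e' := WQ021.e504) (by decide +kernel) WQ021.q504⟩

theorem w505 : Wx (EX xs7) Vale.Agent.P032X.Cert.X3.t1 (Vale.Agent.P032.Fam.fam3 Vale.Agent.P032.Fam.im0) WQ021.W505 := ⟨[0, 8, 16, 24, 32, 40, 48, 4, 12, 20, 28, 36, 44, 52, 60, 68, 76, 84, 92, 56262657, 123371521, 19136513, 88540825],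
  Vale.Agent.P032.Lt.q_of (e' := WQ021.e505) (by decide +kernel) WQ021.q505⟩

theorem w506 : Wx (EX xs7) Vale.Agent.P032X.Cert.X3.t1 (Vale.Agent.P032.Fam.fam3 Vale.Agent.P032.Fam.im0) WQ021.W506 := ⟨[0, 8, 16, 24, 32, 40, 48, 4, 12, 20, 28, 36, 44, 52, 60, 68, 76, 84, 92, 100, 108, 116, 124, 132, 140, 148, 156, 98762753, 45290905, 58725837, 11996697, 104043353, 72617561, 20155929],
  Vale.Agent.P032.Lt.q_of (e' := WQ021.e506) (by decide +kernel) WQ021.q506⟩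

theorem w507 : Wx (EX xs7) Vale.Agent.P032X.Cert.X3.t1 (Vale.Agent.P032.Fam.fam3 Vale.Agent.P032.Fam.im0) WQ021.W507 := ⟨[0, 8, 16, 24, 32, 40, 48, 4, 12, 20, 28, 36, 44, 52, 60, 68, 76, 84, 92, 100, 108, 116, 124, 132, 140, 148, 156, 164, 172, 180, 188, 196, 11997121, 112395777, 26742657, 124880421, 98570309],
  Vale.Agent.P032.Lt.q_of (e' := WQ021.e507) (by decide +kernel) WQ021.q507⟩

theorem w508 : Wx (EX xs7) Vale.Agent.P032X.Cert.X3.t1 (Vale.Agent.P032.Fam.fam3 Vale.Agent.P032.Fam.im0) WQ021.W508 := ⟨[0, 8, 16, 24, 32, 40, 48, 4, 12, 20, 28, 36, 44, 52, 60, 68, 76, 84, 92, 100, 108, 116, 124, 132, 140, 148, 156, 164, 172, 180, 188, 196, 204, 212, 220, 115539969, 88604673, 111312897, 49875009, 81070145, 60986841, 65864089, 13961281, 55905881, 31082561, 27427737, 91133861, 50878029, 94536089, 40785369],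
  Vale.Agent.P032.Lt.q_of (e' := WQ021.e508) (by decide +kernel) WQ021.q508⟩

theorem w509 : Wx (EX xs7) Vale.Agent.P032X.Cert.X3.t1 (Vale.Agent.P032.Fam.fam3 Vale.Agent.P032.Fam.im0) WQ021.W509 := ⟨[0, 8, 16, 24, 32, 40, 48, 4, 12, 20, 28, 36, 44, 52, 60, 68, 76, 84, 92, 100, 108, 116, 124, 132, 140, 148, 156, 164, 172, 180, 188, 53510465, 117800961, 53510337, 50692965, 327686, 2424838, 2957318],
  Vale.Agent.P032.Lt.q_of (e' := WQ021.e509) (by decide +kernel) WQ021.q509⟩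

theorem w510 : Wx (EX xs7) Vale.Agent.P032X.Cert.X3.t1 (Vale.Agent.P032.Fam.fam3 Vale.Agent.P032.Fam.im0) WQ021.W510 := ⟨[0, 8, 16, 24, 32, 40, 48, 4, 12, 20, 28, 36, 44, 52, 60, 68, 76, 84, 92, 100, 108, 116, 124, 132, 140, 148, 156, 6127617],
  Vale.Agent.P032.Lt.q_of (e' := WQ021.e510) (by decide +kernel) WQ021.q510⟩

theorem w511 : Wx (EX xs7) Vale.Agent.P032X.Cert.X3.t1 (Vale.Agent.P032.Fam.fam3 Vale.Agent.P032.Fam.im0) WQ021.W511 := ⟨[0, 8, 16, 24, 32, 40, 48, 4, 12, 20, 28, 36, 44, 52, 60, 68, 76, 84, 92, 100, 108, 116, 124, 98467841, 22742681, 327686, 1376262, 2424838, 2949126],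
  Vale.Agent.P032.Lt.q_of (e' := WQ021.e511) (by decide +kernel) WQ021.q511⟩

theorem w512 : Wx (EX xs7) Vale.Agent.P032X.Cert.X3.t1 (Vale.Agent.P032.Fam.fam3 Vale.Agent.P032.Fam.im0) WQ021.W512 := ⟨[0, 8, 16, 24, 32, 40, 48, 4, 12, 20, 28, 36, 44, 52, 60, 68, 76, 84, 92, 100, 108, 116, 124, 132, 140, 148, 156, 164, 172, 180, 3146009, 31457553, 130355921, 133169345, 122688153, 121110657, 327686, 851974, 1376262, 2949126],
  Vale.Agent.P032.Lt.q_of (e' := WQ021.e512) (by decide +kernel) WQ021.q512⟩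

theorem w513 : Wx (EX xs7) Vale.Agent.P032X.Cert.X3.t1 (Vale.Agent.P032.Fam.fam3 Vale.Agent.P032.Fam.im0) WQ021.W513 := ⟨[0, 8, 16, 24, 32, 40, 48, 4, 12, 20, 28, 36, 44, 52, 60, 68, 76, 84, 92, 100, 108, 116, 124, 132, 140, 148, 156, 164, 172, 180, 188, 196, 204, 66666497, 128356749, 128909721],
  Vale.Agent.P032.Lt.q_of (e' := WQ021.e513) (by decide +kernel) WQ021.q513⟩

theorem w514 : Wx (EX xs7) Vale.Agent.P032X.Cert.X3.t1 (Vale.Agent.P032.Fam.fam3 Vale.Agent.P032.Fam.im0) WQ021.W514 := ⟨[0, 8, 16, 24, 32, 40, 48, 4, 12, 20, 28, 36, 44, 52, 60, 68, 76, 84, 92, 100, 108, 116, 124, 132, 140, 148, 156, 164, 172, 180, 188, 196, 204, 212, 220, 228, 236, 118751233, 28049409, 6029313, 106692609, 96403457, 39388121, 40648705, 9699329, 72941569, 22609921, 106496001, 25706497, 51642369, 53493761, 39321601, 85197313, 22806529, 76808193, 14303233, 46679705, 13125273, 52971161, 123469825, 88113153,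 12338689, 117473281, 125861889, 33588889, 73139865, 44582553, 83920385, 50364417, 121669121, 18089473, 41975809, 62537729, 12615681, 31085849, 25203993, 75530241, 100696065, 4227073, 19727321, 54558721, 45760513, 16809985, 8421377, 12206081, 67142553, 54150041, 21004289, 37782489, 92307457, 28983297, 71335937, 104890369, 58753025, 79724545, 109085657, 65029977, 39583745, 61603841, 95158273, 22544385, 7077889, 128712705, 44826625, 111937177, 37060609],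
  Vale.Agent.P032.Lt.q_of (e' := WQ021.e514) (by decide +kernel) WQ021.q514⟩

theorem w515 : Wx (EX xs7) Vale.Agent.P032X.Cert.X3.t1 (Vale.Agent.P032.Fam.fam3 Vale.Agent.P032.Fam.im0) WQ021.W515 := ⟨[0, 8, 16, 24, 32, 40, 48, 4, 12, 20, 28, 36, 44, 52, 60, 68, 76, 84, 92, 100, 108, 116, 124, 132, 140, 46270465, 2721305, 103120897, 86347673, 19238809, 33898497],
  Vale.Agent.P032.Lt.q_of (e' := WQ021.e515) (by decide +kernel) WQ021.q515⟩

theorem w516 : Wx (EX xs7) Vale.Agent.P032X.Cert.X3.t1 (Vale.Agent.P032.Fam.fam3 Vale.Agent.P032.Fam.im0) WQ021.W516 := ⟨[0, 8, 16, 24, 32, 40, 48, 4, 12, 20, 28, 36, 44, 52, 60, 68, 76, 84, 92, 100, 108, 116, 124, 132, 140, 148, 156, 36700161, 3146009, 36700481, 327686, 851974, 1900550, 2949126],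
  Vale.Agent.P032.Lt.q_of (e' := WQ021.e516) (by decide +kernel) WQ021.q516⟩

theorem w517 : Wx (EX xs7) Vale.Agent.P032X.Cert.X3.t1 (Vale.Agent.P032.Fam.fam3 Vale.Agent.P032.Fam.im0) WQ021.W517 := ⟨[0, 8, 16, 24, 32, 40, 48, 4, 12, 20, 28, 36, 44, 52, 60, 68, 76, 84, 92, 100, 108, 116, 124, 132, 140, 94601601, 105447425, 94601217, 335878, 2424838, 2949126],
  Vale.Agent.P032.Lt.q_of (e' := WQ021.e517) (by decide +kernel) WQ021.q517⟩

theorem w518 : Wx (EX xs7) Vale.Agent.P032X.Cert.X3.t1 (Vale.Agent.P032.Fam.fam3 Vale.Agent.P032.Fam.im0) WQ021.W518 := ⟨[0, 8, 16, 24, 32, 40, 48, 4, 12, 20, 28, 36, 44, 52, 60, 68, 76, 84, 92, 100, 108, 116, 124, 132, 140, 148, 156, 164, 172, 180, 19365889, 117800961],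
  Vale.Agent.P032.Lt.q_of (e' := WQ021.e518) (by decide +kernel) WQ021.q518⟩

theorem w519 : Wx (EX xs7) Vale.Agent.P032X.Cert.X3.t1 (Vale.Agent.P032.Fam.fam3 Vale.Agent.P032.Fam.im0) WQ021.W519 := ⟨[0, 8, 16, 24, 32, 40, 48, 4, 12, 20, 28, 36, 44, 52, 60, 68, 76, 84, 92, 100, 108, 116, 124, 132, 140, 148, 156, 164, 172, 117800961],
  Vale.Agent.P032.Lt.q_of (e' := WQ021.e519) (by decide +kernel) WQ021.q519⟩

theorem w520 : Wx (EX xs7) Vale.Agent.P032X.Cert.X3.t1 (Vale.Agent.P032.Fam.fam3 Vale.Agent.P032.Fam.im0) WQ021.W520 := ⟨[0, 8, 16, 24, 32, 40, 48, 4, 12, 20, 28, 36, 44, 52, 60, 68, 76, 84, 92, 100, 108, 116, 124, 132, 140, 148, 156, 164, 172, 180, 188, 196, 204, 20971653, 32178497, 31457733],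
  Vale.Agent.P032.Lt.q_of (e' := WQ021.e520) (by decide +kernel) WQ021.q520⟩

theorem w521 : Wx (EX xs7) Vale.Agent.P032X.Cert.X3.t1 (Vale.Agent.P032.Fam.fam3 Vale.Agent.P032.Fam.im0) WQ021.W521 := ⟨[0, 8, 16, 24, 32, 40, 48, 4, 12, 20, 28, 36, 44, 52, 60, 68, 76, 84, 92, 100, 108, 116, 124, 132, 140, 148, 156, 164, 109182977, 108298241, 62160897, 129269761, 74743809, 112492545, 28606465, 7634945, 41189377, 95715393, 64372737, 1900550, 2433030, 2965510],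
  Vale.Agent.P032.Lt.q_of (e' := WQ021.e521) (by decide +kernel) WQ021.q521⟩

theorem w522 : Wx (EX xs7) Vale.Agent.P032X.Cert.X3.t1 (Vale.Agent.P032.Fam.fam3 Vale.Agent.P032.Fam.im0) WQ021.W522 := ⟨[0, 8, 16, 24, 32, 40, 48, 4, 12, 20, 28, 36, 44, 52, 60, 68, 76, 84, 92, 100, 108, 116, 124, 132, 140, 148, 156, 164, 172, 180, 188, 196, 204, 212, 220, 228, 236, 244, 252, 260, 268, 65096729, 7766081, 124616705, 15564801, 25694381, 63213869, 35799973, 6439437, 327686, 851974],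
  Vale.Agent.P032.Lt.q_of (e' := WQ021.e522) (by decide +kernel) WQ021.q522⟩

theorem w523 : Wx (EX xs7) Vale.Agent.P032X.Cert.X3.t1 (Vale.Agent.P032.Fam.fam3 Vale.Agent.P032.Fam.im0) WQ021.W523 := ⟨[0, 8, 16, 24, 32, 40, 48, 4, 12, 20, 28, 36, 44, 52, 60, 68, 76, 84, 92, 100, 108, 116, 124, 132, 140, 148, 156, 164, 172, 180, 188, 196, 204, 212, 220, 53510337, 28344845, 53510465, 56133273, 80969857, 124616705, 47416985, 90079233, 13860865, 56133401, 80969793, 124616769, 47417113, 90079297, 13860929, 327686, 851974],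
  Vale.Agent.P032.Lt.q_of (e' := WQ021.e523) (by decide +kernel) WQ021.q523⟩

theorem w524 : Wx (EX xs7) Vale.Agent.P032X.Cert.X3.t1 (Vale.Agent.P032.Fam.fam3 Vale.Agent.P032.Fam.im0) WQ021.W524 := ⟨[0, 8, 16, 24, 32, 40, 48, 4, 12, 20, 28, 36, 44, 52, 60, 68, 76, 84, 92, 100, 108, 116, 124, 132, 140, 148, 156, 164, 172, 180, 188, 63184101, 37754501, 129762841, 80969729, 124616705, 47416985, 13860865, 90079233, 80969793, 37754597, 37756037, 124616769, 13860929, 47417113, 129762905, 90079297],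
  Vale.Agent.P032.Lt.q_of (e' := WQ021.e524) (by decide +kernel) WQ021.q524⟩

theorem w525 : Wx (EX xs7) Vale.Agent.P032X.Cert.X3.t1 (Vale.Agent.P032.Fam.fam3 Vale.Agent.P032.Fam.im0) WQ021.W525 := ⟨[0, 8, 16, 24, 32, 40, 48, 4, 12, 20, 28, 36, 44, 52, 60, 68, 76, 84, 92, 100, 108, 116, 124, 132, 140, 148, 2098469, 50186717, 25954629, 55052613],
  Vale.Agent.P032.Lt.q_of (e' := WQ021.e525) (by decide +kernel) WQ021.q525⟩

theorem w526 : Wx (EX xs7) Vale.Agent.P032X.Cert.X3.t1 (Vale.Agent.P032.Fam.fam3 Vale.Agent.P032.Fam.im0) WQ021.W526 := ⟨[0, 8, 16, 24, 32, 40, 48, 4, 12, 20, 28, 36, 44, 52, 60, 68, 76, 84, 92, 100, 108, 116, 124, 22742937],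
  Vale.Agent.P032.Lt.q_of (e' := WQ021.e526) (by decide +kernel) WQ021.q526⟩

theorem w527 : Wx (EX xs7) Vale.Agent.P032X.Cert.X3.t1 (Vale.Agent.P032.Fam.fam3 Vale.Agent.P032.Fam.im0) WQ021.W527 := ⟨[0, 8, 16, 24, 32, 40, 48, 4, 12, 20, 28, 36, 44, 52, 60, 68, 76, 84, 92, 100, 108, 116, 103743489],
  Vale.Agent.P032.Lt.q_of (e' := WQ021.e527) (by decide +kernel) WQ021.q527⟩

theorem w528 : Wx (EX xs7) Vale.Agent.P032X.Cert.X3.t1 (Vale.Agent.P032.Fam.fam3 Vale.Agent.P032.Fam.im0) WQ022.W528 := ⟨[0, 8, 16, 24, 32, 40, 48, 4, 12, 20, 28, 36, 44, 52, 60, 68, 76, 84, 92, 100, 108, 116, 124, 132, 140, 130025637, 1524121, 46272025],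
  Vale.Agent.P032.Lt.q_of (e' := WQ022.e528) (by decide +kernel) WQ022.q528⟩

theorem w529 : Wx (EX xs7) Vale.Agent.P032X.Cert.X3.t1 (Vale.Agent.P032.Fam.fam3 Vale.Agent.P032.Fam.im0) WQ022.W529 := ⟨[0, 8, 16, 24, 32, 40, 48, 4, 12, 20, 28, 36, 44, 52, 60, 68, 76, 84, 92, 100, 108, 116, 124, 132, 140, 148, 156, 164, 172, 180, 188, 196, 204, 6291557, 88872941, 20972173, 18874405, 20971813, 6291493, 88874477, 20972045, 18874469, 20971685],
  Vale.Agent.P032.Lt.q_of (e' := WQ022.e529) (by decide +kernel) WQ022.q529⟩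

theorem w530 : Wx (EX xs7) Vale.Agent.P032X.Cert.X3.t1 (Vale.Agent.P032.Fam.fam3 Vale.Agent.P032.Fam.im0) WQ022.W530 := ⟨[0, 8, 16, 24, 32, 40, 48, 4, 12, 20, 28, 36, 44, 52, 60, 68, 76, 84, 92, 100, 108, 116, 124, 132, 140, 148, 156, 164, 5767641, 5767577],
  Vale.Agent.P032.Lt.q_of (e' := WQ022.e530) (by decide +kernel) WQ022.q530⟩

theorem w531 : Wx (EX xs7) Vale.Agent.P032X.Cert.X3.t1 (Vale.Agent.P032.Fam.fam3 Vale.Agent.P032.Fam.im0) WQ022.W531 := ⟨[0, 8, 16, 24, 32, 40, 48, 4, 12, 20, 28, 36, 44, 52, 60, 68, 76, 84, 92, 100, 108, 116, 124, 132, 140, 148, 156, 164, 172, 180, 188, 196, 204, 212, 53280833, 120389633, 103612825, 55905689, 32309657, 53281241, 112001433, 32309249, 58869633, 4341761, 99418113, 123011073, 55904129, 103612417, 123011481, 112001025, 4342169, 58871193, 99418521, 42090561, 54608345, 82640961, 49086529, 116198873, 54608281, 82640897, 49086465, 124584345, 116198809,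 42090497, 49086873, 57475481, 82641369, 82641305, 85196865, 85197273, 124583937, 42090905, 57475545, 49086937, 85196801, 54607937, 42090969, 25313689, 78446593, 25313281, 120390041, 44892161, 66863105, 26673561, 26673153, 86839001, 66863513, 85197209, 78447001, 44892569, 86837441, 124584001, 54607873, 25313345],
  Vale.Agent.P032.Lt.q_of (e' := WQ022.e531) (by decide +kernel) WQ022.q531⟩

theorem w532 : Wx (EX xs7) Vale.Agent.P032X.Cert.X3.t1 (Vale.Agent.P032.Fam.fam3 Vale.Agent.P032.Fam.im0) WQ022.W532 := ⟨[0, 8, 16, 24, 32, 40, 48, 4, 12, 20, 28, 36, 44, 52, 60, 68, 76, 84, 92, 100, 108, 116, 124, 132, 140, 20975237, 46270465, 130023757, 50185677, 31457765, 50190157, 50185357, 113377805],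
  Vale.Agent.P032.Lt.q_of (e' := WQ022.e532) (by decide +kernel) WQ022.q532⟩

theorem w533 : Wx (EX xs7) Vale.Agent.P032X.Cert.X3.t1 (Vale.Agent.P032.Fam.fam3 Vale.Agent.P032.Fam.im0) WQ022.W533 := ⟨[0, 8, 16, 24, 32, 40, 48, 4, 12, 20, 28, 36, 44, 52, 60, 68, 76, 84, 92, 100, 108, 116, 124, 130816461],
  Vale.Agent.P032.Lt.q_of (e' := WQ022.e533) (by decide +kernel) WQ022.q533⟩

theorem w534 : Wx (EX xs7) Vale.Agent.P032X.Cert.X3.t1 (Vale.Agent.P032.Fam.fam3 Vale.Agent.P032.Fam.im0) WQ022.W534 := ⟨[0, 8, 16, 24, 32, 40, 48, 4, 12, 20, 28, 36, 44, 52, 60, 68, 76, 84, 92, 100, 108, 116, 124, 50185381, 2099277, 26744153, 109971097],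
  Vale.Agent.P032.Lt.q_of (e' := WQ022.e534) (by decide +kernel) WQ022.q534⟩

theorem w535 : Wx (EX xs7) Vale.Agent.P032X.Cert.X3.t1 (Vale.Agent.P032.Fam.fam3 Vale.Agent.P032.Fam.im0) WQ022.W535 := ⟨[0, 8, 16, 24, 32, 40, 48, 4, 12, 20, 28, 36, 44, 52, 60, 68, 76, 84, 92, 100, 108, 116, 12338689, 112394241, 124878885, 26742529, 93849089],
  Vale.Agent.P032.Lt.q_of (e' := WQ022.e535) (by decide +kernel) WQ022.q535⟩

theorem w536 : Wx (EX xs7) Vale.Agent.P032X.Cert.X3.t1 (Vale.Agent.P032.Fam.fam3 Vale.Agent.P032.Fam.im0) WQ022.W536 := ⟨[0, 8, 16, 24, 32, 40, 48, 4, 12, 20, 28, 36, 44, 52, 60, 68, 76, 84, 92, 100, 108, 116, 124, 132, 140, 148, 156, 164, 5261189, 31883789, 48054681, 55509401],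
  Vale.Agent.P032.Lt.q_of (e' := WQ022.e536) (by decide +kernel) WQ022.q536⟩

theorem w537 : Wx (EX xs7) Vale.Agent.P032X.Cert.X3.t1 (Vale.Agent.P032.Fam.fam3 Vale.Agent.P032.Fam.im0) WQ022.W537 := ⟨[0, 8, 16, 24, 32, 40, 48, 4, 12, 20, 28, 36, 44, 52, 60, 68, 76, 84, 92, 100, 108, 116, 124, 132, 3086489, 48120281],
  Vale.Agent.P032.Lt.q_of (e' := WQ022.e537) (by decide +kernel) WQ022.q537⟩

theorem w538 : Wx (EX xs7) Vale.Agent.P032X.Cert.X3.t1 (Vale.Agent.P032.Fam.fam3 Vale.Agent.P032.Fam.im0) WQ022.W538 := ⟨[0, 8, 16, 24, 32, 40, 48, 4, 12, 20, 28, 36, 44, 52, 60, 68, 76, 84, 92, 100, 108, 3081881, 88606721, 70194521, 48120729, 107875993, 48121857, 36635201, 62784065, 1376262, 1900550, 2949126],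
  Vale.Agent.P032.Lt.q_of (e' := WQ022.e538) (by decide +kernel) WQ022.q538⟩

theorem w539 : Wx (EX xs7) Vale.Agent.P032X.Cert.X3.t1 (Vale.Agent.P032.Fam.fam3 Vale.Agent.P032.Fam.im0) WQ022.W539 := ⟨[0, 8, 16, 24, 32, 40, 48, 4, 12, 20, 28, 36, 44, 52, 60, 68, 76, 84, 92, 100, 108, 116, 124, 132, 140, 148, 156, 164, 172, 180, 188, 196, 204, 212, 34734081, 18613157, 114624385, 49874817, 68355201, 81069953, 79103873, 31084249, 41884633, 5261189, 31883789, 65208321, 13961089, 88872773, 50872845, 108986369, 92209561, 25100289, 49219549, 47513601, 55905689, 123011481, 851974, 1376262, 2949126, 2957318],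
  Vale.Agent.P032.Lt.q_of (e' := WQ022.e539) (by decide +kernel) WQ022.q539⟩

theorem w540 : Wx (EX xs7) Vale.Agent.P032X.Cert.X3.t1 (Vale.Agent.P032.Fam.fam3 Vale.Agent.P032.Fam.im0) WQ022.W540 := ⟨[0, 8, 16, 24, 32, 40, 48, 4, 12, 20, 28, 36, 44, 52, 60, 68, 76, 84, 92, 100, 108, 116, 124, 132, 140, 148, 156, 60916505, 72778521],
  Vale.Agent.P032.Lt.q_of (e' := WQ022.e540) (by decide +kernel) WQ022.q540⟩

theorem w541 : Wx (EX xs7) Vale.Agent.P032X.Cert.X3.t1 (Vale.Agent.P032.Fam.fam3 Vale.Agent.P032.Fam.im0) WQ022.W541 := ⟨[0, 8, 16, 24, 32, 40, 48, 4, 12, 20, 28, 36, 44, 52, 60, 68, 76, 84, 92, 100, 108, 116, 124, 132, 140, 107380737],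
  Vale.Agent.P032.Lt.q_of (e' := WQ022.e541) (by decide +kernel) WQ022.q541⟩

theorem w542 : Wx (EX xs7) Vale.Agent.P032X.Cert.X3.t1 (Vale.Agent.P032.Fam.fam3 Vale.Agent.P032.Fam.im0) WQ022.W542 := ⟨[0, 8, 16, 24, 32, 40, 48, 4, 12, 20, 28, 36, 44, 52, 60, 68, 76, 84, 92, 100, 108, 116, 124, 132, 140, 148, 156, 100007937, 32900953],
  Vale.Agent.P032.Lt.q_of (e' := WQ022.e542) (by decide +kernel) WQ022.q542⟩

theorem w543 : Wx (EX xs7) Vale.Agent.P032X.Cert.X3.t1 (Vale.Agent.P032.Fam.fam3 Vale.Agent.P032.Fam.im0) WQ022.W543 := ⟨[0, 8, 16, 24, 32, 40, 48, 4, 12, 20, 28, 36, 44, 52, 60, 68, 76, 84, 92, 100, 108, 116, 124, 132, 140, 26742233],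
  Vale.Agent.P032.Lt.q_of (e' := WQ022.e543) (by decide +kernel) WQ022.q543⟩

theorem w544 : Wx (EX xs7) Vale.Agent.P032X.Cert.X3.t1 (Vale.Agent.P032.Fam.fam3 Vale.Agent.P032.Fam.im0) WQ022.W544 := ⟨[0, 8, 16, 24, 32, 40, 48, 4, 12, 20, 28, 36, 44, 52, 60, 68, 76, 84, 92, 100, 108, 116, 124, 44449793, 114689985, 868353, 48119809, 14026753, 851974, 1376262, 2949126],
  Vale.Agent.P032.Lt.q_of (e' := WQ022.e544) (by decide +kernel) WQ022.q544⟩

theorem w545 : Wx (EX xs7) Vale.Agent.P032X.Cert.X3.t1 (Vale.Agent.P032.Fam.fam3 Vale.Agent.P032.Fam.im0) WQ022.W545 := ⟨[0, 8, 16, 24, 32, 40, 48, 4, 12, 20, 28, 36, 44, 52, 60, 68, 76, 84, 92, 100, 108, 116, 124, 132, 140, 148, 156, 164, 172, 180, 188, 196, 204, 212, 220, 228, 236, 244, 55969497, 64505433, 30230105, 116981953, 95649793, 57755225, 4097625, 71206489, 31736001, 327686, 851974, 2949126],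
  Vale.Agent.P032.Lt.q_of (e' := WQ022.e545) (by decide +kernel) WQ022.q545⟩

theorem w546 : Wx (EX xs7) Vale.Agent.P032X.Cert.X3.t1 (Vale.Agent.P032.Fam.fam3 Vale.Agent.P032.Fam.im0) WQ023.W546 := ⟨[0, 8, 16, 24, 32, 40, 48, 4, 12, 20, 28, 36, 44, 52, 60, 68, 76, 84, 92, 100, 108, 116, 124, 132, 140, 148, 156, 164, 172, 180, 188, 81330201, 14221337, 123273241, 47775769, 56164377],
  Vale.Agent.P032.Lt.q_of (e' := WQ023.e546) (by decide +kernel) WQ023.q546⟩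

theorem w547 : Wx (EX xs7) Vale.Agent.P032X.Cert.X3.t1 (Vale.Agent.P032.Fam.fam3 Vale.Agent.P032.Fam.im0) WQ023.W547 := ⟨[0, 8, 16, 24, 32, 40, 48, 4, 12, 20, 28, 36, 44, 52, 60, 68, 76, 84, 92, 100, 108, 116, 124, 132, 140, 148, 156, 164, 172, 180, 188, 196, 204, 74449381, 61079973, 18874789],
  Vale.Agent.P032.Lt.q_of (e' := WQ023.e547) (by decide +kernel) WQ023.q547⟩

theorem w548 : Wx (EX xs7) Vale.Agent.P032X.Cert.X3.t1 (Vale.Agent.P032.Fam.fam3 Vale.Agent.P032.Fam.im0) WQ023.W548 := ⟨[0, 8, 16, 24, 32, 40, 48, 4, 12, 20, 28, 36, 44, 52, 60, 68, 76, 84, 92, 100, 108, 116, 124, 132, 140, 69468161, 35913729, 130285721],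
  Vale.Agent.P032.Lt.q_of (e' := WQ023.e548) (by decide +kernel) WQ023.q548⟩

theorem w549 : Wx (EX xs7) Vale.Agent.P032X.Cert.X3.t1 (Vale.Agent.P032.Fam.fam3 Vale.Agent.P032.Fam.im0) WQ023.W549 := ⟨[0, 8, 16, 24, 32, 40, 48, 4, 12, 20, 28, 36, 44, 52, 60, 68, 76, 84, 92, 100, 108, 116, 124, 132, 140, 148, 156, 164, 172, 180, 63963201, 1376262, 2949126],
  Vale.Agent.P032.Lt.q_of (e' := WQ023.e549) (by decide +kernel) WQ023.q549⟩

theorem w550 : Wx (EX xs7) Vale.Agent.P032X.Cert.X3.t1 (Vale.Agent.P032.Fam.fam3 Vale.Agent.P032.Fam.im0) WQ023.W550 := ⟨[0, 8, 16, 24, 32, 40, 48, 4, 12, 20, 28, 36, 44, 52, 60, 68, 76, 84, 92, 100, 108, 116, 124, 132, 140, 148, 156, 164, 172, 26742529, 45285953, 11996993, 63717901, 112394241, 15798045, 93849089],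
  Vale.Agent.P032.Lt.q_of (e' := WQ023.e550) (by decide +kernel) WQ023.q550⟩

theorem w551 : Wx (EX xs7) Vale.Agent.P032X.Cert.X3.t1 (Vale.Agent.P032.Fam.fam3 Vale.Agent.P032.Fam.im0) WQ023.W551 := ⟨[0, 8, 16, 24, 32, 40, 48, 4, 12, 20, 28, 36, 44, 52, 60, 68, 76, 84, 92, 100, 108, 116, 124, 132, 4423681, 37060609, 106496001, 72941569, 65029977],
  Vale.Agent.P032.Lt.q_of (e' := WQ023.e551) (by decide +kernel) WQ023.q551⟩

theorem w552 : Wx (EX xs7) Vale.Agent.P032X.Cert.X3.t1 (Vale.Agent.P032.Fam.fam3 Vale.Agent.P032.Fam.im0) WQ023.W552 := ⟨[0, 8, 16, 24, 32, 40, 48, 4, 12, 20, 28, 36, 44, 52, 60, 68, 76, 84, 92, 100, 108, 116, 73139865, 44582553, 65029977, 9699329, 25706497, 44826625, 72941569, 22609921, 37060609, 106496001, 40648705, 39388121, 111937177, 28049409, 22806529, 39583745, 85197313, 106692609, 6029313, 46679705, 52971161, 13125273, 18089473, 123469825],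
  Vale.Agent.P032.Lt.q_of (e' := WQ023.e552) (by decide +kernel) WQ023.q552⟩

theorem w553 : Wx (EX xs7) Vale.Agent.P032X.Cert.X3.t1 (Vale.Agent.P032.Fam.fam3 Vale.Agent.P032.Fam.im0) WQ023.W553 := ⟨[0, 8, 16, 24, 32, 40, 48, 4, 12, 20, 28, 36, 44, 52, 60, 68, 76, 84, 92, 100, 108, 116, 124, 132, 140, 10374617, 10488921, 61214105, 15613953, 14843905, 327686, 851974, 1900550, 2949126],
  Vale.Agent.P032.Lt.q_of (e' := WQ023.e553) (by decide +kernel) WQ023.q553⟩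

theorem w554 : Wx (EX xs7) Vale.Agent.P032X.Cert.X3.t1 (Vale.Agent.P032.Fam.fam3 Vale.Agent.P032.Fam.im0) WQ023.W554 := ⟨[0, 8, 16, 24, 32, 40, 48, 4, 12, 20, 28, 36, 44, 52, 60, 68, 76, 84, 92, 100, 108, 116, 124, 132, 140, 148, 156, 164, 172, 180, 188, 196, 204, 212, 220, 228, 236, 244, 10518785, 33554497, 54018457, 24707481, 127959041, 63799769, 29966337, 33325057, 30294017, 63848449, 38928857, 344070, 851974, 2424838, 2949126],
  Vale.Agent.P032.Lt.q_of (e' := WQ023.e554) (by decide +kernel) WQ023.q554⟩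

theorem w555 : Wx (EX xs7) Vale.Agent.P032X.Cert.X3.t1 (Vale.Agent.P032.Fam.fam3 Vale.Agent.P032.Fam.im0) WQ023.W555 := ⟨[0, 8, 16, 24, 32, 40, 48, 4, 12, 20, 28, 36, 44, 52, 60, 68, 76, 84, 92, 100, 108, 116, 124, 132, 140, 148, 156, 164, 172, 180, 188, 196, 204, 212, 220, 6291521, 40714649, 29065625, 128155649, 7963033, 31916441, 39469465, 125468673, 98172929],
  Vale.Agent.P032.Lt.q_of (e' := WQ023.e555) (by decide +kernel) WQ023.q555⟩

theorem w556 : Wx (EX xs7) Vale.Agent.P032X.Cert.X3.t1 (Vale.Agent.P032.Fam.fam3 Vale.Agent.P032.Fam.im0) WQ023.W556 := ⟨[0, 8, 16, 24, 32, 40, 48, 4, 12, 20, 28, 36, 44, 52, 60, 68, 76, 84, 92, 100, 108, 116, 124, 132, 140, 66519041, 116850777, 62062593, 100073625, 32971857, 49742041],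
  Vale.Agent.P032.Lt.q_of (e' := WQ023.e556) (by decide +kernel) WQ023.q556⟩

theorem w557 : Wx (EX xs7) Vale.Agent.P032X.Cert.X3.t1 (Vale.Agent.P032.Fam.fam3 Vale.Agent.P032.Fam.im0) WQ024.W557 := ⟨[0, 8, 16, 24, 32, 40, 48, 4, 12, 20, 28, 36, 44, 52, 60, 68, 76, 84, 92, 100, 108, 116, 124, 132, 140, 148, 156, 164, 172, 36716545],
  Vale.Agent.P032.Lt.q_of (e' := WQ024.e557) (by decide +kernel) WQ024.q557⟩

theorem w558 : Wx (EX xs7) Vale.Agent.P032X.Cert.X3.t1 (Vale.Agent.P032.Fam.fam3 Vale.Agent.P032.Fam.im0) WQ024.W558 := ⟨[0, 8, 16, 24, 32, 40, 48, 4, 12, 20, 28, 36, 44, 52, 60, 68, 76, 84, 92, 100, 108, 116, 124, 132, 140, 148, 156, 164, 172, 180, 188, 61145561, 15204761, 67633665, 61079961, 67633177, 6291929, 2424838, 2949126],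
  Vale.Agent.P032.Lt.q_of (e' := WQ024.e558) (by decide +kernel) WQ024.q558⟩

theorem w559 : Wx (EX xs7) Vale.Agent.P032X.Cert.X3.t1 (Vale.Agent.P032.Fam.fam3 Vale.Agent.P032.Fam.im0) WQ024.W559 := ⟨[0, 8, 16, 24, 32, 40, 48, 4, 12, 20, 28, 36, 44, 52, 60, 68, 76, 84, 92, 100, 108, 116, 124, 132, 140, 148, 156, 164, 172, 180, 188, 196, 204, 3145881, 120061953, 6947161, 122688129, 1376262, 2949126],
  Vale.Agent.P032.Lt.q_of (e' := WQ024.e559) (by decide +kernel) WQ024.q559⟩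

theorem w560 : Wx (EX xs7) Vale.Agent.P032X.Cert.X3.t1 (Vale.Agent.P032.Fam.fam3 Vale.Agent.P032.Fam.im0) WQ024.W560 := ⟨[0, 8, 16, 24, 32, 40, 48, 4, 12, 20, 28, 36, 44, 52, 60, 68, 76, 84, 92, 100, 108, 116, 124, 132, 140, 148, 156, 164, 172, 180, 28311553],
  Vale.Agent.P032.Lt.q_of (e' := WQ024.e560) (by decide +kernel) WQ024.q560⟩

theorem w561 : Wx (EX xs7) Vale.Agent.P032X.Cert.X3.t1 (Vale.Agent.P032.Fam.fam3 Vale.Agent.P032.Fam.im0) WQ024.W561 := ⟨[0, 8, 16, 24, 32, 40, 48, 4, 12, 20, 28, 36, 44, 52, 60, 68, 76, 84, 92, 100, 108, 116, 124, 132, 140, 148, 156, 164, 172, 180, 188, 196, 130025857, 77988313, 52707801, 65880537, 11239897, 78348761],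
  Vale.Agent.P032.Lt.q_of (e' := WQ024.e561) (by decide +kernel) WQ024.q561⟩

theorem w562 : Wx (EX xs7) Vale.Agent.P032X.Cert.X3.t1 (Vale.Agent.P032.Fam.fam3 Vale.Agent.P032.Fam.im0) WQ024.W562 := ⟨[0, 8, 16, 24, 32, 40, 48, 4, 12, 20, 28, 36, 44, 52, 60, 68, 76, 84, 92, 100, 108, 116, 124, 132, 140, 51527681, 9584641, 106103257, 108265817, 335878, 851974, 1900550, 2424838],
  Vale.Agent.P032.Lt.q_of (e' := WQ024.e562) (by decide +kernel) WQ024.q562⟩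

theorem w563 : Wx (EX xs7) Vale.Agent.P032X.Cert.X3.t1 (Vale.Agent.P032.Fam.fam3 Vale.Agent.P032.Fam.im0) WQ024.W563 := ⟨[0, 8, 16, 24, 32, 40, 48, 4, 12, 20, 28, 36, 44, 52, 60, 68, 76, 84, 92, 100, 108, 116, 124, 132, 140, 148, 156, 164, 78512129, 114164185, 95617433, 14879781, 23003609, 90112409, 109707673, 88703385, 96305153, 12189697, 851974, 1900550, 2949126],
  Vale.Agent.P032.Lt.q_of (e' := WQ024.e563) (by decide +kernel) WQ024.q563⟩

theorem w564 : Wx (EX xs7) Vale.Agent.P032X.Cert.X3.t1 (Vale.Agent.P032.Fam.fam3 Vale.Agent.P032.Fam.im0) WQ024.W564 := ⟨[0, 8, 16, 24, 32, 40, 48, 4, 12, 20, 28, 36, 44, 52, 60, 68, 76, 84, 92, 100, 108, 116, 124, 132, 140, 148, 156, 164, 172, 180, 188, 196, 204, 212, 130023769, 102236441, 20973345, 67633409, 128385217, 67633281, 128385345, 69207513, 35127641, 102236505],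
  Vale.Agent.P032.Lt.q_of (e' := WQ024.e564) (by decide +kernel) WQ024.q564⟩

theorem w565 : Wx (EX xs7) Vale.Agent.P032X.Cert.X3.t1 (Vale.Agent.P032.Fam.fam3 Vale.Agent.P032.Fam.im0) WQ024.W565 := ⟨[0, 8, 16, 24, 32, 40, 48, 4, 12, 20, 28, 36, 44, 52, 60, 68, 76, 84, 92, 100, 108, 116, 124, 132, 140, 148, 156, 164, 172, 180, 188, 196, 204, 212, 220, 6291521, 92803929, 31883265, 50184705, 18874369, 40337665, 131334145, 76349441, 35848601, 66060697, 52625817, 105054209, 27410433, 102957465, 69403097, 23724161, 107610241, 19070977, 86179841, 61145089, 1376262, 2424838, 2949126],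
  Vale.Agent.P032.Lt.q_of (e' := WQ024.e565) (by decide +kernel) WQ024.q565⟩

theorem w566 : Wx (EX xs7) Vale.Agent.P032X.Cert.X3.t1 (Vale.Agent.P032.Fam.fam3 Vale.Agent.P032.Fam.im0) WQ024.W566 := ⟨[0, 8, 16, 24, 32, 40, 48, 4, 12, 20, 28, 36, 44, 52, 60, 68, 76, 84, 92, 100, 108, 116, 124, 132, 140, 148, 156, 164, 172, 180, 85884993, 851974, 1900550, 2949126],
  Vale.Agent.P032.Lt.q_of (e' := WQ024.e566) (by decide +kernel) WQ024.q566⟩

theorem w567 : Wx (EX xs7) Vale.Agent.P032X.Cert.X3.t1 (Vale.Agent.P032.Fam.fam3 Vale.Agent.P032.Fam.im0) WQ024.W567 := ⟨[0, 8, 16, 24, 32, 40, 48, 4, 12, 20, 28, 36, 44, 52, 60, 68, 76, 84, 92, 100, 108, 116, 124, 132, 140, 148, 156, 164, 172, 180, 188, 196, 204, 36044801, 34078721, 27295809, 74907649, 68222977, 38552025, 67633241, 67634137, 851974, 1900550, 2949126],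
  Vale.Agent.P032.Lt.q_of (e' := WQ024.e567) (by decide +kernel) WQ024.q567⟩

theorem w568 : Wx (EX xs7) Vale.Agent.P032X.Cert.X3.t1 (Vale.Agent.P032.Fam.fam3 Vale.Agent.P032.Fam.im0) WQ024.W568 := ⟨[0, 8, 16, 24, 32, 40, 48, 4, 12, 20, 28, 36, 44, 52, 60, 68, 76, 84, 92, 100, 108, 116, 124, 132, 140, 148, 156, 164, 172, 180, 188, 67633241, 36044801, 45973913, 1900550, 2949126],
  Vale.Agent.P032.Lt.q_of (e' := WQ024.e568) (by decide +kernel) WQ024.q568⟩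

theorem w569 : Wx (EX xs7) Vale.Agent.P032X.Cert.X3.t1 (Vale.Agent.P032.Fam.fam3 Vale.Agent.P032.Fam.im0) WQ024.W569 := ⟨[0, 8, 16, 24, 32, 40, 48, 4, 12, 20, 28, 36, 44, 52, 60, 68, 76, 84, 92, 100, 108, 116, 124, 132, 140, 148, 156, 164, 172, 180, 67633241, 42991617, 61407705, 48824321, 1704409, 40436185, 1900550, 2949126],
  Vale.Agent.P032.Lt.q_of (e' := WQ024.e569) (by decide +kernel) WQ024.q569⟩

theorem w570 : Wx (EX xs7) Vale.Agent.P032X.Cert.X3.t1 (Vale.Agent.P032.Fam.fam3 Vale.Agent.P032.Fam.im0) WQ024.W570 := ⟨[0, 8, 16, 24, 32, 40, 48, 4, 12, 20, 28, 36, 44, 52, 60, 68, 76, 84, 92, 100, 108, 116, 124, 132, 140, 44630425, 2424838, 2949126],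
  Vale.Agent.P032.Lt.q_of (e' := WQ024.e570) (by decide +kernel) WQ024.q570⟩

theorem w571 : Wx (EX xs7) Vale.Agent.P032X.Cert.X3.t1 (Vale.Agent.P032.Fam.fam3 Vale.Agent.P032.Fam.im0) WQ024.W571 := ⟨[0, 8, 16, 24, 32, 40, 48, 4, 12, 20, 28, 36, 44, 52, 60, 68, 76, 84, 92, 100, 108, 116, 124, 132, 140, 148, 156, 164, 172, 180, 188, 196, 59771745, 59771617, 327686, 335878, 851974, 1376262, 2949126],
  Vale.Agent.P032.Lt.q_of (e' := WQ024.e571) (by decide +kernel) WQ024.q571⟩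

theorem w572 : Wx (EX xs7) Vale.Agent.P032X.Cert.X3.t1 (Vale.Agent.P032.Fam.fam3 Vale.Agent.P032.Fam.im0) WQ025.W572 := ⟨[0, 8, 16, 24, 32, 40, 48, 4, 12, 20, 28, 36, 44, 52, 60, 68, 76, 84, 92, 100, 108, 116, 124, 132, 140, 148, 156, 164, 172, 180, 188, 196, 204, 212, 75367937, 122688129, 120061953, 3146009, 327686, 851974, 1376262, 2949126],
  Vale.Agent.P032.Lt.q_of (e' := WQ025.e572) (by decide +kernel) WQ025.q572⟩

theorem w573 : Wx (EX xs7) Vale.Agent.P032X.Cert.X3.t1 (Vale.Agent.P032.Fam.fam3 Vale.Agent.P032.Fam.im0) WQ025.W573 := ⟨[0, 8, 16, 24, 32, 40, 48, 4, 12, 20, 28, 36, 44, 52, 60, 68, 76, 84, 92, 100, 108, 116, 124, 132, 140, 148, 156, 164, 172, 180, 188, 196, 204, 46270977, 5263109, 31884045, 84248217, 55509913, 125861889, 4227073, 45760513, 54558721, 8421377, 16809985],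
  Vale.Agent.P032.Lt.q_of (e' := WQ025.e573) (by decide +kernel) WQ025.q573⟩

theorem w574 : Wx (EX xs7) Vale.Agent.P032X.Cert.X3.t1 (Vale.Agent.P032.Fam.fam3 Vale.Agent.P032.Fam.im0) WQ025.W574 := ⟨[0, 8, 16, 24, 32, 40, 48, 4, 12, 20, 28, 36, 44, 52, 60, 68, 76, 84, 92, 100, 108, 116, 124, 132, 140, 148, 156, 164, 172, 13631489],
  Vale.Agent.P032.Lt.q_of (e' := WQ025.e574) (by decide +kernel) WQ025.q574⟩

theorem w575 : Wx (EX xs7) Vale.Agent.P032X.Cert.X3.t1 (Vale.Agent.P032.Fam.fam3 Vale.Agent.P032.Fam.im0) WQ025.W575 := ⟨[0, 8, 16, 24, 32, 40, 48, 4, 12, 20, 28, 36, 44, 52, 60, 68, 76, 84, 92, 100, 108, 116, 124, 132, 140, 148, 26820609, 12994201],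
  Vale.Agent.P032.Lt.q_of (e' := WQ025.e575) (by decide +kernel) WQ025.q575⟩

theorem w576 : Wx (EX xs7) Vale.Agent.P032X.Cert.X3.t1 (Vale.Agent.P032.Fam.fam3 Vale.Agent.P032.Fam.im0) WQ025.W576 := ⟨[0, 8, 16, 24, 32, 40, 48, 4, 12, 20, 28, 36, 44, 52, 60, 68, 76, 84, 92, 100, 108, 116, 124, 132, 42734237, 46268929, 130024077],
  Vale.Agent.P032.Lt.q_of (e' := WQ025.e576) (by decide +kernel) WQ025.q576⟩

theorem w577 : Wx (EX xs7) Vale.Agent.P032X.Cert.X3.t1 (Vale.Agent.P032.Fam.fam3 Vale.Agent.P032.Fam.im0) WQ025.W577 := ⟨[0, 8, 16, 24, 32, 40, 48, 4, 12, 20, 28, 36, 44, 52, 60, 68, 76, 84, 92, 100, 108, 116, 124, 132, 140, 148, 156, 164, 172, 180, 188, 196, 91128605, 6308805, 63439813, 29885381, 96993477],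
  Vale.Agent.P032.Lt.q_of (e' := WQ025.e577) (by decide +kernel) WQ025.q577⟩

theorem w578 : Wx (EX xs7) Vale.Agent.P032X.Cert.X3.t1 (Vale.Agent.P032.Fam.fam3 Vale.Agent.P032.Fam.im0) WQ025.W578 := ⟨[0, 8, 16, 24, 32, 40, 48, 4, 12, 20, 28, 36, 44, 52, 60, 68, 76, 84, 92, 100, 108, 116, 124, 132, 140, 148, 156, 164, 172, 180, 188, 196, 204, 212, 220, 228, 236, 57953369, 23500609, 20971653, 327686, 2424838],
  Vale.Agent.P032.Lt.q_of (e' := WQ025.e578) (by decide +kernel) WQ025.q578⟩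

theorem w579 : Wx (EX xs7) Vale.Agent.P032X.Cert.X3.t1 (Vale.Agent.P032.Fam.fam3 Vale.Agent.P032.Fam.im0) WQ025.W579 := ⟨[0, 8, 16, 24, 32, 40, 48, 4, 12, 20, 28, 36, 44, 52, 60, 68, 76, 84, 92, 100, 108, 116, 124, 132, 140, 148, 156, 164, 12337305],
  Vale.Agent.P032.Lt.q_of (e' := WQ025.e579) (by decide +kernel) WQ025.q579⟩

theorem w580 : Wx (EX xs7) Vale.Agent.P032X.Cert.X3.t1 (Vale.Agent.P032.Fam.fam3 Vale.Agent.P032.Fam.im0) WQ025.W580 := ⟨[0, 8, 16, 24, 32, 40, 48, 4, 12, 20, 28, 36, 44, 52, 60, 68, 76, 84, 92, 100, 108, 116, 124, 132, 140, 148, 64505433],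
  Vale.Agent.P032.Lt.q_of (e' := WQ025.e580) (by decide +kernel) WQ025.q580⟩

theorem w581 : Wx (EX xs7) Vale.Agent.P032X.Cert.X3.t1 (Vale.Agent.P032.Fam.fam3 Vale.Agent.P032.Fam.im0) WQ025.W581 := ⟨[0, 8, 16, 24, 32, 40, 48, 4, 12, 20, 28, 36, 44, 52, 60, 68, 76, 84, 92, 100, 108, 116, 124, 132, 140, 67633537, 90178009, 2424838, 2949126],
  Vale.Agent.P032.Lt.q_of (e' := WQ025.e581) (by decide +kernel) WQ025.q581⟩

theorem w582 : Wx (EX xs7) Vale.Agent.P032X.Cert.X3.t1 (Vale.Agent.P032.Fam.fam3 Vale.Agent.P032.Fam.im0) WQ025.W582 := ⟨[0, 8, 16, 24, 32, 40, 48, 4, 12, 20, 28, 36, 44, 52, 60, 68, 76, 84, 92, 100, 108, 116, 124, 132, 140, 148, 156, 164, 172, 180, 188, 196, 204, 212, 122945945, 61145089, 67633601, 67633433, 8290713, 8880537, 55591553, 127009177, 24182785, 60424601, 43647385, 17056153, 77201817, 102629925, 34144665, 132782169, 52035993, 1376262, 1900550, 2949126],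
  Vale.Agent.P032.Lt.q_of (e' := WQ025.e582) (by decide +kernel) WQ025.q582⟩

theorem w583 : Wx (EX xs7) Vale.Agent.P032X.Cert.X3.t1 (Vale.Agent.P032.Fam.fam3 Vale.Agent.P032.Fam.im0) WQ025.W583 := ⟨[0, 8, 16, 24, 32, 40, 48, 4, 12, 20, 28, 36, 44, 52, 60, 68, 76, 84, 92, 100, 108, 116, 124, 132, 140, 148, 156, 48955393, 67665921, 20725825, 50872321, 121241601, 37355929, 25444353, 41484697, 42221977, 71860633, 114950145, 27869593],
  Vale.Agent.P032.Lt.q_of (e' := WQ025.e583) (by decide +kernel) WQ025.q583⟩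

theorem w584 : Wx (EX xs7) Vale.Agent.P032X.Cert.X3.t1 (Vale.Agent.P032.Fam.fam3 Vale.Agent.P032.Fam.im0) WQ025.W584 := ⟨[0, 8, 16, 24, 32, 40, 48, 4, 12, 20, 28, 36, 44, 52, 60, 68, 76, 84, 92, 100, 108, 116, 124, 132, 140, 148, 156, 164, 172, 180, 188, 196, 63178137, 15204353, 75039193, 80576513, 29065689, 5505433, 34102761, 2424838, 2433030, 2949126],
  Vale.Agent.P032.Lt.q_of (e' := WQ025.e584) (by decide +kernel) WQ025.q584⟩

theorem w585 : Wx (EX xs7) Vale.Agent.P032X.Cert.X3.t1 (Vale.Agent.P032.Fam.fam3 Vale.Agent.P032.Fam.im0) WQ025.W585 := ⟨[0, 8, 16, 24, 32, 40, 48, 4, 12, 20, 28, 36, 44, 52, 60, 68, 76, 84, 92, 100, 108, 116, 124, 132, 140, 148, 156, 164, 116592861, 84443137, 60050841, 92704153, 109477889, 17714585, 2182553, 5115289, 25595353, 62999961, 1900550, 2949126],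
  Vale.Agent.P032.Lt.q_of (e' := WQ025.e585) (by decide +kernel) WQ025.q585⟩

theorem w586 : Wx (EX xs7) Vale.Agent.P032X.Cert.X3.t1 (Vale.Agent.P032.Fam.fam3 Vale.Agent.P032.Fam.im0) WQ025.W586 := ⟨[0, 8, 16, 24, 32, 40, 48, 4, 12, 20, 28, 36, 44, 52, 60, 68, 76, 84, 92, 100, 108, 116, 124, 132, 140, 148, 156, 164, 172, 180, 188, 6311321, 30412249, 97521049, 51971689, 2949126],
  Vale.Agent.P032.Lt.q_of (e' := WQ025.e586) (by decide +kernel) WQ025.q586⟩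

theorem w587 : Wx (EX xs7) Vale.Agent.P032X.Cert.X3.t1 (Vale.Agent.P032.Fam.fam3 Vale.Agent.P032.Fam.im0) WQ025.W587 := ⟨[0, 8, 16, 24, 32, 40, 48, 4, 12, 20, 28, 36, 44, 52, 60, 68, 76, 84, 92, 100, 108, 116, 124, 132, 140, 148, 156, 164, 172, 180, 188, 196, 204, 212, 128385369, 128385217, 41796737, 93323289, 69206745, 327686, 851974, 2424838, 2949126],
  Vale.Agent.P032.Lt.q_of (e' := WQ025.e587) (by decide +kernel) WQ025.q587⟩

theorem w588 : Wx (EX xs7) Vale.Agent.P032X.Cert.X3.t1 (Vale.Agent.P032.Fam.fam3 Vale.Agent.P032.Fam.im0) WQ025.W588 := ⟨[0, 8, 16, 24, 32, 40, 48, 4, 12, 20, 28, 36, 44, 52, 60, 68, 76, 84, 92, 100, 108, 116, 124, 132, 140, 148, 156, 164, 172, 180, 188, 196, 204, 25661209, 74514433, 89129153, 46858241, 63209473, 100433921, 22024025],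
  Vale.Agent.P032.Lt.q_of (e' := WQ025.e588) (by decide +kernel) WQ025.q588⟩

theorem w589 : Wx (EX xs7) Vale.Agent.P032X.Cert.X3.t1 (Vale.Agent.P032.Fam.fam3 Vale.Agent.P032.Fam.im0) WQ025.W589 := ⟨[0, 8, 16, 24, 32, 40, 48, 4, 12, 20, 28, 36, 44, 52, 60, 68, 76, 84, 92, 100, 108, 116, 124, 132, 140, 148, 156, 164, 172, 180, 188, 196, 77922305, 67108865, 25018369, 12848537, 115277825, 112263169, 41058305, 57835521, 91389953, 108167169, 24281089, 50188353, 107085889, 31985817, 50188737, 104992153, 18104473, 77927425],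
  Vale.Agent.P032.Lt.q_of (e' := WQ025.e589) (by decide +kernel) WQ025.q589⟩

theorem w590 : Wx (EX xs7) Vale.Agent.P032X.Cert.X3.t1 (Vale.Agent.P032.Fam.fam3 Vale.Agent.P032.Fam.im0) WQ025.W590 := ⟨[0, 8, 16, 24, 32, 40, 48, 4, 12, 20, 28, 36, 44, 52, 60, 68, 76, 84, 92, 100, 108, 116, 124, 132, 140, 148, 54296609, 54296801, 54296585],
  Vale.Agent.P032.Lt.q_of (e' := WQ025.e590) (by decide +kernel) WQ025.q590⟩

theorem w591 : Wx (EX xs7) Vale.Agent.P032X.Cert.X3.t1 (Vale.Agent.P032.Fam.fam3 Vale.Agent.P032.Fam.im0) WQ025.W591 := ⟨[0, 8, 16, 24, 32, 40, 48, 4, 12, 20, 28, 36, 44, 52, 60, 68, 76, 84, 92, 100, 108, 116, 124, 132, 140, 148, 156, 164, 11010061, 51939429],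
  Vale.Agent.P032.Lt.q_of (e' := WQ025.e591) (by decide +kernel) WQ025.q591⟩

theorem w592 : Wx (EX xs7) Vale.Agent.P032X.Cert.X3.t1 (Vale.Agent.P032.Fam.fam3 Vale.Agent.P032.Fam.im0) WQ025.W592 := ⟨[0, 8, 16, 24, 32, 40, 48, 4, 12, 20, 28, 36, 44, 52, 60, 68, 76, 84, 92, 100, 108, 116, 124, 132, 75632153, 75632281, 851974, 1417222, 1941510, 2424838, 2990086],
  Vale.Agent.P032.Lt.q_of (e' := WQ025.e592) (by decide +kernel) WQ025.q592⟩

theorem w593 : Wx (EX xs7) Vale.Agent.P032X.Cert.X3.t1 (Vale.Agent.P032.Fam.fam3 Vale.Agent.P032.Fam.im0) WQ025.W593 := ⟨[0, 8, 16, 24, 32, 40, 48, 4, 12, 20, 28, 36, 44, 52, 60, 68, 76, 84, 92, 100, 108, 116, 124, 132, 140, 148, 156, 164, 172, 180, 28347365, 50187085, 51713241, 50186125, 50185741, 51712921, 851974, 1900550],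
  Vale.Agent.P032.Lt.q_of (e' := WQ025.e593) (by decide +kernel) WQ025.q593⟩

theorem w594 : Wx (EX xs7) Vale.Agent.P032X.Cert.X3.t1 (Vale.Agent.P032.Fam.fam3 Vale.Agent.P032.Fam.im0) WQ025.W594 := ⟨[0, 8, 16, 24, 32, 40, 48, 4, 12, 20, 28, 36, 44, 52, 60, 68, 76, 84, 92, 100, 108, 116, 124, 132, 140, 148, 156, 164, 172, 180, 188, 196, 204, 212, 74452965, 99289061, 50188365, 50694221],
  Vale.Agent.P032.Lt.q_of (e' := WQ025.e594) (by decide +kernel) WQ025.q594⟩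

theorem w595 : Wx (EX xs7) Vale.Agent.P032X.Cert.X3.t1 (Vale.Agent.P032.Fam.fam3 Vale.Agent.P032.Fam.im0) WQ025.W595 := ⟨[0, 8, 16, 24, 32, 40, 48, 4, 12, 20, 28, 36, 44, 52, 60, 68, 76, 84, 92, 100, 108, 116, 124, 132, 140, 148, 156, 164, 172, 180, 188, 56133529, 117180441],
  Vale.Agent.P032.Lt.q_of (e' := WQ025.e595) (by decide +kernel) WQ025.q595⟩

theorem w596 : Wx (EX xs7) Vale.Agent.P032X.Cert.X3.t1 (Vale.Agent.P032.Fam.fam3 Vale.Agent.P032.Fam.im0) WQ026.W596 := ⟨[0, 8, 16, 24, 32, 40, 48, 4, 12, 20, 28, 36, 44, 52, 60, 68, 76, 84, 92, 100, 108, 116, 124, 132, 140, 148, 156, 164, 172, 180, 188, 18875981, 74450445, 67636877, 18875917, 74450509, 67636749],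
  Vale.Agent.P032.Lt.q_of (e' := WQ026.e596) (by decide +kernel) WQ026.q596⟩

theorem w597 : Wx (EX xs7) Vale.Agent.P032X.Cert.X3.t1 (Vale.Agent.P032.Fam.fam3 Vale.Agent.P032.Fam.im0) WQ026.W597 := ⟨[0, 8, 16, 24, 32, 40, 48, 4, 12, 20, 28, 36, 44, 52, 60, 68, 76, 84, 92, 100, 108, 116, 124, 132, 140, 106335833, 75632217, 106335641, 75632025, 106335897, 75632153, 75632345, 75632089, 75632281],
  Vale.Agent.P032.Lt.q_of (e' := WQ026.e597) (by decide +kernel) WQ026.q597⟩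

theorem w598 : Wx (EX xs7) Vale.Agent.P032X.Cert.X3.t1 (Vale.Agent.P032.Fam.fam3 Vale.Agent.P032.Fam.im0) WQ026.W598 := ⟨[0, 8, 16, 24, 32, 40, 48, 4, 12, 20, 28, 36, 44, 52, 60, 68, 76, 84, 92, 100, 108, 116, 124, 132, 140, 148, 156, 164, 172, 180, 46268417, 88873253, 88868261],
  Vale.Agent.P032.Lt.q_of (e' := WQ026.e598) (by decide +kernel) WQ026.q598⟩

theorem w599 : Wx (EX xs7) Vale.Agent.P032X.Cert.X3.t1 (Vale.Agent.P032.Fam.fam3 Vale.Agent.P032.Fam.im0) WQ026.W599 := ⟨[0, 8, 16, 24, 32, 40, 48, 4, 12, 20, 28, 36, 44, 52, 60, 68, 76, 84, 92, 100, 108, 116, 124, 132, 140, 148, 156, 164, 172, 180, 188, 196, 204, 212, 220, 228, 236, 244, 252, 260, 88868165, 50185741, 50184541, 49221597, 25952261, 851974, 1900550, 2957318],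
  Vale.Agent.P032.Lt.q_of (e' := WQ026.e599) (by decide +kernel) WQ026.q599⟩

def L : List (List ℕ) := [WQ021.W500, WQ021.W501, WQ021.W502, WQ021.W503, WQ021.W504, WQ021.W505, WQ021.W506, WQ021.W507, WQ021.W508, WQ021.W509, WQ021.W510, WQ021.W511, WQ021.W512, WQ021.W513, WQ021.W514, WQ021.W515, WQ021.W516, WQ021.W517, WQ021.W518, WQ021.W519, WQ021.W520, WQ021.W521, WQ021.W522, WQ021.W523, WQ021.W524, WQ021.W525, WQ021.W526, WQ021.W527, WQ022.W528, WQ022.W529, WQ022.W530, WQ022.W531, WQ022.W532, WQ022.W533, WQ022.W534, WQ022.W535, WQ022.W536, WQ022.W537, WQ022.W538, WQ022.W539, WQ022.W540, WQ022.W541, WQ022.W542, WQ022.W543, WQ022.W544, WQ022.W545, WQ023.W546, WQ023.W547, WQ023.W548, WQ023.W549, WQ023.W550, WQ023.W551, WQ023.W552, WQ023.W553, WQ023.W554, WQ023.W555, WQ023.W556, WQ024.W557, WQ024.W558, WQ024.W559, WQ024.W560, WQ024.W561, WQ024.W562, WQ024.W563, WQ024.W564, WQ024.W565, WQ024.W566,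 WQ024.W567, WQ024.W568, WQ024.W569, WQ024.W570, WQ024.W571, WQ025.W572, WQ025.W573, WQ025.W574, WQ025.W575, WQ025.W576, WQ025.W577, WQ025.W578, WQ025.W579, WQ025.W580, WQ025.W581, WQ025.W582, WQ025.W583, WQ025.W584, WQ025.W585, WQ025.W586, WQ025.W587, WQ025.W588, WQ025.W589, WQ025.W590, WQ025.W591, WQ025.W592, WQ025.W593, WQ025.W594, WQ025.W595, WQ026.W596, WQ026.W597, WQ026.W598, WQ026.W599]

theorem all : ∀ P ∈ L, Wx (EX xs7) Vale.Agent.P032X.Cert.X3.t1 (Vale.Agent.P032.Fam.fam3 Vale.Agent.P032.Fam.im0) P := wx_cons w500 (wx_cons w501 (wx_cons w502 (wx_cons w503 (wx_cons w504 (wx_cons w505 (wx_cons w506 (wx_cons w507 (wx_cons w508 (wx_cons w509 (wx_cons w510 (wx_cons w511 (wx_cons w512 (wx_cons w513 (wx_cons w514 (wx_cons w515 (wx_cons w516 (wx_cons w517 (wx_cons w518 (wx_cons w519 (wx_cons w520 (wx_cons w521 (wx_cons w522 (wx_cons w523 (wx_cons w524 (wx_cons w525 (wx_cons w526 (wx_cons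 w527 (wx_cons w528 (wx_cons w529 (wx_cons w530 (wx_cons w531 (wx_cons w532 (wx_cons w533 (wx_cons w534 (wx_cons w535 (wx_cons w536 (wx_cons w537 (wx_cons w538 (wx_cons w539 (wx_cons w540 (wx_cons w541 (wx_cons w542 (wx_cons w543 (wx_cons w544 (wx_cons w545 (wx_cons w546 (wx_cons w547 (wx_cons w548 (wx_cons w549 (wx_cons w550 (wx_cons w551 (wx_cons w552 (wx_cons w553 (wx_cons w554 (wx_cons w555 (wx_cons w556 (wx_cons w557 (wx_cons w558 (wx_cons w559 (wx_cons w560 (wx_cons w561 (wx_cons w562 (wx_cons w563 (wx_cons w564 (wx_cons w565 (wx_cons w566 (wx_cons w567 (wx_cons w568 (wx_cons w569 (wx_cons w570 (wx_cons w571 (wx_cons w572 (wx_cons w573 (wx_cons w574 (wx_cons w575 (wx_cons w576 (wx_cons w577 (wx_cons w578 (wx_cons w579 (wx_cons w580 (wx_cons w581 (wx_cons w582 (wx_cons w583 (wx_cons w584 (wx_cons w585 (wx_cons w586 (wx_cons w587 (wx_cons w588 (wx_cons w589 (wx_cons w590 (wx_cons w591 (wx_cons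 w592 (wx_cons w593 (wx_cons w594 (wx_cons w595 (wx_cons w596 (wx_cons w597 (wx_cons w598 (wx_cons w599 wx_nil)))))))))))))))))))))))))))))))))))))))))))))))))))))))))))))))))))))))))))))))))))))))))))))))))))

theorem ch : chT 73 73 TCm Vale.Agent.P032X.Cert.X3.W1.sW_005 L = true := by decide +kernel

end Vale.Agent.P032X.Cert.X3.W1.WH005
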