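import Vale.Agent.P032X.H892.LtH
import Vale.Agent.P032X.H286.A73
import Vale.Agent.P032X.Cert.X3.T1
import Vale.Agent.P032X.Cert.X3.W1.WT
import Vale.Agent.P032X.Cert.X3.W1.WQ027
import Vale.Agent.P032X.Cert.X3.W1.WQ028
import Vale.Agent.P032X.Cert.X3.W1.WQ029
import Vale.Agent.P032X.Cert.X3.W1.WQ030
import Vale.Agent.P032X.Cert.X3.W1.WQ031
import Vale.Agent.P032X.Cert.X3.W1.WQ032

set_option maxRecDepth 1000000

namespace Vale.Agent.P032X.Cert.X3.W1.WH006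

open Vale.Agent.P032.H820.K Vale.Agent.P032.H357.MK Vale.Agent.P032.H286.E Vale.Agent.P032.H61 Vale.Agent.P032.H61.TF Vale.Agent.P032.BlkE Vale.Agent.P032.BlkS Vale.Agent.P032.H357 Vale.Agent.P032 

theorem w600 : Wx (EX xs7) Vale.Agent.P032X.Cert.X3.t1 (Vale.Agent.P032.Fam.fam3 Vale.Agent.P032.Fam.im0) WQ027.W600 := ⟨[0, 8, 16, 24, 32, 40, 48, 4, 12, 20, 28, 36, 44, 52, 60, 68, 76, 84, 92, 100, 108, 116, 124, 132, 140, 148, 156, 164, 172, 180, 188, 196, 116686849, 606209, 117180441],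
  Vale.Agent.P032.Lt.q_of (e' := WQ027.e600) (by decide +kernel) WQ027.q600⟩

theorem w601 : Wx (EX xs7) Vale.Agent.P032X.Cert.X3.t1 (Vale.Agent.P032.Fam.fam3 Vale.Agent.P032.Fam.im0) WQ027.W601 := ⟨[0, 8, 16, 24, 32, 40, 48, 4, 12, 20, 28, 36, 44, 52, 60, 68, 76, 84, 92, 100, 108, 116, 124, 132, 140, 148, 156, 164, 172, 180, 188, 196, 204, 39867405, 1384454, 1908742, 2973702],
  Vale.Agent.P032.Lt.q_of (e' := WQ027.e601) (by decide +kernel) WQ027.q601⟩

theorem w602 : Wx (EX xs7) Vale.Agent.P032X.Cert.X3.t1 (Vale.Agent.P032.Fam.fam3 Vale.Agent.P032.Fam.im0) WQ027.W602 := ⟨[0, 8, 16, 24, 32, 40, 48, 4, 12, 20, 28, 36, 44, 52, 60, 68, 76, 84, 92, 100, 108, 116, 124, 132, 140, 148, 156, 164, 172, 180, 188, 196, 204, 212, 220, 228, 236, 96862209, 130416641, 69599233, 2375681, 35930113, 2490369, 63307777, 335878, 851974, 860166, 1900550, 2424838, 2433030, 2957318],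
  Vale.Agent.P032.Lt.q_of (e' := WQ027.e602) (by decide +kernel) WQ027.q602⟩

theorem w603 : Wx (EX xs7) Vale.Agent.P032X.Cert.X3.t1 (Vale.Agent.P032.Fam.fam3 Vale.Agent.P032.Fam.im0) WQ027.W603 := ⟨[0, 8, 16, 24, 32, 40, 48, 4, 12, 20, 28, 36, 44, 52, 60, 68, 76, 84, 92, 100, 108, 116, 124, 132, 15663105, 82773657],
  Vale.Agent.P032.Lt.q_of (e' := WQ027.e603) (by decide +kernel) WQ027.q603⟩

theorem w604 : Wx (EX xs7) Vale.Agent.P032X.Cert.X3.t1 (Vale.Agent.P032.Fam.fam3 Vale.Agent.P032.Fam.im0) WQ027.W604 := ⟨[0, 8, 16, 24, 32, 40, 48, 4, 12, 20, 28, 36, 44, 52, 60, 68, 76, 84, 92, 100, 108, 116, 124, 132, 140, 148, 156, 5409345, 71305305],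
  Vale.Agent.P032.Lt.q_of (e' := WQ027.e604) (by decide +kernel) WQ027.q604⟩

theorem w605 : Wx (EX xs7) Vale.Agent.P032X.Cert.X3.t1 (Vale.Agent.P032.Fam.fam3 Vale.Agent.P032.Fam.im0) WQ027.W605 := ⟨[0, 8, 16, 24, 32, 40, 48, 4, 12, 20, 28, 36, 44, 52, 60, 68, 76, 84, 92, 100, 108, 116, 124, 132, 140, 148, 156, 164, 172, 180, 188, 196, 204, 212, 220, 228, 236, 122688257, 36700353, 4587713, 85753985, 335878, 2424838, 2949126],
  Vale.Agent.P032.Lt.q_of (e' := WQ027.e605) (by decide +kernel) WQ027.q605⟩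

theorem w606 : Wx (EX xs7) Vale.Agent.P032X.Cert.X3.t1 (Vale.Agent.P032.Fam.fam3 Vale.Agent.P032.Fam.im0) WQ027.W606 := ⟨[0, 8, 16, 24, 32, 40, 48, 4, 12, 20, 28, 36, 44, 52, 60, 68, 76, 84, 92, 100, 108, 116, 124, 132, 140, 148, 156, 164, 172, 180, 188, 196, 204, 212, 220, 228, 236, 115999129, 68813209, 41828761, 130843033, 48628121, 121372673, 103678361, 34488321, 61735321, 65667481, 32113049, 278937, 44433817, 16253337, 125305241, 51975313, 131727769, 14286849, 83492865, 58725353, 851974, 2424838, 2949126],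
  Vale.Agent.P032.Lt.q_of (e' := WQ027.e606) (by decide +kernel) WQ027.q606⟩

theorem w607 : Wx (EX xs7) Vale.Agent.P032X.Cert.X3.t1 (Vale.Agent.P032.Fam.fam3 Vale.Agent.P032.Fam.im0) WQ027.W607 := ⟨[0, 8, 16, 24, 32, 40, 48, 4, 12, 20, 28, 36, 44, 52, 60, 68, 76, 84, 92, 100, 108, 116, 124, 132, 140, 148, 156, 164, 172, 180, 188, 196, 204, 212, 220, 228, 236, 244, 60165593, 50331649, 62721433, 860166, 2424838, 2433030, 2949126],
  Vale.Agent.P032.Lt.q_of (e' := WQ027.e607) (by decide +kernel) WQ027.q607⟩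

theorem w608 : Wx (EX xs7) Vale.Agent.P032X.Cert.X3.t1 (Vale.Agent.P032.Fam.fam3 Vale.Agent.P032.Fam.im0) WQ027.W608 := ⟨[0, 8, 16, 24, 32, 40, 48, 4, 12, 20, 28, 36, 44, 52, 60, 68, 76, 84, 92, 100, 108, 116, 124, 132, 140, 148, 156, 164, 172, 180, 188, 196, 204, 212, 220, 228, 236, 244, 252, 130023425, 3145921, 5262801, 130023769, 3145945, 67633409, 41796737, 86245401, 130023745, 1966401, 3145793, 69206617, 1966209, 1966337, 67633281, 66961665, 124813377, 36700353, 2883777, 15761433, 120619033, 327686, 851974, 2424838, 2949126],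
  Vale.Agent.P032.Lt.q_of (e' := WQ027.e608) (by decide +kernel) WQ027.q608⟩

theorem w609 : Wx (EX xs7) Vale.Agent.P032X.Cert.X3.t1 (Vale.Agent.P032.Fam.fam3 Vale.Agent.P032.Fam.im0) WQ027.W609 := ⟨[0, 8, 16, 24, 32, 40, 48, 4, 12, 20, 28, 36, 44, 52, 60, 68, 76, 84, 92, 100, 108, 116, 124, 132, 140, 148, 156, 164, 172, 180, 188, 196, 204, 212, 220, 228, 236, 244, 252, 53513629, 95944769, 67108865, 31604801, 51576833, 118689241, 18028177, 85137041],
  Vale.Agent.P032.Lt.q_of (e' := WQ027.e609) (by decide +kernel) WQ027.q609⟩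

theorem w610 : Wx (EX xs7) Vale.Agent.P032X.Cert.X3.t1 (Vale.Agent.P032.Fam.fam3 Vale.Agent.P032.Fam.im0) WQ028.W610 := ⟨[0, 8, 16, 24, 32, 40, 48, 4, 12, 20, 28, 36, 44, 52, 60, 68, 76, 84, 92, 100, 108, 116, 124, 132, 140, 148, 156, 164, 172, 180, 188, 196, 204, 212, 220, 228, 236, 244, 67633409, 102760601, 5508561, 36700481, 67633281, 5262737, 102760665, 29818969, 5505089, 47644673, 30867457, 130023641, 71565377, 2883585, 102760729, 114753537],
  Vale.Agent.P032.Lt.q_of (e' := WQ028.e610) (by decide +kernel) WQ028.q610⟩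

theorem w611 : Wx (EX xs7) Vale.Agent.P032X.Cert.X3.t1 (Vale.Agent.P032.Fam.fam3 Vale.Agent.P032.Fam.im0) WQ029.W611 := ⟨[0, 8, 16, 24, 32, 40, 48, 4, 12, 20, 28, 36, 44, 52, 60, 68, 76, 84, 92, 100, 108, 116, 124, 132, 140, 148, 156, 164, 172, 180, 188, 196, 204, 212, 220, 228, 10488857, 63471617, 50331649, 132947329, 91095041, 43270145, 30170497, 118365569, 74059289, 51256705, 123731969, 86245529],
  Vale.Agent.P032.Lt.q_of (e' := WQ029.e611) (by decide +kernel) WQ029.q611⟩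

theorem w612 : Wx (EX xs7) Vale.Agent.P032X.Cert.X3.t1 (Vale.Agent.P032.Fam.fam3 Vale.Agent.P032.Fam.im0) WQ029.W612 := ⟨[0, 8, 16, 24, 32, 40, 48, 4, 12, 20, 28, 36, 44, 52, 60, 68, 76, 84, 92, 100, 108, 116, 124, 132, 140, 148, 156, 164, 172, 180, 188, 196, 204, 212, 220, 228, 236, 244, 252, 260, 268, 276, 22024025, 89129153, 62672665, 72155137, 38600705, 8142849],
  Vale.Agent.P032.Lt.q_of (e' := WQ029.e612) (by decide +kernel) WQ029.q612⟩

theorem w613 : Wx (EX xs7) Vale.Agent.P032X.Cert.X3.t1 (Vale.Agent.P032.Fam.fam3 Vale.Agent.P032.Fam.im0) WQ029.W613 := ⟨[0, 8, 16, 24, 32, 40, 48, 4, 12, 20, 28, 36, 44, 52, 60, 68, 76, 84, 92, 100, 108, 116, 124, 132, 140, 148, 156, 164, 172, 180, 188, 18612225, 51937857, 11010073, 5264273, 18612633],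
  Vale.Agent.P032.Lt.q_of (e' := WQ029.e613) (by decide +kernel) WQ029.q613⟩

theorem w614 : Wx (EX xs7) Vale.Agent.P032X.Cert.X3.t1 (Vale.Agent.P032.Fam.fam3 Vale.Agent.P032.Fam.im0) WQ029.W614 := ⟨[0, 8, 16, 24, 32, 40, 48, 4, 12, 20, 28, 36, 44, 52, 60, 68, 76, 84, 92, 100, 108, 116, 124, 132, 140, 148, 156, 164, 172, 98567617, 122686745, 98567233, 106335245, 67633153, 111443969, 18808985, 18808833, 111444121, 58065025, 31588353, 44335105, 851974, 2424838, 2949126],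
  Vale.Agent.P032.Lt.q_of (e' := WQ029.e614) (by decide +kernel) WQ029.q614⟩

theorem w615 : Wx (EX xs7) Vale.Agent.P032X.Cert.X3.t1 (Vale.Agent.P032.Fam.fam3 Vale.Agent.P032.Fam.im0) WQ029.W615 := ⟨[0, 8, 16, 24, 32, 40, 48, 4, 12, 20, 28, 36, 44, 52, 60, 68, 76, 84, 92, 100, 108, 116, 124, 132, 140, 148, 156, 164, 172, 180, 188, 93359905, 98567297, 37754521, 69206617, 98570265, 37756057, 59771153, 36700377, 892934, 2424838, 2949126],
  Vale.Agent.P032.Lt.q_of (e' := WQ029.e615) (by decide +kernel) WQ029.q615⟩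

theorem w616 : Wx (EX xs7) Vale.Agent.P032X.Cert.X3.t1 (Vale.Agent.P032.Fam.fam3 Vale.Agent.P032.Fam.im0) WQ029.W616 := ⟨[0, 8, 16, 24, 32, 40, 48, 4, 12, 20, 28, 36, 44, 52, 60, 68, 76, 84, 92, 100, 108, 116, 124, 132, 140, 148, 156, 164, 172, 180, 188, 196, 204, 37224857, 11468865, 37224449, 58605569, 106335437, 130023745, 31457921, 80084993, 113639425, 46535553, 14942657, 4604313, 15368193, 82051073, 48496705, 79167553, 106335245, 69206617, 18874777, 31457793],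
  Vale.Agent.P032.Lt.q_of (e' := WQ029.e616) (by decide +kernel) WQ029.q616⟩

theorem w617 : Wx (EX xs7) Vale.Agent.P032X.Cert.X3.t1 (Vale.Agent.P032.Fam.fam3 Vale.Agent.P032.Fam.im0) WQ029.W617 := ⟨[0, 8, 16, 24, 32, 40, 48, 4, 12, 20, 28, 36, 44, 52, 60, 68, 76, 84, 92, 100, 108, 116, 124, 132, 140, 148, 156, 164, 37224857, 1327105, 67633305, 51937729, 67633665, 39421517, 1376262, 2424838, 2949126],
  Vale.Agent.P032.Lt.q_of (e' := WQ029.e617) (by decide +kernel) WQ029.q617⟩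

theorem w618 : Wx (EX xs7) Vale.Agent.P032X.Cert.X3.t1 (Vale.Agent.P032.Fam.fam3 Vale.Agent.P032.Fam.im0) WQ029.W618 := ⟨[0, 8, 16, 24, 32, 40, 48, 4, 12, 20, 28, 36, 44, 52, 60, 68, 76, 84, 92, 100, 108, 116, 124, 132, 140, 148, 156, 164, 172, 180, 80740673, 80740353, 851974, 1900550, 2949126],
  Vale.Agent.P032.Lt.q_of (e' := WQ029.e618) (by decide +kernel) WQ029.q618⟩

theorem w619 : Wx (EX xs7) Vale.Agent.P032X.Cert.X3.t1 (Vale.Agent.P032.Fam.fam3 Vale.Agent.P032.Fam.im0) WQ029.W619 := ⟨[0, 8, 16, 24, 32, 40, 48, 4, 12, 20, 28, 36, 44, 52, 60, 68, 76, 84, 92, 100, 108, 116, 124, 132, 140, 148, 156, 164, 172, 180, 188, 196, 204, 212, 220, 228, 40370585, 128909721, 74383769, 7274905, 125698457, 987277, 40830465, 54034433, 15925657, 17322125, 30671385, 64225345, 130318745],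
  Vale.Agent.P032.Lt.q_of (e' := WQ029.e619) (by decide +kernel) WQ029.q619⟩

theorem w620 : Wx (EX xs7) Vale.Agent.P032X.Cert.X3.t1 (Vale.Agent.P032.Fam.fam3 Vale.Agent.P032.Fam.im0) WQ029.W620 := ⟨[0, 8, 16, 24, 32, 40, 48, 4, 12, 20, 28, 36, 44, 52, 60, 68, 76, 84, 92, 100, 108, 116, 124, 132, 140, 148, 156, 164, 172, 180, 188, 196, 9240577, 118292545, 119537665, 8585625, 67633241, 50184345, 12058777, 18874777, 108528961, 6291929, 61079961, 50184985, 1900550, 2949126],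
  Vale.Agent.P032.Lt.q_of (e' := WQ029.e620) (by decide +kernel) WQ029.q620⟩

theorem w621 : Wx (EX xs7) Vale.Agent.P032X.Cert.X3.t1 (Vale.Agent.P032.Fam.fam3 Vale.Agent.P032.Fam.im0) WQ029.W621 := ⟨[0, 8, 16, 24, 32, 40, 48, 4, 12, 20, 28, 36, 44, 52, 60, 68, 76, 84, 92, 100, 108, 116, 124, 132, 140, 148, 156, 164, 172, 180, 188, 196, 204, 212, 220, 74842585, 99025369, 41746433, 75300865, 55312385, 50561025, 8192001],
  Vale.Agent.P032.Lt.q_of (e' := WQ029.e621) (by decide +kernel) WQ029.q621⟩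

theorem w622 : Wx (EX xs7) Vale.Agent.P032X.Cert.X3.t1 (Vale.Agent.P032.Fam.fam3 Vale.Agent.P032.Fam.im0) WQ029.W622 := ⟨[0, 8, 16, 24, 32, 40, 48, 4, 12, 20, 28, 36, 44, 52, 60, 68, 76, 84, 92, 100, 108, 116, 124, 132, 140, 148, 156, 164, 172, 180, 130023769, 106335589, 11010073, 18808985, 51937473, 31588505, 11010177, 65294861, 91619329, 25692833, 2424838, 2949126],
  Vale.Agent.P032.Lt.q_of (e' := WQ029.e622) (by decide +kernel) WQ029.q622⟩

theorem w623 : Wx (EX xs7) Vale.Agent.P032X.Cert.X3.t1 (Vale.Agent.P032.Fam.fam3 Vale.Agent.P032.Fam.im0) WQ029.W623 := ⟨[0, 8, 16, 24, 32, 40, 48, 4, 12, 20, 28, 36, 44, 52, 60, 68, 76, 84, 92, 100, 108, 116, 124, 132, 140, 148, 156, 164, 172, 180, 188, 196, 204, 39421541],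
  Vale.Agent.P032.Lt.q_of (e' := WQ029.e623) (by decide +kernel) WQ029.q623⟩

theorem w624 : Wx (EX xs7) Vale.Agent.P032X.Cert.X3.t1 (Vale.Agent.P032.Fam.fam3 Vale.Agent.P032.Fam.im0) WQ029.W624 := ⟨[0, 8, 16, 24, 32, 40, 48, 4, 12, 20, 28, 36, 44, 52, 60, 68, 76, 84, 92, 100, 108, 116, 124, 132, 140, 148, 156, 164, 172, 180, 188, 196, 204, 212, 220, 228, 65294861, 11010177, 54002073, 89260701, 88872913, 100663297, 43844057, 10289561, 49168449, 77398017, 131072473, 88900057, 46284865, 54755329, 31621121],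
  Vale.Agent.P032.Lt.q_of (e' := WQ029.e624) (by decide +kernel) WQ029.q624⟩

theorem w625 : Wx (EX xs7) Vale.Agent.P032X.Cert.X3.t1 (Vale.Agent.P032.Fam.fam3 Vale.Agent.P032.Fam.im0) WQ029.W625 := ⟨[0, 8, 16, 24, 32, 40, 48, 4, 12, 20, 28, 36, 44, 52, 60, 68, 76, 84, 92, 100, 108, 116, 124, 132, 140, 148, 156, 164, 172, 180, 188, 196, 93360673, 123732353, 11275841, 112100481, 8979585, 118033881, 12651993, 107741313, 38289537, 4735041, 60132825, 76090841, 40636569, 59265177, 38538649, 93361057, 327686, 335878, 851974, 860166, 1900550, 2949126],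
  Vale.Agent.P032.Lt.q_of (e' := WQ029.e625) (by decide +kernel) WQ029.q625⟩

theorem w626 : Wx (EX xs7) Vale.Agent.P032X.Cert.X3.t1 (Vale.Agent.P032.Fam.fam3 Vale.Agent.P032.Fam.im0) WQ029.W626 := ⟨[0, 8, 16, 24, 32, 40, 48, 4, 12, 20, 28, 36, 44, 52, 60, 68, 76, 84, 92, 100, 108, 116, 124, 132, 140, 148, 156, 164, 172, 180, 188, 196, 24117313, 24117249, 327686, 851974, 1376262, 2949126],
  Vale.Agent.P032.Lt.q_of (e' := WQ029.e626) (by decide +kernel) WQ029.q626⟩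

theorem w627 : Wx (EX xs7) Vale.Agent.P032X.Cert.X3.t1 (Vale.Agent.P032.Fam.fam3 Vale.Agent.P032.Fam.im0) WQ029.W627 := ⟨[0, 8, 16, 24, 32, 40, 48, 4, 12, 20, 28, 36, 44, 52, 60, 68, 76, 84, 92, 100, 108, 116, 124, 132, 140, 148, 156, 164, 172, 180, 188, 196, 88874113, 130023641, 69730465, 2883609, 111673345, 130023617, 88872577, 67633433, 327686, 851974, 1900550, 2949126],
  Vale.Agent.P032.Lt.q_of (e' := WQ029.e627) (by decide +kernel) WQ029.q627⟩

theorem w628 : Wx (EX xs7) Vale.Agent.P032X.Cert.X3.t1 (Vale.Agent.P032.Fam.fam3 Vale.Agent.P032.Fam.im0) WQ029.W628 := ⟨[0, 8, 16, 24, 32, 40, 48, 4, 12, 20, 28, 36, 44, 52, 60, 68, 76, 84, 92, 100, 108, 116, 124, 132, 140, 148, 156, 164, 172, 180, 188, 196, 41796377, 128385089, 52691097, 67633409, 127270913, 3146049, 327686, 851974, 1900550, 2949126],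
  Vale.Agent.P032.Lt.q_of (e' := WQ029.e628) (by decide +kernel) WQ029.q628⟩

theorem w629 : Wx (EX xs7) Vale.Agent.P032X.Cert.X3.t1 (Vale.Agent.P032.Fam.fam3 Vale.Agent.P032.Fam.im0) WQ029.W629 := ⟨[0, 8, 16, 24, 32, 40, 48, 4, 12, 20, 28, 36, 44, 52, 60, 68, 76, 84, 92, 100, 108, 116, 100501145],
  Vale.Agent.P032.Lt.q_of (e' := WQ029.e629) (by decide +kernel) WQ029.q629⟩

theorem w630 : Wx (EX xs7) Vale.Agent.P032X.Cert.X3.t1 (Vale.Agent.P032.Fam.fam3 Vale.Agent.P032.Fam.im0) WQ029.W630 := ⟨[0, 8, 16, 24, 32, 40, 48, 4, 12, 20, 28, 36, 44, 52, 60, 68, 76, 84, 92, 100, 108, 116, 124, 132, 140, 148, 156, 164, 172, 39075865],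
  Vale.Agent.P032.Lt.q_of (e' := WQ029.e630) (by decide +kernel) WQ029.q630⟩

theorem w631 : Wx (EX xs7) Vale.Agent.P032X.Cert.X3.t1 (Vale.Agent.P032.Fam.fam3 Vale.Agent.P032.Fam.im0) WQ029.W631 := ⟨[0, 8, 16, 24, 32, 40, 48, 4, 12, 20, 28, 36, 44, 52, 60, 68, 76, 84, 92, 100, 108, 116, 124, 10715137],
  Vale.Agent.P032.Lt.q_of (e' := WQ029.e631) (by decide +kernel) WQ029.q631⟩

theorem w632 : Wx (EX xs7) Vale.Agent.P032X.Cert.X3.t1 (Vale.Agent.P032.Fam.fam3 Vale.Agent.P032.Fam.im0) WQ029.W632 := ⟨[0, 8, 16, 24, 32, 40, 48, 4, 12, 20, 28, 36, 44, 52, 60, 68, 76, 84, 92, 100, 108, 116, 124, 132, 140, 148, 156, 5508525, 11862233, 18809637],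
  Vale.Agent.P032.Lt.q_of (e' := WQ029.e632) (by decide +kernel) WQ029.q632⟩

theorem w633 : Wx (EX xs7) Vale.Agent.P032X.Cert.X3.t1 (Vale.Agent.P032.Fam.fam3 Vale.Agent.P032.Fam.im0) WQ029.W633 := ⟨[0, 8, 16, 24, 32, 40, 48, 4, 12, 20, 28, 36, 44, 52, 60, 68, 76, 84, 92, 100, 108, 116, 12998041, 107512729, 107513857, 23626305, 12996353],
  Vale.Agent.P032.Lt.q_of (e' := WQ029.e633) (by decide +kernel) WQ029.q633⟩

theorem w634 : Wx (EX xs7) Vale.Agent.P032X.Cert.X3.t1 (Vale.Agent.P032.Fam.fam3 Vale.Agent.P032.Fam.im0) WQ029.W634 := ⟨[0, 8, 16, 24, 32, 40, 48, 4, 12, 20, 28, 36, 44, 52, 60, 68, 76, 34766849],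
  Vale.Agent.P032.Lt.q_of (e' := WQ029.e634) (by decide +kernel) WQ029.q634⟩

theorem w635 : Wx (EX xs7) Vale.Agent.P032X.Cert.X3.t1 (Vale.Agent.P032.Fam.fam3 Vale.Agent.P032.Fam.im0) WQ029.W635 := ⟨[0, 8, 16, 24, 32, 40, 48, 4, 12, 20, 28, 36, 44, 52, 60, 68, 76, 84, 92, 36732929, 70289049],
  Vale.Agent.P032.Lt.q_of (e' := WQ029.e635) (by decide +kernel) WQ029.q635⟩

theorem w636 : Wx (EX xs7) Vale.Agent.P032X.Cert.X3.t1 (Vale.Agent.P032.Fam.fam3 Vale.Agent.P032.Fam.im0) WQ029.W636 := ⟨[0, 8, 16, 24, 32, 40, 48, 4, 12, 20, 28, 36, 44, 52, 60, 68, 76, 84, 92, 100, 108, 116, 124, 132, 140, 148, 156, 164, 172, 180, 128221249, 6590233],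
  Vale.Agent.P032.Lt.q_of (e' := WQ029.e636) (by decide +kernel) WQ029.q636⟩

theorem w637 : Wx (EX xs7) Vale.Agent.P032X.Cert.X3.t1 (Vale.Agent.P032.Fam.fam3 Vale.Agent.P032.Fam.im0) WQ029.W637 := ⟨[0, 8, 16, 24, 32, 40, 48, 4, 12, 20, 28, 36, 44, 52, 60, 68, 76, 84, 92, 100, 108, 116, 124, 132, 140, 148, 156, 164, 172, 180, 188, 88868097, 130777089, 63475097, 85854745, 39980441, 92802241, 130615313, 82906521, 28346385, 130320401, 94244249, 25694361, 124784129, 15796713, 1900550, 2949126],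
  Vale.Agent.P032.Lt.q_of (e' := WQ029.e637) (by decide +kernel) WQ029.q637⟩

theorem w638 : Wx (EX xs7) Vale.Agent.P032X.Cert.X3.t1 (Vale.Agent.P032.Fam.fam3 Vale.Agent.P032.Fam.im0) WQ029.W638 := ⟨[0, 8, 16, 24, 32, 40, 48, 4, 12, 20, 28, 36, 44, 52, 60, 68, 76, 84, 92, 100, 108, 116, 124, 132, 140, 148, 156, 164, 120655257, 26152345, 70320129, 7602177, 103284737, 46399489, 6160449, 73272729, 27331993, 60686337, 127795201, 79953921, 12520857, 36978689, 32276481, 22941081, 59706777, 125108225, 61210625, 61095937, 106823681, 110034945, 36765697, 35274753, 126815641, 3424257, 11816345, 90049945, 72289689, 20204953, 56495513, 45370777, 53759385, 81661337, 14552473, 123604377, 130023681, 1900550, 2949126],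
  Vale.Agent.P032.Lt.q_of (e' := WQ029.e638) (by decide +kernel) WQ029.q638⟩

theorem w639 : Wx (EX xs7) Vale.Agent.P032X.Cert.X3.t1 (Vale.Agent.P032.Fam.fam3 Vale.Agent.P032.Fam.im0) WQ029.W639 := ⟨[0, 8, 16, 24, 32, 40, 48, 4, 12, 20, 28, 36, 44, 52, 60, 68, 76, 84, 92, 100, 108, 116, 124, 132, 140, 148, 156, 164, 172, 180, 188, 196, 204, 212, 52690945, 120061953, 122688129, 80740505, 85885145, 327686, 851974, 1376262, 2949126],
  Vale.Agent.P032.Lt.q_of (e' := WQ029.e639) (by decide +kernel) WQ029.q639⟩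

theorem w640 : Wx (EX xs7) Vale.Agent.P032X.Cert.X3.t1 (Vale.Agent.P032.Fam.fam3 Vale.Agent.P032.Fam.im0) WQ030.W640 := ⟨[0, 8, 16, 24, 32, 40, 48, 4, 12, 20, 28, 36, 44, 52, 60, 68, 76, 84, 92, 100, 108, 116, 124, 132, 140, 148, 156, 164, 172, 180, 188, 196, 204, 75366401, 122688129, 31984481, 327686, 851974, 1376262, 2949126],
  Vale.Agent.P032.Lt.q_of (e' := WQ030.e640) (by decide +kernel) WQ030.q640⟩

theorem w641 : Wx (EX xs7) Vale.Agent.P032X.Cert.X3.t1 (Vale.Agent.P032.Fam.fam3 Vale.Agent.P032.Fam.im0) WQ030.W641 := ⟨[0, 8, 16, 24, 32, 40, 48, 4, 12, 20, 28, 36, 44, 52, 60, 68, 76, 84, 92, 100, 108, 116, 124, 132, 140, 148, 156, 164, 172, 180, 188, 196, 55312385, 61145561, 131334553, 10240001, 91133857, 99221977, 8454145, 42008577, 61636609, 34357249, 128745473, 102173665, 50185993, 101089281, 109379585, 81395713, 42270721, 26870169, 103154073, 67633665, 335878, 1376262, 2424838, 2949126],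
  Vale.Agent.P032.Lt.q_of (e' := WQ030.e641) (by decide +kernel) WQ030.q641⟩

theorem w642 : Wx (EX xs7) Vale.Agent.P032X.Cert.X3.t1 (Vale.Agent.P032.Fam.fam3 Vale.Agent.P032.Fam.im0) WQ030.W642 := ⟨[0, 8, 16, 24, 32, 40, 48, 4, 12, 20, 28, 36, 44, 52, 60, 68, 76, 84, 92, 100, 108, 116, 124, 132, 140, 148, 156, 164, 172, 180, 188, 196, 204, 212, 130941401, 48889857, 115998721, 18481153, 127009241, 133235161, 36569561, 70123993, 35258841, 103678425, 32112641, 72482817, 63832537, 50610585, 19799465, 3014657, 1376262, 2424838, 2949126],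
  Vale.Agent.P032.Lt.q_of (e' := WQ030.e642) (by decide +kernel) WQ030.q642⟩

theorem w643 : Wx (EX xs7) Vale.Agent.P032X.Cert.X3.t1 (Vale.Agent.P032.Fam.fam3 Vale.Agent.P032.Fam.im0) WQ030.W643 := ⟨[0, 8, 16, 24, 32, 40, 48, 4, 12, 20, 28, 36, 44, 52, 60, 68, 76, 84, 92, 100, 108, 116, 124, 132, 140, 148, 156, 164, 121373081, 28180481, 12124161, 5373953, 55853057, 54067673, 45678593, 121176537, 79233025, 55312385, 2424838, 2949126],
  Vale.Agent.P032.Lt.q_of (e' := WQ030.e643) (by decide +kernel) WQ030.q643⟩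

theorem w644 : Wx (EX xs7) Vale.Agent.P032X.Cert.X3.t1 (Vale.Agent.P032.Fam.fam3 Vale.Agent.P032.Fam.im0) WQ030.W644 := ⟨[0, 8, 16, 24, 32, 40, 48, 4, 12, 20, 28, 36, 44, 52, 60, 68, 76, 84, 92, 100, 108, 116, 124, 132, 140, 148, 156, 164, 172, 180, 188, 196, 204, 212, 220, 228, 236, 244, 252, 260, 268, 88873753, 87458201, 42008985, 78840217, 335878, 344070, 851974, 2424838, 2957318],
  Vale.Agent.P032.Lt.q_of (e' := WQ030.e644) (by decide +kernel) WQ030.q644⟩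

theorem w645 : Wx (EX xs7) Vale.Agent.P032X.Cert.X3.t1 (Vale.Agent.P032.Fam.fam3 Vale.Agent.P032.Fam.im0) WQ030.W645 := ⟨[0, 8, 16, 24, 32, 40, 48, 4, 12, 20, 28, 36, 44, 52, 60, 68, 76, 84, 92, 100, 108, 116, 124, 132, 140, 148, 156, 164, 172, 180, 188, 196, 204, 212, 220, 5507089, 5507153, 13631489, 47467929, 327686, 851974, 1900550, 2949126],
  Vale.Agent.P032.Lt.q_of (e' := WQ030.e645) (by decide +kernel) WQ030.q645⟩

theorem w646 : Wx (EX xs7) Vale.Agent.P032X.Cert.X3.t1 (Vale.Agent.P032.Fam.fam3 Vale.Agent.P032.Fam.im0) WQ030.W646 := ⟨[0, 8, 16, 24, 32, 40, 48, 4, 12, 20, 28, 36, 44, 52, 60, 68, 76, 84, 92, 100, 108, 116, 124, 132, 140, 148, 156, 164, 172, 180, 10488857, 130025625, 127407169, 104992153, 45485465, 112594329, 18104473, 2424838, 2949126],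
  Vale.Agent.P032.Lt.q_of (e' := WQ030.e646) (by decide +kernel) WQ030.q646⟩

theorem w647 : Wx (EX xs7) Vale.Agent.P032X.Cert.X3.t1 (Vale.Agent.P032.Fam.fam3 Vale.Agent.P032.Fam.im0) WQ030.W647 := ⟨[0, 8, 16, 24, 32, 40, 48, 4, 12, 20, 28, 36, 44, 52, 60, 68, 76, 84, 92, 100, 108, 116, 124, 132, 140, 148, 156, 164, 172, 180, 188, 196, 204, 212, 220, 228, 236, 6229401, 8392089, 8716313, 126877697, 87559577, 6307841, 29884417, 63438849, 122028033, 39780481, 99090497, 11995021, 49348709, 105288769, 62770585, 92799193, 25691289, 94240769, 62767105, 127860993, 60751873, 27199449, 73338329, 2327193, 860166, 1900550, 2949126],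
  Vale.Agent.P032.Lt.q_of (e' := WQ030.e647) (by decide +kernel) WQ030.q647⟩

theorem w648 : Wx (EX xs7) Vale.Agent.P032X.Cert.X3.t1 (Vale.Agent.P032.Fam.fam3 Vale.Agent.P032.Fam.im0) WQ030.W648 := ⟨[0, 8, 16, 24, 32, 40, 48, 4, 12, 20, 28, 36, 44, 52, 60, 68, 76, 84, 92, 100, 108, 116, 124, 132, 140, 148, 156, 164, 172, 79888385],
  Vale.Agent.P032.Lt.q_of (e' := WQ030.e648) (by decide +kernel) WQ030.q648⟩

theorem w649 : Wx (EX xs7) Vale.Agent.P032X.Cert.X3.t1 (Vale.Agent.P032.Fam.fam3 Vale.Agent.P032.Fam.im0) WQ030.W649 := ⟨[0, 8, 16, 24, 32, 40, 48, 4, 12, 20, 28, 36, 44, 52, 60, 68, 76, 84, 92, 100, 108, 116, 124, 132, 140, 148, 156, 164, 172, 180, 188, 196, 78512537, 34079129, 28311553, 55312385, 88869857, 18416025, 44843417, 85524889, 117669889, 11730945, 125469081, 63504385, 47841689, 91914241, 79429633, 33423361, 58359809, 100532225, 64618905, 24805441, 16416769, 117309849, 57164185, 1376262, 1900550,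 2949126],
  Vale.Agent.P032.Lt.q_of (e' := WQ030.e649) (by decide +kernel) WQ030.q649⟩

theorem w650 : Wx (EX xs7) Vale.Agent.P032X.Cert.X3.t1 (Vale.Agent.P032.Fam.fam3 Vale.Agent.P032.Fam.im0) WQ030.W650 := ⟨[0, 8, 16, 24, 32, 40, 48, 4, 12, 20, 28, 36, 44, 52, 60, 68, 76, 84, 92, 100, 108, 116, 124, 132, 140, 148, 156, 164, 172, 180, 188, 196, 110690777, 36504025, 127008769, 26804697, 1900550, 2949126],
  Vale.Agent.P032.Lt.q_of (e' := WQ030.e650) (by decide +kernel) WQ030.q650⟩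

theorem w651 : Wx (EX xs7) Vale.Agent.P032X.Cert.X3.t1 (Vale.Agent.P032.Fam.fam3 Vale.Agent.P032.Fam.im0) WQ030.W651 := ⟨[0, 8, 16, 24, 32, 40, 48, 4, 12, 20, 28, 36, 44, 52, 60, 68, 76, 84, 92, 100, 108, 116, 124, 132, 140, 148, 156, 164, 172, 180, 188, 55312385, 28311553, 122945537, 97419673, 26214401, 42991617, 81002905, 78872985, 90571713, 13893633, 89129369],
  Vale.Agent.P032.Lt.q_of (e' := WQ030.e651) (by decide +kernel) WQ030.q651⟩

theorem w652 : Wx (EX xs7) Vale.Agent.P032X.Cert.X3.t1 (Vale.Agent.P032.Fam.fam3 Vale.Agent.P032.Fam.im0) WQ030.W652 := ⟨[0, 8, 16, 24, 32, 40, 48, 4, 12, 20, 28, 36, 44, 52, 60, 68, 76, 84, 92, 100, 108, 116, 124, 132, 140, 148, 156, 164, 172, 180, 188, 196, 55312385, 121372737, 14090713, 56754649, 14286913, 57016385, 129826817, 89784793, 124125185, 89588185, 56033281, 29360601, 101521161, 108396545, 31064537, 131727833, 123142617, 15073281, 103677953, 81396185, 96076249,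 1376262, 1900550, 2949126],
  Vale.Agent.P032.Lt.q_of (e' := WQ030.e652) (by decide +kernel) WQ030.q652⟩

theorem w653 : Wx (EX xs7) Vale.Agent.P032X.Cert.X3.t1 (Vale.Agent.P032.Fam.fam3 Vale.Agent.P032.Fam.im0) WQ030.W653 := ⟨[0, 8, 16, 24, 32, 40, 48, 4, 12, 20, 28, 36, 44, 52, 60, 68, 76, 84, 92, 100, 108, 116, 124, 132, 140, 148, 156, 164, 172, 180, 188, 196, 204, 212, 220, 228, 46537497, 38273025, 21299673, 118063105],
  Vale.Agent.P032.Lt.q_of (e' := WQ030.e653) (by decide +kernel) WQ030.q653⟩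

theorem w654 : Wx (EX xs7) Vale.Agent.P032X.Cert.X3.t1 (Vale.Agent.P032.Fam.fam3 Vale.Agent.P032.Fam.im0) WQ030.W654 := ⟨[0, 8, 16, 24, 32, 40, 48, 4, 12, 20, 28, 36, 44, 52, 60, 68, 76, 84, 92, 100, 108, 116, 124, 132, 140, 148, 156, 164, 172, 180, 188, 196, 204, 55312385, 54067673, 5373953, 115998721, 48889857, 124125657, 90575649, 62914969, 44957697, 123142145, 3014657, 32112641, 11681793, 48627713, 121373081, 103677953, 15073753, 65667073, 335878, 851974, 2424838, 2949126],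
  Vale.Agent.P032.Lt.q_of (e' := WQ030.e654) (by decide +kernel) WQ030.q654⟩

theorem w655 : Wx (EX xs7) Vale.Agent.P032X.Cert.X3.t1 (Vale.Agent.P032.Fam.fam3 Vale.Agent.P032.Fam.im0) WQ030.W655 := ⟨[0, 8, 16, 24, 32, 40, 48, 4, 12, 20, 28, 36, 44, 52, 60, 68, 76, 84, 92, 100, 108, 116, 124, 132, 140, 148, 156, 164, 172, 180, 188, 196, 204, 212, 220, 228, 236, 244, 50429953, 78512129, 6291521, 105709569, 113312153, 98697281, 23740889, 125239769, 83296665, 50185089, 2687385, 50184705, 56000513, 92803929, 12059137, 18874369, 76414977, 9240577, 24576409, 57294849, 46537089, 27295809, 108462081, 16187393, 60850649, 74907649, 129433601, 6963201, 40517697, 15352281, 58130841, 91685337, 51724289, 105578969, 97681817, 15728705, 1376262, 1900550, 2949126],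
  Vale.Agent.P032.Lt.q_of (e' := WQ030.e655) (by decide +kernel) WQ030.q655⟩

theorem w656 : Wx (EX xs7) Vale.Agent.P032X.Cert.X3.t1 (Vale.Agent.P032.Fam.fam3 Vale.Agent.P032.Fam.im0) WQ030.W656 := ⟨[0, 8, 16, 24, 32, 40, 48, 4, 12, 20, 28, 36, 44, 52, 60, 68, 76, 84, 92, 100, 108, 116, 124, 132, 140, 148, 156, 164, 172, 55312385, 28311553, 3670489, 43008473, 1376262, 1900550, 2949126],
  Vale.Agent.P032.Lt.q_of (e' := WQ030.e656) (by decide +kernel) WQ030.q656⟩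

theorem w657 : Wx (EX xs7) Vale.Agent.P032X.Cert.X3.t1 (Vale.Agent.P032.Fam.fam3 Vale.Agent.P032.Fam.im0) WQ030.W657 := ⟨[0, 8, 16, 24, 32, 40, 48, 4, 12, 20, 28, 36, 44, 52, 60, 68, 76, 84, 92, 100, 108, 116, 124, 132, 140, 148, 156, 164, 172, 180, 188, 55312385, 131334553, 121373081, 102367233, 90767361, 44957697, 59785217, 124322201, 27853209, 107544985, 61407641, 19595265, 41828353, 128516505, 99155969, 82182145, 121700761, 57212929, 73990145, 115933593, 35192833, 23658497, 15269889, 102302105, 1638809, 82379161, 110755841, 68747265, 65601537, 40436121, 1704345, 2424838, 2949126],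
  Vale.Agent.P032.Lt.q_of (e' := WQ030.e657) (by decide +kernel) WQ030.q657⟩

theorem w658 : Wx (EX xs7) Vale.Agent.P032X.Cert.X3.t1 (Vale.Agent.P032.Fam.fam3 Vale.Agent.P032.Fam.im0) WQ030.W658 := ⟨[0, 8, 16, 24, 32, 40, 48, 4, 12, 20, 28, 36, 44, 52, 60, 68, 76, 84, 92, 100, 108, 116, 124, 132, 140, 148, 156, 164, 172, 180, 188, 55312385, 98632089, 19153305, 33832961, 79533897, 1376262, 2424838, 2949126],
  Vale.Agent.P032.Lt.q_of (e' := WQ030.e658) (by decide +kernel) WQ030.q658⟩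

theorem w659 : Wx (EX xs7) Vale.Agent.P032X.Cert.X3.t1 (Vale.Agent.P032.Fam.fam3 Vale.Agent.P032.Fam.im0) WQ030.W659 := ⟨[0, 8, 16, 24, 32, 40, 48, 4, 12, 20, 28, 36, 44, 52, 60, 68, 76, 84, 92, 100, 108, 116, 124, 132, 140, 148, 156, 164, 172, 75366401, 59115041, 851974, 1376262, 2949126],
  Vale.Agent.P032.Lt.q_of (e' := WQ030.e659) (by decide +kernel) WQ030.q659⟩

theorem w660 : Wx (EX xs7) Vale.Agent.P032X.Cert.X3.t1 (Vale.Agent.P032.Fam.fam3 Vale.Agent.P032.Fam.im0) WQ030.W660 := ⟨[0, 8, 16, 24, 32, 40, 48, 4, 12, 20, 28, 36, 44, 52, 60, 68, 76, 84, 92, 100, 108, 116, 124, 132, 140, 148, 156, 164, 172, 28311553, 1376262, 1392646, 1900550, 2949126],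
  Vale.Agent.P032.Lt.q_of (e' := WQ030.e660) (by decide +kernel) WQ030.q660⟩

theorem w661 : Wx (EX xs7) Vale.Agent.P032X.Cert.X3.t1 (Vale.Agent.P032.Fam.fam3 Vale.Agent.P032.Fam.im0) WQ030.W661 := ⟨[0, 8, 16, 24, 32, 40, 48, 4, 12, 20, 28, 36, 44, 52, 60, 68, 76, 84, 92, 100, 108, 116, 124, 132, 140, 148, 156, 164, 172, 180, 52690945, 1376262, 2949126],
  Vale.Agent.P032.Lt.q_of (e' := WQ030.e661) (by decide +kernel) WQ030.q661⟩

theorem w662 : Wx (EX xs7) Vale.Agent.P032X.Cert.X3.t1 (Vale.Agent.P032.Fam.fam3 Vale.Agent.P032.Fam.im0) WQ030.W662 := ⟨[0, 8, 16, 24, 32, 40, 48, 4, 12, 20, 28, 36, 44, 52, 60, 68, 76, 84, 92, 100, 108, 116, 124, 132, 140, 148, 156, 164, 172, 180, 188, 196, 204, 212, 220, 228, 236, 244, 252, 31883265, 33292289, 28311961, 78512129, 34078721, 39616513, 47841281, 58998785, 126550425, 45744129, 104464385, 38027265, 25444353, 37355929, 62521345, 129630209],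
  Vale.Agent.P032.Lt.q_of (e' := WQ030.e662) (by decide +kernel) WQ030.q662⟩

theorem w663 : Wx (EX xs7) Vale.Agent.P032X.Cert.X3.t1 (Vale.Agent.P032.Fam.fam3 Vale.Agent.P032.Fam.im0) WQ030.W663 := ⟨[0, 8, 16, 24, 32, 40, 48, 4, 12, 20, 28, 36, 44, 52, 60, 68, 76, 84, 92, 100, 108, 116, 124, 132, 140, 148, 156, 164, 172, 29818881, 29819033, 7114533, 17956865, 69206721, 851974, 2424838, 2441222, 2949126],
  Vale.Agent.P032.Lt.q_of (e' := WQ030.e663) (by decide +kernel) WQ030.q663⟩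

theorem w664 : Wx (EX xs7) Vale.Agent.P032X.Cert.X3.t1 (Vale.Agent.P032.Fam.fam3 Vale.Agent.P032.Fam.im0) WQ030.W664 := ⟨[0, 8, 16, 24, 32, 40, 48, 4, 12, 20, 28, 36, 44, 52, 60, 68, 76, 84, 92, 100, 108, 116, 124, 132, 140, 148, 156, 164, 172, 180, 188, 196, 204, 212, 220, 228, 236, 40337665, 6291929, 6291521, 35062169, 31883265, 18874369, 68813209, 48890265, 115999129, 33833369, 131334145, 55853465, 121372673, 5374361, 28180889, 61735321, 44958105, 65667481, 32113049, 278937, 44433817, 7209369, 128844185, 15073689, 82182553, 2424838, 2949126],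
  Vale.Agent.P032.Lt.q_of (e' := WQ030.e664) (by decide +kernel) WQ030.q664⟩

theorem w665 : Wx (EX xs7) Vale.Agent.P032X.Cert.X3.t1 (Vale.Agent.P032.Fam.fam3 Vale.Agent.P032.Fam.im0) WQ030.W665 := ⟨[0, 8, 16, 24, 32, 40, 48, 4, 12, 20, 28, 36, 44, 52, 60, 68, 76, 84, 92, 100, 108, 116, 124, 132, 140, 148, 156, 164, 172, 180, 188, 196, 204, 6291457, 131334617, 88932417, 21823553, 105709569, 41697281, 113639489, 46537089, 80085057, 1900550, 2949126],
  Vale.Agent.P032.Lt.q_of (e' := WQ030.e665) (by decide +kernel) WQ030.q665⟩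

theorem w666 : Wx (EX xs7) Vale.Agent.P032X.Cert.X3.t1 (Vale.Agent.P032.Fam.fam3 Vale.Agent.P032.Fam.im0) WQ030.W666 := ⟨[0, 8, 16, 24, 32, 40, 48, 4, 12, 20, 28, 36, 44, 52, 60, 68, 76, 84, 92, 100, 108, 116, 124, 132, 140, 148, 156, 164, 172, 66961561, 128385217, 51478529, 102760449, 3145857, 58720321, 66961689, 128385345, 51478593, 102760513, 3145985, 58720257, 851974, 1376262, 2949126],
  Vale.Agent.P032.Lt.q_of (e' := WQ030.e666) (by decide +kernel) WQ030.q666⟩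

theorem w667 : Wx (EX xs7) Vale.Agent.P032X.Cert.X3.t1 (Vale.Agent.P032.Fam.fam3 Vale.Agent.P032.Fam.im0) WQ030.W667 := ⟨[0, 8, 16, 24, 32, 40, 48, 4, 12, 20, 28, 36, 44, 52, 60, 68, 76, 84, 92, 100, 108, 116, 124, 132, 140, 148, 156, 164, 172, 180, 188, 196, 204, 212, 220, 11275841, 30408769, 327686, 851974, 860166, 1376262, 1900550, 2949126],
  Vale.Agent.P032.Lt.q_of (e' := WQ030.e667) (by decide +kernel) WQ030.q667⟩

theorem w668 : Wx (EX xs7) Vale.Agent.P032X.Cert.X3.t1 (Vale.Agent.P032.Fam.fam3 Vale.Agent.P032.Fam.im0) WQ030.W668 := ⟨[0, 8, 16, 24, 32, 40, 48, 4, 12, 20, 28, 36, 44, 52, 60, 68, 76, 84, 92, 100, 108, 116, 124, 132, 140, 148, 156, 164, 172, 180, 188, 196, 204, 212, 220, 228, 236, 244, 252, 260, 268, 276, 66093209, 11010193, 111446441, 2424838, 2949126],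
  Vale.Agent.P032.Lt.q_of (e' := WQ030.e668) (by decide +kernel) WQ030.q668⟩

theorem w669 : Wx (EX xs7) Vale.Agent.P032X.Cert.X3.t1 (Vale.Agent.P032.Fam.fam3 Vale.Agent.P032.Fam.im0) WQ030.W669 := ⟨[0, 8, 16, 24, 32, 40, 48, 4, 12, 20, 28, 36, 44, 52, 60, 68, 76, 84, 92, 100, 108, 116, 124, 132, 140, 148, 156, 164, 172, 180, 188, 196, 204, 212, 220, 112721921, 112918529, 45809665, 117375129, 20594689, 45809817, 112722073, 20594841, 117374977, 37372057, 115900417, 3817473, 50266113, 37371905, 50266265, 3817625, 27983873, 27984025, 1376262, 1900550],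
  Vale.Agent.P032.Lt.q_of (e' := WQ030.e669) (by decide +kernel) WQ030.q669⟩

theorem w670 : Wx (EX xs7) Vale.Agent.P032X.Cert.X3.t1 (Vale.Agent.P032.Fam.fam3 Vale.Agent.P032.Fam.im0) WQ030.W670 := ⟨[0, 8, 16, 24, 32, 40, 48, 4, 12, 20, 28, 36, 44, 52, 60, 68, 76, 84, 92, 100, 108, 116, 124, 132, 140, 148, 156, 164, 172, 180, 188, 55312385, 19398785, 5264673, 31883673, 67633177, 29639321, 34111897, 101220353, 120488345, 49223129, 108659097, 31064065, 11436441, 61145561, 19398657, 67633305, 1376262, 2424838, 2949126],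
  Vale.Agent.P032.Lt.q_of (e' := WQ030.e670) (by decide +kernel) WQ030.q670⟩

theorem w671 : Wx (EX xs7) Vale.Agent.P032X.Cert.X3.t1 (Vale.Agent.P032.Fam.fam3 Vale.Agent.P032.Fam.im0) WQ030.W671 := ⟨[0, 8, 16, 24, 32, 40, 48, 4, 12, 20, 28, 36, 44, 52, 60, 68, 76, 84, 92, 100, 108, 116, 124, 132, 140, 148, 156, 164, 172, 180, 18612225, 27017217, 125960601, 67666329, 49217945, 114950553, 41566617, 557057, 42221569, 20726233, 16581017, 50872729, 49223129, 58851329, 117669889, 121242009, 54132737, 335878, 1376262, 1900550, 2949126],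
  Vale.Agent.P032.Lt.q_of (e' := WQ030.e671) (by decide +kernel) WQ030.q671⟩

theorem w672 : Wx (EX xs7) Vale.Agent.P032X.Cert.X3.t1 (Vale.Agent.P032.Fam.fam3 Vale.Agent.P032.Fam.im0) WQ031.W672 := ⟨[0, 8, 16, 24, 32, 40, 48, 4, 12, 20, 28, 36, 44, 52, 60, 68, 76, 84, 92, 100, 108, 116, 124, 132, 140, 148, 156, 164, 172, 180, 130025601, 16941057, 86802841, 860166, 2424838, 2433030, 2949126],
  Vale.Agent.P032.Lt.q_of (e' := WQ031.e672) (by decide +kernel) WQ031.q672⟩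

theorem w673 : Wx (EX xs7) Vale.Agent.P032X.Cert.X3.t1 (Vale.Agent.P032.Fam.fam3 Vale.Agent.P032.Fam.im0) WQ031.W673 := ⟨[0, 8, 16, 24, 32, 40, 48, 4, 12, 20, 28, 36, 44, 52, 60, 68, 76, 84, 92, 100, 108, 116, 124, 132, 140, 148, 156, 164, 172, 180, 66588873, 100664833, 92143617, 110100481, 118587393, 68517889, 58720769, 860166, 1900550, 1908742, 2949126],
  Vale.Agent.P032.Lt.q_of (e' := WQ031.e673) (by decide +kernel) WQ031.q673⟩

theorem w674 : Wx (EX xs7) Vale.Agent.P032X.Cert.X3.t1 (Vale.Agent.P032.Fam.fam3 Vale.Agent.P032.Fam.im0) WQ031.W674 := ⟨[0, 8, 16, 24, 32, 40, 48, 4, 12, 20, 28, 36, 44, 52, 60, 68, 76, 84, 92, 100, 108, 116, 124, 132, 140, 148, 156, 164, 172, 180, 37224921, 37224513, 50185089, 12059137, 38814105, 90177537, 91128705, 18874777, 12058777, 104333377, 91129089, 18874841, 5261281, 20972185, 90177945, 38813697, 104333785, 61145497, 67633433, 1900550, 2949126],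
  Vale.Agent.P032.Lt.q_of (e' := WQ031.e674) (by decide +kernel) WQ031.q674⟩

theorem w675 : Wx (EX xs7) Vale.Agent.P032X.Cert.X3.t1 (Vale.Agent.P032.Fam.fam3 Vale.Agent.P032.Fam.im0) WQ031.W675 := ⟨[0, 8, 16, 24, 32, 40, 48, 4, 12, 20, 28, 36, 44, 52, 60, 68, 76, 84, 92, 100, 108, 116, 124, 132, 140, 148, 156, 164, 172, 180, 188, 69730977, 91127809, 84083097, 50528665, 52576665, 117637529, 42991617, 8585625, 92471705, 39223705, 33554841, 37224921, 6291865, 67633601, 67633793, 118292545, 31883737, 67633241, 1900550, 2949126],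
  Vale.Agent.P032.Lt.q_of (e' := WQ031.e675) (by decide +kernel) WQ031.q675⟩

theorem w676 : Wx (EX xs7) Vale.Agent.P032X.Cert.X3.t1 (Vale.Agent.P032.Fam.fam3 Vale.Agent.P032.Fam.im0) WQ031.W676 := ⟨[0, 8, 16, 24, 32, 40, 48, 4, 12, 20, 28, 36, 44, 52, 60, 68, 76, 84, 92, 100, 108, 116, 124, 132, 140, 148, 156, 164, 172, 180, 188, 196, 204, 212, 220, 128385113, 73859225, 127861017, 8716441, 6750361, 73859073, 127861057, 6750209, 851974, 2424838, 2949126],
  Vale.Agent.P032.Lt.q_of (e' := WQ031.e676) (by decide +kernel) WQ031.q676⟩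

theorem w677 : Wx (EX xs7) Vale.Agent.P032X.Cert.X3.t1 (Vale.Agent.P032.Fam.fam3 Vale.Agent.P032.Fam.im0) WQ031.W677 := ⟨[0, 8, 16, 24, 32, 40, 48, 4, 12, 20, 28, 36, 44, 52, 60, 68, 76, 84, 92, 100, 108, 116, 124, 132, 140, 148, 156, 164, 172, 180, 188, 196, 40370585, 42992025, 48955801, 97419265, 40714649, 26214809, 11550721, 69206337, 67633601, 1900550, 2949126],
  Vale.Agent.P032.Lt.q_of (e' := WQ031.e677) (by decide +kernel) WQ031.q677⟩

theorem w678 : Wx (EX xs7) Vale.Agent.P032X.Cert.X3.t1 (Vale.Agent.P032.Fam.fam3 Vale.Agent.P032.Fam.im0) WQ031.W678 := ⟨[0, 8, 16, 24, 32, 40, 48, 4, 12, 20, 28, 36, 44, 52, 60, 68, 76, 84, 92, 100, 108, 116, 124, 132, 140, 148, 156, 164, 172, 180, 188, 196, 204, 212, 220, 50872321, 5510033, 63766529, 48955393, 7668121, 114950145, 20725825, 1376262, 1900550, 1908742, 2949126],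
  Vale.Agent.P032.Lt.q_of (e' := WQ031.e678) (by decide +kernel) WQ031.q678⟩

theorem w679 : Wx (EX xs7) Vale.Agent.P032X.Cert.X3.t1 (Vale.Agent.P032.Fam.fam3 Vale.Agent.P032.Fam.im0) WQ031.W679 := ⟨[0, 8, 16, 24, 32, 40, 48, 4, 12, 20, 28, 36, 44, 52, 60, 68, 76, 84, 92, 100, 108, 116, 124, 132, 140, 148, 156, 164, 172, 180, 188, 196, 204, 212, 94601345, 21299201, 50741249, 121799065, 77529497, 1704345, 12582913, 92045721, 88342529, 19759513, 101581209, 38010881, 50184473, 45694977, 5915033, 28148121, 35848193, 33980417, 37896193, 54788097, 21233665, 131072409, 2424838, 2949126],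
  Vale.Agent.P032.Lt.q_of (e' := WQ031.e679) (by decide +kernel) WQ031.q679⟩

theorem w680 : Wx (EX xs7) Vale.Agent.P032X.Cert.X3.t1 (Vale.Agent.P032.Fam.fam3 Vale.Agent.P032.Fam.im0) WQ031.W680 := ⟨[0, 8, 16, 24, 32, 40, 48, 4, 12, 20, 28, 36, 44, 52, 60, 68, 76, 84, 92, 100, 108, 116, 124, 132, 140, 148, 156, 164, 172, 180, 188, 196, 204, 212, 220, 228, 236, 98567425, 50184473, 6291929, 29639321, 41796057, 98567041, 6291521, 67633537, 5261585, 18874777, 31883673, 35061761, 5259673, 44072961, 4604313, 15368193, 98074625, 38158337, 64520601, 8012249, 36848025, 111182233, 60850585, 65437697, 1376262, 2424838, 2949126],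
  Vale.Agent.P032.Lt.q_of (e' := WQ031.e680) (by decide +kernel) WQ031.q680⟩

theorem w681 : Wx (EX xs7) Vale.Agent.P032X.Cert.X3.t1 (Vale.Agent.P032.Fam.fam3 Vale.Agent.P032.Fam.im0) WQ031.W681 := ⟨[0, 8, 16, 24, 32, 40, 48, 4, 12, 20, 28, 36, 44, 52, 60, 68, 76, 84, 92, 100, 108, 116, 124, 132, 140, 148, 156, 164, 172, 180, 188, 196, 204, 212, 220, 228, 25657345, 25661209, 41091073, 26050561, 2424838, 2949126],
  Vale.Agent.P032.Lt.q_of (e' := WQ031.e681) (by decide +kernel) WQ031.q681⟩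

theorem w682 : Wx (EX xs7) Vale.Agent.P032X.Cert.X3.t1 (Vale.Agent.P032.Fam.fam3 Vale.Agent.P032.Fam.im0) WQ031.W682 := ⟨[0, 8, 16, 24, 32, 40, 48, 4, 12, 20, 28, 36, 44, 52, 60, 68, 76, 84, 92, 100, 108, 116, 124, 132, 140, 148, 156, 164, 172, 180, 188, 196, 204, 212, 220, 67108865, 93716481, 84443137, 327686, 1392646, 1900550, 2949126],
  Vale.Agent.P032.Lt.q_of (e' := WQ031.e682) (by decide +kernel) WQ031.q682⟩

theorem w683 : Wx (EX xs7) Vale.Agent.P032X.Cert.X3.t1 (Vale.Agent.P032.Fam.fam3 Vale.Agent.P032.Fam.im0) WQ031.W683 := ⟨[0, 8, 16, 24, 32, 40, 48, 4, 12, 20, 28, 36, 44, 52, 60, 68, 76, 84, 92, 100, 108, 116, 124, 132, 140, 148, 156, 164, 172, 180, 188, 196, 204, 212, 36700377, 102760705, 120619009, 78184449, 119668801, 3145921, 327686, 851974, 2424838, 2949126],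
  Vale.Agent.P032.Lt.q_of (e' := WQ031.e683) (by decide +kernel) WQ031.q683⟩

theorem w684 : Wx (EX xs7) Vale.Agent.P032X.Cert.X3.t1 (Vale.Agent.P032.Fam.fam3 Vale.Agent.P032.Fam.im0) WQ031.W684 := ⟨[0, 8, 16, 24, 32, 40, 48, 4, 12, 20, 28, 36, 44, 52, 60, 68, 76, 84, 92, 100, 108, 116, 124, 132, 140, 148, 156, 164, 172, 180, 188, 34999517, 91132177, 89129153, 126226201, 22024025],
  Vale.Agent.P032.Lt.q_of (e' := WQ031.e684) (by decide +kernel) WQ031.q684⟩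

theorem w685 : Wx (EX xs7) Vale.Agent.P032X.Cert.X3.t1 (Vale.Agent.P032.Fam.fam3 Vale.Agent.P032.Fam.im0) WQ031.W685 := ⟨[0, 8, 16, 24, 32, 40, 48, 4, 12, 20, 28, 36, 44, 52, 60, 68, 76, 84, 92, 100, 108, 116, 124, 132, 140, 148, 36700161, 36700481],
  Vale.Agent.P032.Lt.q_of (e' := WQ031.e685) (by decide +kernel) WQ031.q685⟩

theorem w686 : Wx (EX xs7) Vale.Agent.P032X.Cert.X3.t1 (Vale.Agent.P032.Fam.fam3 Vale.Agent.P032.Fam.im0) WQ031.W686 := ⟨[0, 8, 16, 24, 32, 40, 48, 4, 12, 20, 28, 36, 44, 52, 60, 68, 76, 84, 92, 100, 108, 116, 124, 132, 140, 148, 156, 164, 172, 180, 188, 196, 204, 212, 128483369, 130023745, 69206593],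
  Vale.Agent.P032.Lt.q_of (e' := WQ031.e686) (by decide +kernel) WQ031.q686⟩

theorem w687 : Wx (EX xs7) Vale.Agent.P032X.Cert.X3.t1 (Vale.Agent.P032.Fam.fam3 Vale.Agent.P032.Fam.im0) WQ031.W687 := ⟨[0, 8, 16, 24, 32, 40, 48, 4, 12, 20, 28, 36, 44, 52, 60, 68, 76, 84, 92, 100, 108, 116, 124, 132, 140, 148, 156, 164, 40370177, 42467329, 6291929, 108527617, 130023489, 18874777, 12058777, 50184345, 61079961, 50184985, 18612225, 1376262, 1900550, 2949126],
  Vale.Agent.P032.Lt.q_of (e' := WQ031.e687) (by decide +kernel) WQ031.q687⟩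

theorem w688 : Wx (EX xs7) Vale.Agent.P032X.Cert.X3.t1 (Vale.Agent.P032.Fam.fam3 Vale.Agent.P032.Fam.im0) WQ031.W688 := ⟨[0, 8, 16, 24, 32, 40, 48, 4, 12, 20, 28, 36, 44, 52, 60, 68, 76, 84, 92, 100, 108, 116, 124, 132, 140, 148, 42745857, 2424838, 2949126],
  Vale.Agent.P032.Lt.q_of (e' := WQ031.e688) (by decide +kernel) WQ031.q688⟩

theorem w689 : Wx (EX xs7) Vale.Agent.P032X.Cert.X3.t1 (Vale.Agent.P032.Fam.fam3 Vale.Agent.P032.Fam.im0) WQ031.W689 := ⟨[0, 8, 16, 24, 32, 40, 48, 4, 12, 20, 28, 36, 44, 52, 60, 68, 76, 84, 92, 100, 108, 116, 124, 132, 140, 148, 156, 164, 172, 180, 188, 196, 67634649, 18808833, 67633305, 122686745, 36700377, 53510365, 133169153, 24920065, 100827201, 851974, 2424838, 2949126],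
  Vale.Agent.P032.Lt.q_of (e' := WQ031.e689) (by decide +kernel) WQ031.q689⟩

theorem w690 : Wx (EX xs7) Vale.Agent.P032X.Cert.X3.t1 (Vale.Agent.P032.Fam.fam3 Vale.Agent.P032.Fam.im0) WQ031.W690 := ⟨[0, 8, 16, 24, 32, 40, 48, 4, 12, 20, 28, 36, 44, 52, 60, 68, 76, 84, 92, 100, 108, 116, 124, 132, 140, 148, 156, 130023897, 36700249, 36700377, 69731233, 19398657, 17956865, 88873409, 2424838, 2949126],
  Vale.Agent.P032.Lt.q_of (e' := WQ031.e690) (by decide +kernel) WQ031.q690⟩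

theorem w691 : Wx (EX xs7) Vale.Agent.P032X.Cert.X3.t1 (Vale.Agent.P032.Fam.fam3 Vale.Agent.P032.Fam.im0) WQ031.W691 := ⟨[0, 8, 16, 24, 32, 40, 48, 4, 12, 20, 28, 36, 44, 52, 60, 68, 76, 84, 92, 100, 108, 116, 124, 132, 140, 148, 156, 164, 88869857, 55312385, 67633537, 51975713, 77791233, 61014489, 860166, 2424838, 2433030, 2949126],
  Vale.Agent.P032.Lt.q_of (e' := WQ031.e691) (by decide +kernel) WQ031.q691⟩

theorem w692 : Wx (EX xs7) Vale.Agent.P032X.Cert.X3.t1 (Vale.Agent.P032.Fam.fam3 Vale.Agent.P032.Fam.im0) WQ031.W692 := ⟨[0, 8, 16, 24, 32, 40, 48, 4, 12, 20, 28, 36, 44, 52, 60, 68, 76, 84, 92, 100, 108, 116, 124, 132, 140, 148, 156, 164, 172, 180, 188, 115998721, 48889857, 111870425, 19595265, 86704129, 131334553, 121373081, 28180481, 131727361, 54067673, 11681793, 65667073, 44761089, 53149697, 32112641, 278529, 44433409, 61079961, 67633177, 2424838, 2949126],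
  Vale.Agent.P032.Lt.q_of (e' := WQ031.e692) (by decide +kernel) WQ031.q692⟩

theorem w693 : Wx (EX xs7) Vale.Agent.P032X.Cert.X3.t1 (Vale.Agent.P032.Fam.fam3 Vale.Agent.P032.Fam.im0) WQ031.W693 := ⟨[0, 8, 16, 24, 32, 40, 48, 4, 12, 20, 28, 36, 44, 52, 60, 68, 76, 84, 92, 100, 108, 116, 124, 132, 140, 148, 156, 164, 172, 180, 188, 196, 67633177, 50184985, 128909785, 17321741, 124783721, 986893, 63213585, 124387801, 130318809, 7274969, 125698521, 67541225, 11290121, 85852369],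
  Vale.Agent.P032.Lt.q_of (e' := WQ031.e693) (by decide +kernel) WQ031.q693⟩

theorem w694 : Wx (EX xs7) Vale.Agent.P032X.Cert.X3.t1 (Vale.Agent.P032.Fam.fam3 Vale.Agent.P032.Fam.im0) WQ031.W694 := ⟨[0, 8, 16, 24, 32, 40, 48, 4, 12, 20, 28, 36, 44, 52, 60, 68, 76, 84, 92, 100, 108, 116, 124, 132, 140, 148, 156, 164, 172, 180, 188, 53510877, 50185369, 131334617, 131340801, 127762433, 12353945, 18874369, 108528025, 860166, 1900550, 1908742, 2949126],
  Vale.Agent.P032.Lt.q_of (e' := WQ031.e694) (by decide +kernel) WQ031.q694⟩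

theorem w695 : Wx (EX xs7) Vale.Agent.P032X.Cert.X3.t1 (Vale.Agent.P032.Fam.fam3 Vale.Agent.P032.Fam.im0) WQ031.W695 := ⟨[0, 8, 16, 24, 32, 40, 48, 4, 12, 20, 28, 36, 44, 52, 60, 68, 76, 84, 92, 100, 108, 116, 124, 132, 140, 148, 156, 164, 172, 180, 110624769, 2424838, 2949126],
  Vale.Agent.P032.Lt.q_of (e' := WQ031.e695) (by decide +kernel) WQ031.q695⟩

theorem w696 : Wx (EX xs7) Vale.Agent.P032X.Cert.X3.t1 (Vale.Agent.P032.Fam.fam3 Vale.Agent.P032.Fam.im0) WQ031.W696 := ⟨[0, 8, 16, 24, 32, 40, 48, 4, 12, 20, 28, 36, 44, 52, 60, 68, 76, 84, 92, 100, 108, 116, 124, 132, 140, 148, 156, 164, 172, 180, 18874777, 6291929, 119537665, 50184985, 50184345, 12058777, 61079961, 1900550, 2949126],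
  Vale.Agent.P032.Lt.q_of (e' := WQ031.e696) (by decide +kernel) WQ031.q696⟩

theorem w697 : Wx (EX xs7) Vale.Agent.P032X.Cert.X3.t1 (Vale.Agent.P032.Fam.fam3 Vale.Agent.P032.Fam.im0) WQ031.W697 := ⟨[0, 8, 16, 24, 32, 40, 48, 4, 12, 20, 28, 36, 44, 52, 60, 68, 76, 84, 92, 100, 108, 116, 124, 132, 140, 148, 156, 164, 172, 180, 188, 196, 204, 119537665, 61079961, 128483457, 53510221, 130023489],
  Vale.Agent.P032.Lt.q_of (e' := WQ031.e697) (by decide +kernel) WQ031.q697⟩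

theorem w698 : Wx (EX xs7) Vale.Agent.P032X.Cert.X3.t1 (Vale.Agent.P032.Fam.fam3 Vale.Agent.P032.Fam.im0) WQ031.W698 := ⟨[0, 8, 16, 24, 32, 40, 48, 4, 12, 20, 28, 36, 44, 52, 60, 68, 76, 84, 92, 100, 108, 116, 124, 132, 140, 148, 156, 164, 172, 180, 188, 196, 204, 212, 220, 55312857, 61145089, 122945945, 28311961, 97419265, 26214809, 78512537, 34079129, 19628441, 86737305, 89128961, 49102849, 128024985, 32326041, 6390169, 1327169],
  Vale.Agent.P032.Lt.q_of (e' := WQ031.e698) (by decide +kernel) WQ031.q698⟩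

theorem w699 : Wx (EX xs7) Vale.Agent.P032X.Cert.X3.t1 (Vale.Agent.P032.Fam.fam3 Vale.Agent.P032.Fam.im0) WQ032.W699 := ⟨[0, 8, 16, 24, 32, 40, 48, 4, 12, 20, 28, 36, 44, 52, 60, 68, 76, 84, 92, 100, 108, 116, 124, 132, 140, 148, 156, 164, 172, 180, 188, 196, 204, 212, 220, 228, 236, 244, 35061761, 69730881, 80084993, 113639425, 46535553, 110199321, 26312705, 43089921, 118587393, 48496705, 76644761, 9535897, 82051073, 1409030, 2424838],
  Vale.Agent.P032.Lt.q_of (e' := WQ032.e699) (by decide +kernel) WQ032.q699⟩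

def L : List (List ℕ) := [WQ027.W600, WQ027.W601, WQ027.W602, WQ027.W603, WQ027.W604, WQ027.W605, WQ027.W606, WQ027.W607, WQ027.W608, WQ027.W609, WQ028.W610, WQ029.W611, WQ029.W612, WQ029.W613, WQ029.W614, WQ029.W615, WQ029.W616, WQ029.W617, WQ029.W618, WQ029.W619, WQ029.W620, WQ029.W621, WQ029.W622, WQ029.W623, WQ029.W624, WQ029.W625, WQ029.W626, WQ029.W627, WQ029.W628, WQ029.W629, WQ029.W630, WQ029.W631, WQ029.W632, WQ029.W633, WQ029.W634, WQ029.W635, WQ029.W636, WQ029.W637, WQ029.W638, WQ029.W639, WQ030.W640, WQ030.W641, WQ030.W642, WQ030.W643, WQ030.W644, WQ030.W645, WQ030.W646, WQ030.W647, WQ030.W648, WQ030.W649, WQ030.W650, WQ030.W651, WQ030.W652, WQ030.W653, WQ030.W654, WQ030.W655, WQ030.W656, WQ030.W657, WQ030.W658, WQ030.W659, WQ030.W660, WQ030.W661, WQ030.W662, WQ030.W663, WQ030.W664, WQ030.W665, WQ030.W666, WQ030.W667, WQ030.W668, WQ030.W669, WQ030.W670, WQ030.W671, WQ031.W672, WQ031.W673, WQ031.W674,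 WQ031.W675, WQ031.W676, WQ031.W677, WQ031.W678, WQ031.W679, WQ031.W680, WQ031.W681, WQ031.W682, WQ031.W683, WQ031.W684, WQ031.W685, WQ031.W686, WQ031.W687, WQ031.W688, WQ031.W689, WQ031.W690, WQ031.W691, WQ031.W692, WQ031.W693, WQ031.W694, WQ031.W695, WQ031.W696, WQ031.W697, WQ031.W698, WQ032.W699]

theorem all : ∀ P ∈ L, Wx (EX xs7) Vale.Agent.P032X.Cert.X3.t1 (Vale.Agent.P032.Fam.fam3 Vale.Agent.P032.Fam.im0) P := wx_cons w600 (wx_cons w601 (wx_cons w602 (wx_cons w603 (wx_cons w604 (wx_cons w605 (wx_cons w606 (wx_cons w607 (wx_cons w608 (wx_cons w609 (wx_cons w610 (wx_cons w611 (wx_cons w612 (wx_cons w613 (wx_cons w614 (wx_cons w615 (wx_cons w616 (wx_cons w617 (wx_cons w618 (wx_cons w619 (wx_cons w620 (wx_cons w621 (wx_cons w622 (wx_cons w623 (wx_cons w624 (wx_cons w625 (wx_cons w626 (wx_cons w627 (wx_cons w628 (wx_cons w629 (wx_cons w630 (wx_cons w631 (wx_cons w632 (wx_cons w633 (wx_cons w634 (wx_cons w635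 (wx_cons w636 (wx_cons w637 (wx_cons w638 (wx_cons w639 (wx_cons w640 (wx_cons w641 (wx_cons w642 (wx_cons w643 (wx_cons w644 (wx_cons w645 (wx_cons w646 (wx_cons w647 (wx_cons w648 (wx_cons w649 (wx_cons w650 (wx_cons w651 (wx_cons w652 (wx_cons w653 (wx_cons w654 (wx_cons w655 (wx_cons w656 (wx_cons w657 (wx_cons w658 (wx_cons w659 (wx_cons w660 (wx_cons w661 (wx_cons w662 (wx_cons w663 (wx_cons w664 (wx_cons w665 (wx_cons w666 (wx_cons w667 (wx_cons w668 (wx_cons w669 (wx_cons w670 (wx_cons w671 (wx_cons w672 (wx_cons w673 (wx_cons w674 (wx_cons w675 (wx_cons w676 (wx_cons w677 (wx_cons w678 (wx_cons w679 (wx_cons w680 (wx_cons w681 (wx_cons w682 (wx_cons w683 (wx_cons w684 (wx_cons w685 (wx_cons w686 (wx_cons w687 (wx_cons w688 (wx_cons w689 (wx_cons w690 (wx_cons w691 (wx_cons w692 (wx_cons w693 (wx_cons w694 (wx_cons w695 (wx_cons w696 (wx_cons w697 (wx_cons w698 (wx_cons w699 wx_nil)))))))))))))))))))))))))))))))))))))))))))))))))))))))))))))))))))))))))))))))))))))))))))))))))))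

theorem ch : chT 73 73 TCm Vale.Agent.P032X.Cert.X3.W1.sW_006 L = true := by decide +kernel

end Vale.Agent.P032X.Cert.X3.W1.WH006
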