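import Vale.Agent.P032X.H892.LtH
import Vale.Agent.P032X.H286.A73
import Vale.Agent.P032X.Cert.X3.T1
import Vale.Agent.P032X.Cert.X3.W1.WT
import Vale.Agent.P032X.Cert.X3.W1.WQ033
import Vale.Agent.P032X.Cert.X3.W1.WQ034
import Vale.Agent.P032X.Cert.X3.W1.WQ035
import Vale.Agent.P032X.Cert.X3.W1.WQ036
import Vale.Agent.P032X.Cert.X3.W1.WQ037
import Vale.Agent.P032X.Cert.X3.W1.WQ038
import Vale.Agent.P032X.Cert.X3.W1.WQ039

set_option maxRecDepth 1000000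

namespace Vale.Agent.P032X.Cert.X3.W1.WH007

open Vale.Agent.P032.H820.K Vale.Agent.P032.H357.MK Vale.Agent.P032.H286.E Vale.Agent.P032.H61 Vale.Agent.P032.H61.TF Vale.Agent.P032.BlkE Vale.Agent.P032.BlkS Vale.Agent.P032.H357 Vale.Agent.P032 

theorem w700 : Wx (EX xs7) Vale.Agent.P032X.Cert.X3.t1 (Vale.Agent.P032.Fam.fam3 Vale.Agent.P032.Fam.im0) WQ033.W700 := ⟨[0, 8, 16, 24, 32, 40, 48, 4, 12, 20, 28, 36, 44, 52, 60, 68, 76, 84, 92, 100, 108, 116, 124, 132, 140, 148, 156, 164, 172, 180, 188, 94601345, 63504449, 21823489, 88342529, 76287121, 46535553, 38010881, 105120153, 105054617, 113639425, 101581209],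
  Vale.Agent.P032.Lt.q_of (e' := WQ033.e700) (by decide +kernel) WQ033.q700⟩

theorem w701 : Wx (EX xs7) Vale.Agent.P032X.Cert.X3.t1 (Vale.Agent.P032.Fam.fam3 Vale.Agent.P032.Fam.im0) WQ033.W701 := ⟨[0, 8, 16, 24, 32, 40, 48, 4, 12, 20, 28, 36, 44, 52, 60, 68, 76, 84, 92, 100, 108, 116, 124, 132, 140, 148, 156, 164, 172, 180, 188, 196, 204, 212, 220, 228, 43139537, 5508497, 46203341, 5508561, 83689473, 130023617, 96927809, 1900550, 2949126],
  Vale.Agent.P032.Lt.q_of (e' := WQ033.e701) (by decide +kernel) WQ033.q701⟩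

theorem w702 : Wx (EX xs7) Vale.Agent.P032X.Cert.X3.t1 (Vale.Agent.P032.Fam.fam3 Vale.Agent.P032.Fam.im0) WQ033.W702 := ⟨[0, 8, 16, 24, 32, 40, 48, 4, 12, 20, 28, 36, 44, 52, 60, 68, 76, 84, 92, 100, 108, 116, 124, 132, 140, 148, 156, 164, 172, 180, 188, 196, 204, 108527617, 91128217],
  Vale.Agent.P032.Lt.q_of (e' := WQ033.e702) (by decide +kernel) WQ033.q702⟩

theorem w703 : Wx (EX xs7) Vale.Agent.P032X.Cert.X3.t1 (Vale.Agent.P032.Fam.fam3 Vale.Agent.P032.Fam.im0) WQ033.W703 := ⟨[0, 8, 16, 24, 32, 40, 48, 4, 12, 20, 28, 36, 44, 52, 60, 68, 76, 84, 92, 100, 108, 116, 124, 132, 140, 148, 156, 164, 172, 180, 188, 196, 204, 212, 220, 228, 236, 244, 252, 260, 268, 276, 284, 292, 300, 308, 316, 324, 332, 340, 348, 50184345, 92803841, 35061825, 12058777, 89555417, 89555353, 92803929, 79167553, 50184705, 61145089, 56000513, 29426073, 69795905, 2687385, 113312153, 37224513, 82837913, 63504793, 5259737, 98697281,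 132251713, 4604377, 15368257, 64520665, 2459393, 65437761, 38158401, 119570497, 23740889, 14057945, 68583897, 102138329, 35029465, 8012185, 36848089, 39026689, 79167489, 60850649, 18874433, 79167897, 18874841, 108528089, 6291457, 106335437, 63504385, 35062233, 37224921, 79167961, 119570905, 64520257, 4603969, 2460953, 65438169, 38158809, 132252121, 20726233, 29425665, 69796313, 113311745, 56000921, 2686977, 11010073, 82837505, 15368665, 98697689, 14057537, 68583489, 23740481, 35029057, 102137921, 8011777, 36847681, 39027097, 60850241, 12059137, 20725825, 11010049, 18874369, 18874777, 108528025, 6291929, 50184985, 50185089, 851974, 1384454, 1900550, 2949126],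
  Vale.Agent.P032.Lt.q_of (e' := WQ033.e703) (by decide +kernel) WQ033.q703⟩

theorem w704 : Wx (EX xs7) Vale.Agent.P032X.Cert.X3.t1 (Vale.Agent.P032.Fam.fam3 Vale.Agent.P032.Fam.im0) WQ033.W704 := ⟨[0, 8, 16, 24, 32, 40, 48, 4, 12, 20, 28, 36, 44, 52, 60, 68, 76, 84, 92, 100, 108, 116, 124, 132, 140, 148, 156, 164, 172, 180, 188, 196, 50334809, 83889177, 112951297, 61210625, 327686, 851974, 1376262, 1900550, 2949126],
  Vale.Agent.P032.Lt.q_of (e' := WQ033.e704) (by decide +kernel) WQ033.q704⟩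

theorem w705 : Wx (EX xs7) Vale.Agent.P032X.Cert.X3.t1 (Vale.Agent.P032.Fam.fam3 Vale.Agent.P032.Fam.im0) WQ033.W705 := ⟨[0, 8, 16, 24, 32, 40, 48, 4, 12, 20, 28, 36, 44, 52, 60, 68, 76, 84, 92, 100, 108, 116, 124, 132, 140, 148, 156, 164, 172, 180, 188, 22282241, 26476609, 26476545, 78905345, 34177345, 60030977, 101285889, 71008257, 17399809, 63182545, 4816897, 3899393, 25018369, 42729473],
  Vale.Agent.P032.Lt.q_of (e' := WQ033.e705) (by decide +kernel) WQ033.q705⟩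

theorem w706 : Wx (EX xs7) Vale.Agent.P032X.Cert.X3.t1 (Vale.Agent.P032.Fam.fam3 Vale.Agent.P032.Fam.im0) WQ033.W706 := ⟨[0, 8, 16, 24, 32, 40, 48, 4, 12, 20, 28, 36, 44, 52, 60, 68, 76, 84, 92, 100, 108, 116, 124, 132, 140, 148, 156, 164, 172, 180, 188, 196, 85626265, 327686, 851974, 1900550, 1908742, 2441222, 2949126],
  Vale.Agent.P032.Lt.q_of (e' := WQ033.e706) (by decide +kernel) WQ033.q706⟩

theorem w707 : Wx (EX xs7) Vale.Agent.P032X.Cert.X3.t1 (Vale.Agent.P032.Fam.fam3 Vale.Agent.P032.Fam.im0) WQ033.W707 := ⟨[0, 8, 16, 24, 32, 40, 48, 4, 12, 20, 28, 36, 44, 52, 60, 68, 76, 84, 92, 100, 108, 116, 124, 132, 140, 148, 156, 164, 172, 180, 188, 196, 204, 102760705, 119668801, 36700249, 124813529, 327686, 851974, 2424838, 2949126],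
  Vale.Agent.P032.Lt.q_of (e' := WQ033.e707) (by decide +kernel) WQ033.q707⟩

theorem w708 : Wx (EX xs7) Vale.Agent.P032X.Cert.X3.t1 (Vale.Agent.P032.Fam.fam3 Vale.Agent.P032.Fam.im0) WQ033.W708 := ⟨[0, 8, 16, 24, 32, 40, 48, 4, 12, 20, 28, 36, 44, 52, 60, 68, 76, 84, 92, 100, 108, 116, 124, 132, 140, 148, 156, 164, 172, 180, 188, 196, 204, 69730401, 21168257, 69730593, 21168321, 327686, 851974, 1900550, 2949126],
  Vale.Agent.P032.Lt.q_of (e' := WQ033.e708) (by decide +kernel) WQ033.q708⟩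

theorem w709 : Wx (EX xs7) Vale.Agent.P032X.Cert.X3.t1 (Vale.Agent.P032.Fam.fam3 Vale.Agent.P032.Fam.im0) WQ033.W709 := ⟨[0, 8, 16, 24, 32, 40, 48, 4, 12, 20, 28, 36, 44, 52, 60, 68, 76, 84, 92, 100, 108, 116, 124, 132, 140, 148, 156, 164, 172, 180, 188, 196, 204, 212, 220, 228, 236, 244, 252, 260, 268, 33292697, 55312385, 28311553, 75169793, 31211929, 59441561, 126550017, 47841689, 125469081, 58999193, 45744537, 38027673, 104464793, 25444761, 37355521, 129630617, 62521753, 368646, 851974, 1900550, 2949126],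
  Vale.Agent.P032.Lt.q_of (e' := WQ033.e709) (by decide +kernel) WQ033.q709⟩

theorem w710 : Wx (EX xs7) Vale.Agent.P032X.Cert.X3.t1 (Vale.Agent.P032.Fam.fam3 Vale.Agent.P032.Fam.im0) WQ033.W710 := ⟨[0, 8, 16, 24, 32, 40, 48, 4, 12, 20, 28, 36, 44, 52, 60, 68, 76, 84, 92, 100, 108, 116, 124, 132, 140, 148, 156, 164, 5409305, 10371137, 57409537, 327686, 851974, 1900550, 2949126],
  Vale.Agent.P032.Lt.q_of (e' := WQ033.e710) (by decide +kernel) WQ033.q710⟩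

theorem w711 : Wx (EX xs7) Vale.Agent.P032X.Cert.X3.t1 (Vale.Agent.P032.Fam.fam3 Vale.Agent.P032.Fam.im0) WQ033.W711 := ⟨[0, 8, 16, 24, 32, 40, 48, 4, 12, 20, 28, 36, 44, 52, 60, 68, 76, 84, 92, 100, 108, 116, 124, 132, 140, 148, 156, 164, 172, 180, 188, 196, 204, 25018433, 92405825, 1900550, 2949126],
  Vale.Agent.P032.Lt.q_of (e' := WQ033.e711) (by decide +kernel) WQ033.q711⟩

theorem w712 : Wx (EX xs7) Vale.Agent.P032X.Cert.X3.t1 (Vale.Agent.P032.Fam.fam3 Vale.Agent.P032.Fam.im0) WQ033.W712 := ⟨[0, 8, 16, 24, 32, 40, 48, 4, 12, 20, 28, 36, 44, 52, 60, 68, 76, 84, 92, 100, 108, 116, 124, 132, 140, 148, 156, 164, 172, 180, 188, 196, 126881177, 60293121, 130023553, 127408601, 61345177, 103288217, 8388609, 10371137, 10485825, 94670297, 94309785, 327686, 851974, 1900550, 2457606, 2949126],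
  Vale.Agent.P032.Lt.q_of (e' := WQ033.e712) (by decide +kernel) WQ033.q712⟩

theorem w713 : Wx (EX xs7) Vale.Agent.P032X.Cert.X3.t1 (Vale.Agent.P032.Fam.fam3 Vale.Agent.P032.Fam.im0) WQ033.W713 := ⟨[0, 8, 16, 24, 32, 40, 48, 4, 12, 20, 28, 36, 44, 52, 60, 68, 76, 84, 92, 100, 108, 116, 124, 132, 140, 148, 156, 164, 172, 180, 188, 196, 204, 212, 88874065, 124292505, 69730513, 327686, 2949126],
  Vale.Agent.P032.Lt.q_of (e' := WQ033.e713) (by decide +kernel) WQ033.q713⟩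

theorem w714 : Wx (EX xs7) Vale.Agent.P032X.Cert.X3.t1 (Vale.Agent.P032.Fam.fam3 Vale.Agent.P032.Fam.im0) WQ033.W714 := ⟨[0, 8, 16, 24, 32, 40, 48, 4, 12, 20, 28, 36, 44, 52, 60, 68, 76, 84, 92, 100, 108, 116, 124, 132, 140, 148, 156, 164, 172, 180, 188, 196, 126877697, 99093977, 36786721, 65732609, 107089305, 54919169, 10161561, 1769537, 107089369, 99287169, 5409305, 123735065, 105742337, 25021849, 327686, 851974, 1900550, 2949126],
  Vale.Agent.P032.Lt.q_of (e' := WQ033.e714) (by decide +kernel) WQ033.q714⟩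

theorem w715 : Wx (EX xs7) Vale.Agent.P032X.Cert.X3.t1 (Vale.Agent.P032.Fam.fam3 Vale.Agent.P032.Fam.im0) WQ033.W715 := ⟨[0, 8, 16, 24, 32, 40, 48, 4, 12, 20, 28, 36, 44, 52, 60, 68, 76, 84, 92, 100, 108, 116, 124, 132, 140, 148, 156, 164, 172, 180, 188, 196, 204, 212, 78512129, 31457489, 20709441, 6832193, 87818305, 54263873, 130449817, 11010137, 11010713, 67633241, 1376262, 2949126, 2981894],
  Vale.Agent.P032.Lt.q_of (e' := WQ033.e715) (by decide +kernel) WQ033.q715⟩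

theorem w716 : Wx (EX xs7) Vale.Agent.P032X.Cert.X3.t1 (Vale.Agent.P032.Fam.fam3 Vale.Agent.P032.Fam.im0) WQ033.W716 := ⟨[0, 8, 16, 24, 32, 40, 48, 4, 12, 20, 28, 36, 44, 52, 60, 68, 76, 84, 92, 100, 108, 116, 124, 132, 140, 148, 53514177, 69734469],
  Vale.Agent.P032.Lt.q_of (e' := WQ033.e716) (by decide +kernel) WQ033.q716⟩

theorem w717 : Wx (EX xs7) Vale.Agent.P032X.Cert.X3.t1 (Vale.Agent.P032.Fam.fam3 Vale.Agent.P032.Fam.im0) WQ033.W717 := ⟨[0, 8, 16, 24, 32, 40, 48, 4, 12, 20, 28, 36, 44, 52, 60, 68, 76, 84, 92, 100, 108, 116, 124, 132, 140, 148, 156, 164, 172, 180, 188, 196, 204, 212, 220, 228, 132743193, 14503325],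
  Vale.Agent.P032.Lt.q_of (e' := WQ033.e717) (by decide +kernel) WQ033.q717⟩

theorem w718 : Wx (EX xs7) Vale.Agent.P032X.Cert.X3.t1 (Vale.Agent.P032.Fam.fam3 Vale.Agent.P032.Fam.im0) WQ033.W718 := ⟨[0, 8, 16, 24, 32, 40, 48, 4, 12, 20, 28, 36, 44, 52, 60, 68, 76, 84, 92, 100, 108, 116, 124, 132, 140, 148, 156, 164, 172, 180, 123240449, 2574245, 35620773, 21433817, 97553637, 51283877, 10454949, 130712677, 44009381],
  Vale.Agent.P032.Lt.q_of (e' := WQ033.e718) (by decide +kernel) WQ033.q718⟩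

theorem w719 : Wx (EX xs7) Vale.Agent.P032X.Cert.X3.t1 (Vale.Agent.P032.Fam.fam3 Vale.Agent.P032.Fam.im0) WQ033.W719 := ⟨[0, 8, 16, 24, 32, 40, 48, 4, 12, 20, 28, 36, 44, 52, 60, 68, 76, 84, 92, 100, 108, 116, 124, 132, 140, 148, 156, 164, 172, 180, 124882533, 26744769, 45289473, 112397889, 11999105, 335878, 1376262, 1900550, 1908742, 2424838, 2433030],
  Vale.Agent.P032.Lt.q_of (e' := WQ033.e719) (by decide +kernel) WQ033.q719⟩

theorem w720 : Wx (EX xs7) Vale.Agent.P032X.Cert.X3.t1 (Vale.Agent.P032.Fam.fam3 Vale.Agent.P032.Fam.im0) WQ033.W720 := ⟨[0, 8, 16, 24, 32, 40, 48, 4, 12, 20, 28, 36, 44, 52, 60, 68, 76, 84, 92, 100, 64782337, 1376262],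
  Vale.Agent.P032.Lt.q_of (e' := WQ033.e720) (by decide +kernel) WQ033.q720⟩

theorem w721 : Wx (EX xs7) Vale.Agent.P032X.Cert.X3.t1 (Vale.Agent.P032.Fam.fam3 Vale.Agent.P032.Fam.im0) WQ033.W721 := ⟨[0, 8, 16, 24, 32, 40, 48, 4, 12, 20, 28, 36, 44, 52, 60, 68, 76, 84, 92, 100, 108, 116, 124, 132, 140, 148, 156, 164, 172, 17957401, 28311961, 48955393, 27017625, 67665921, 79462809, 42221977, 45908377, 41566209, 20725825, 121241601, 68517889, 1900550, 2949126],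
  Vale.Agent.P032.Lt.q_of (e' := WQ033.e721) (by decide +kernel) WQ033.q721⟩

theorem w722 : Wx (EX xs7) Vale.Agent.P032X.Cert.X3.t1 (Vale.Agent.P032.Fam.fam3 Vale.Agent.P032.Fam.im0) WQ033.W722 := ⟨[0, 8, 16, 24, 32, 40, 48, 4, 12, 20, 28, 36, 44, 52, 60, 68, 76, 84, 92, 100, 108, 116, 124, 132, 140, 11042817, 44597721, 120094721, 78152153],
  Vale.Agent.P032.Lt.q_of (e' := WQ033.e722) (by decide +kernel) WQ033.q722⟩

theorem w723 : Wx (EX xs7) Vale.Agent.P032X.Cert.X3.t1 (Vale.Agent.P032.Fam.fam3 Vale.Agent.P032.Fam.im0) WQ033.W723 := ⟨[0, 8, 16, 24, 32, 40, 48, 4, 12, 20, 28, 36, 44, 52, 60, 68, 76, 84, 92, 100, 108, 116, 124, 132, 140, 148, 156, 164, 172, 180, 188, 196, 100860313, 37502977, 121536921, 3948953, 61079553, 18874369, 1376262, 2424838, 2949126],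
  Vale.Agent.P032.Lt.q_of (e' := WQ033.e723) (by decide +kernel) WQ033.q723⟩

theorem w724 : Wx (EX xs7) Vale.Agent.P032X.Cert.X3.t1 (Vale.Agent.P032.Fam.fam3 Vale.Agent.P032.Fam.im0) WQ033.W724 := ⟨[0, 8, 16, 24, 32, 40, 48, 4, 12, 20, 28, 36, 44, 52, 60, 68, 76, 84, 92, 100, 108, 116, 124, 132, 12141021, 12140545],
  Vale.Agent.P032.Lt.q_of (e' := WQ033.e724) (by decide +kernel) WQ033.q724⟩

theorem w725 : Wx (EX xs7) Vale.Agent.P032X.Cert.X3.t1 (Vale.Agent.P032.Fam.fam3 Vale.Agent.P032.Fam.im0) WQ033.W725 := ⟨[0, 8, 16, 24, 32, 40, 48, 4, 12, 20, 28, 36, 44, 52, 60, 68, 76, 84, 92, 100, 108, 116, 124, 132, 140, 148, 19661145, 53215233, 82411521, 10551297, 48857089, 14237697, 67862529, 34308097, 101416961, 1376262, 1384454, 1900550, 1908742, 2424838, 2433030, 2957318],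
  Vale.Agent.P032.Lt.q_of (e' := WQ033.e725) (by decide +kernel) WQ033.q725⟩

theorem w726 : Wx (EX xs7) Vale.Agent.P032X.Cert.X3.t1 (Vale.Agent.P032.Fam.fam3 Vale.Agent.P032.Fam.im0) WQ033.W726 := ⟨[0, 8, 16, 24, 32, 40, 48, 4, 12, 20, 28, 36, 44, 52, 60, 68, 76, 84, 92, 100, 108, 116, 124, 132, 109184321, 25298137, 53740761, 109182977, 25297241, 53739865, 368646, 851974, 1376262, 1900550, 2424838],
  Vale.Agent.P032.Lt.q_of (e' := WQ033.e726) (by decide +kernel) WQ033.q726⟩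

theorem w727 : Wx (EX xs7) Vale.Agent.P032X.Cert.X3.t1 (Vale.Agent.P032.Fam.fam3 Vale.Agent.P032.Fam.im0) WQ033.W727 := ⟨[0, 8, 16, 24, 32, 40, 48, 4, 12, 20, 28, 36, 44, 52, 60, 68, 76, 84, 92, 100, 108, 116, 124, 132, 140, 148, 156, 112820225, 92438873, 860166, 1900550, 2433030, 2957318],
  Vale.Agent.P032.Lt.q_of (e' := WQ033.e727) (by decide +kernel) WQ033.q727⟩

theorem w728 : Wx (EX xs7) Vale.Agent.P032X.Cert.X3.t1 (Vale.Agent.P032.Fam.fam3 Vale.Agent.P032.Fam.im0) WQ033.W728 := ⟨[0, 8, 16, 24, 32, 40, 48, 4, 12, 20, 28, 36, 44, 52, 60, 68, 76, 84, 92, 100, 108, 116, 124, 132, 140, 148, 109182977, 32063489, 49381377, 129269761, 64372737, 62160897, 74743809, 112492545, 28606465, 7634945, 41189377, 95715393],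
  Vale.Agent.P032.Lt.q_of (e' := WQ033.e728) (by decide +kernel) WQ033.q728⟩

theorem w729 : Wx (EX xs7) Vale.Agent.P032X.Cert.X3.t1 (Vale.Agent.P032.Fam.fam3 Vale.Agent.P032.Fam.im0) WQ033.W729 := ⟨[0, 8, 16, 24, 32, 40, 48, 4, 12, 20, 28, 36, 44, 52, 60, 68, 76, 84, 92, 100, 108, 116, 124, 128188417, 860166, 1376262, 1384454, 1900550, 2433030, 2957318],
  Vale.Agent.P032.Lt.q_of (e' := WQ033.e729) (by decide +kernel) WQ033.q729⟩

theorem w730 : Wx (EX xs7) Vale.Agent.P032X.Cert.X3.t1 (Vale.Agent.P032.Fam.fam3 Vale.Agent.P032.Fam.im0) WQ034.W730 := ⟨[0, 8, 16, 24, 32, 40, 48, 4, 12, 20, 28, 36, 44, 52, 60, 68, 76, 84, 92, 100, 108, 116, 124, 132, 140, 148, 70254593, 860166, 868358, 1376262, 1900550, 1908742, 1941510, 2424838, 2433030, 2990086],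
  Vale.Agent.P032.Lt.q_of (e' := WQ034.e730) (by decide +kernel) WQ034.q730⟩

theorem w731 : Wx (EX xs7) Vale.Agent.P032X.Cert.X3.t1 (Vale.Agent.P032.Fam.fam3 Vale.Agent.P032.Fam.im0) WQ034.W731 := ⟨[0, 8, 16, 24, 32, 40, 48, 4, 12, 20, 28, 36, 44, 52, 60, 68, 76, 84, 92, 100, 108, 116, 124, 132, 140, 148, 156, 164, 36700377, 36700249, 84574401, 17465473, 51019777, 851974, 2424838, 2949126],
  Vale.Agent.P032.Lt.q_of (e' := WQ034.e731) (by decide +kernel) WQ034.q731⟩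

theorem w732 : Wx (EX xs7) Vale.Agent.P032X.Cert.X3.t1 (Vale.Agent.P032.Fam.fam3 Vale.Agent.P032.Fam.im0) WQ034.W732 := ⟨[0, 8, 16, 24, 32, 40, 48, 4, 12, 20, 28, 36, 44, 52, 60, 68, 76, 84, 92, 100, 108, 116, 124, 132, 50184577, 19661145, 53215233, 109182977, 34963481],
  Vale.Agent.P032.Lt.q_of (e' := WQ034.e732) (by decide +kernel) WQ034.q732⟩

theorem w733 : Wx (EX xs7) Vale.Agent.P032X.Cert.X3.t1 (Vale.Agent.P032.Fam.fam3 Vale.Agent.P032.Fam.im0) WQ034.W733 := ⟨[0, 8, 16, 24, 32, 40, 48, 4, 12, 20, 28, 36, 44, 52, 60, 68, 76, 84, 92, 100, 108, 116, 90308609],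
  Vale.Agent.P032.Lt.q_of (e' := WQ034.e733) (by decide +kernel) WQ034.q733⟩

theorem w734 : Wx (EX xs7) Vale.Agent.P032X.Cert.X3.t1 (Vale.Agent.P032.Fam.fam3 Vale.Agent.P032.Fam.im0) WQ034.W734 := ⟨[0, 8, 16, 24, 32, 40, 48, 4, 12, 20, 28, 36, 44, 52, 60, 68, 76, 84, 92, 100, 108, 116, 124, 132, 140, 148, 119046145, 31785433, 335878, 860166, 1900550, 2424838, 2433030],
  Vale.Agent.P032.Lt.q_of (e' := WQ034.e734) (by decide +kernel) WQ034.q734⟩

theorem w735 : Wx (EX xs7) Vale.Agent.P032X.Cert.X3.t1 (Vale.Agent.P032.Fam.fam3 Vale.Agent.P032.Fam.im0) WQ034.W735 := ⟨[0, 8, 16, 24, 32, 40, 48, 4, 12, 20, 28, 36, 44, 52, 60, 68, 76, 84, 92, 100, 108, 116, 124, 132, 140, 148, 156, 164, 172, 180, 92275353, 98894297, 31784961],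
  Vale.Agent.P032.Lt.q_of (e' := WQ034.e735) (by decide +kernel) WQ034.q735⟩

theorem w736 : Wx (EX xs7) Vale.Agent.P032X.Cert.X3.t1 (Vale.Agent.P032.Fam.fam3 Vale.Agent.P032.Fam.im0) WQ034.W736 := ⟨[0, 8, 16, 24, 32, 40, 48, 4, 12, 20, 28, 36, 44, 52, 60, 68, 76, 84, 92, 100, 108, 116, 124, 132, 140, 148, 156, 164, 172, 180, 188, 196, 37224857, 53510357, 118292481, 53510629, 20316865, 115081281, 8683929, 133202329, 110985625, 31457793, 14713241, 25821185, 27099545, 56426497, 19939329, 88801281, 39518617, 106627073, 15876505, 20709785, 75792449, 132382785, 68419649, 1310721, 63340953, 120225793, 94208001, 60653977, 10059841, 50185089, 67633537],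
  Vale.Agent.P032.Lt.q_of (e' := WQ034.e736) (by decide +kernel) WQ034.q736⟩

theorem w737 : Wx (EX xs7) Vale.Agent.P032X.Cert.X3.t1 (Vale.Agent.P032.Fam.fam3 Vale.Agent.P032.Fam.im0) WQ034.W737 := ⟨[0, 8, 16, 24, 32, 40, 48, 4, 12, 20, 28, 36, 44, 52, 60, 68, 76, 84, 92, 100, 108, 116, 124, 132, 140, 148, 156, 164, 172, 39207065, 69961741, 1900550, 2424838, 2433030],
  Vale.Agent.P032.Lt.q_of (e' := WQ034.e737) (by decide +kernel) WQ034.q737⟩

theorem w738 : Wx (EX xs7) Vale.Agent.P032X.Cert.X3.t1 (Vale.Agent.P032.Fam.fam3 Vale.Agent.P032.Fam.im0) WQ034.W738 := ⟨[0, 8, 16, 24, 32, 40, 48, 4, 12, 20, 28, 36, 44, 52, 60, 68, 76, 84, 92, 100, 108, 116, 124, 132, 23347201],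
  Vale.Agent.P032.Lt.q_of (e' := WQ034.e738) (by decide +kernel) WQ034.q738⟩

theorem w739 : Wx (EX xs7) Vale.Agent.P032X.Cert.X3.t1 (Vale.Agent.P032.Fam.fam3 Vale.Agent.P032.Fam.im0) WQ034.W739 := ⟨[0, 8, 16, 24, 32, 40, 48, 4, 12, 20, 28, 36, 44, 52, 60, 68, 76, 84, 92, 100, 108, 116, 124, 80216065, 819329],
  Vale.Agent.P032.Lt.q_of (e' := WQ034.e739) (by decide +kernel) WQ034.q739⟩

theorem w740 : Wx (EX xs7) Vale.Agent.P032X.Cert.X3.t1 (Vale.Agent.P032.Fam.fam3 Vale.Agent.P032.Fam.im0) WQ034.W740 := ⟨[0, 8, 16, 24, 32, 40, 48, 4, 12, 20, 28, 36, 44, 52, 60, 68, 76, 84, 92, 100, 108, 116, 124, 132, 140, 148, 156, 24920193, 122688281, 36700249, 54657089, 85884929, 2424838, 2949126],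
  Vale.Agent.P032.Lt.q_of (e' := WQ034.e740) (by decide +kernel) WQ034.q740⟩

theorem w741 : Wx (EX xs7) Vale.Agent.P032X.Cert.X3.t1 (Vale.Agent.P032.Fam.fam3 Vale.Agent.P032.Fam.im0) WQ034.W741 := ⟨[0, 8, 16, 24, 32, 40, 48, 4, 12, 20, 28, 36, 44, 52, 60, 68, 76, 84, 92, 100, 108, 116, 124, 132, 94437377, 1900550, 2424838],
  Vale.Agent.P032.Lt.q_of (e' := WQ034.e741) (by decide +kernel) WQ034.q741⟩

theorem w742 : Wx (EX xs7) Vale.Agent.P032X.Cert.X3.t1 (Vale.Agent.P032.Fam.fam3 Vale.Agent.P032.Fam.im0) WQ034.W742 := ⟨[0, 8, 16, 24, 32, 40, 48, 4, 12, 20, 28, 36, 44, 52, 60, 68, 76, 84, 92, 100, 108, 116, 53514049, 58884097, 29789581, 1376262, 1417222, 1900550],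
  Vale.Agent.P032.Lt.q_of (e' := WQ034.e742) (by decide +kernel) WQ034.q742⟩

theorem w743 : Wx (EX xs7) Vale.Agent.P032X.Cert.X3.t1 (Vale.Agent.P032.Fam.fam3 Vale.Agent.P032.Fam.im0) WQ034.W743 := ⟨[0, 8, 16, 24, 32, 40, 48, 4, 12, 20, 28, 36, 44, 52, 60, 68, 76, 84, 92, 100, 108, 116, 124, 26706201, 5734465, 1376262, 2424838, 2433030, 2957318],
  Vale.Agent.P032.Lt.q_of (e' := WQ034.e743) (by decide +kernel) WQ034.q743⟩

theorem w744 : Wx (EX xs7) Vale.Agent.P032X.Cert.X3.t1 (Vale.Agent.P032.Fam.fam3 Vale.Agent.P032.Fam.im0) WQ034.W744 := ⟨[0, 8, 16, 24, 32, 40, 48, 4, 12, 20, 28, 36, 44, 52, 60, 68, 76, 84, 92, 100, 108, 116, 124, 132, 140, 148, 156, 164, 172, 180, 122227801],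
  Vale.Agent.P032.Lt.q_of (e' := WQ034.e744) (by decide +kernel) WQ034.q744⟩

theorem w745 : Wx (EX xs7) Vale.Agent.P032X.Cert.X3.t1 (Vale.Agent.P032.Fam.fam3 Vale.Agent.P032.Fam.im0) WQ034.W745 := ⟨[0, 8, 16, 24, 32, 40, 48, 4, 12, 20, 28, 36, 44, 52, 60, 68, 76, 84, 92, 100, 108, 116, 124, 132, 44123033, 104431769],
  Vale.Agent.P032.Lt.q_of (e' := WQ034.e745) (by decide +kernel) WQ034.q745⟩

theorem w746 : Wx (EX xs7) Vale.Agent.P032X.Cert.X3.t1 (Vale.Agent.P032.Fam.fam3 Vale.Agent.P032.Fam.im0) WQ035.W746 := ⟨[0, 8, 16, 24, 32, 40, 48, 4, 12, 20, 28, 36, 44, 52, 60, 68, 76, 84, 92, 100, 108, 116, 124, 132, 140, 148, 156, 164, 172, 180, 188, 196, 204, 29196441],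
  Vale.Agent.P032.Lt.q_of (e' := WQ035.e746) (by decide +kernel) WQ035.q746⟩

theorem w747 : Wx (EX xs7) Vale.Agent.P032X.Cert.X3.t1 (Vale.Agent.P032.Fam.fam3 Vale.Agent.P032.Fam.im0) WQ035.W747 := ⟨[0, 8, 16, 24, 32, 40, 48, 4, 12, 20, 28, 36, 44, 52, 60, 68, 76, 84, 92, 100, 108, 116, 121639809, 12582913, 54525953, 57050433, 335878, 1376262, 2424838, 2949126],
  Vale.Agent.P032.Lt.q_of (e' := WQ035.e747) (by decide +kernel) WQ035.q747⟩

theorem w748 : Wx (EX xs7) Vale.Agent.P032X.Cert.X3.t1 (Vale.Agent.P032.Fam.fam3 Vale.Agent.P032.Fam.im0) WQ035.W748 := ⟨[0, 8, 16, 24, 32, 40, 48, 4, 12, 20, 28, 36, 44, 52, 60, 68, 76, 84, 92, 100, 108, 116, 127729665, 60621273, 335878, 860166, 1376262, 1384454, 1900550, 2433030, 2949126, 2957318],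
  Vale.Agent.P032.Lt.q_of (e' := WQ035.e748) (by decide +kernel) WQ035.q748⟩

theorem w749 : Wx (EX xs7) Vale.Agent.P032X.Cert.X3.t1 (Vale.Agent.P032.Fam.fam3 Vale.Agent.P032.Fam.im0) WQ035.W749 := ⟨[0, 8, 16, 24, 32, 40, 48, 4, 12, 20, 28, 36, 44, 52, 60, 68, 76, 84, 92, 100, 108, 116, 92274689, 335878, 860166, 1900550, 2424838, 2433030, 2957318],
  Vale.Agent.P032.Lt.q_of (e' := WQ035.e749) (by decide +kernel) WQ035.q749⟩

theorem w750 : Wx (EX xs7) Vale.Agent.P032X.Cert.X3.t1 (Vale.Agent.P032.Fam.fam3 Vale.Agent.P032.Fam.im0) WQ035.W750 := ⟨[0, 8, 16, 24, 32, 40, 48, 4, 12, 20, 28, 36, 44, 52, 60, 68, 76, 84, 92, 100, 108, 116, 124, 132, 140, 148, 156, 164, 172, 128385113],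
  Vale.Agent.P032.Lt.q_of (e' := WQ035.e750) (by decide +kernel) WQ035.q750⟩

theorem w751 : Wx (EX xs7) Vale.Agent.P032X.Cert.X3.t1 (Vale.Agent.P032.Fam.fam3 Vale.Agent.P032.Fam.im0) WQ035.W751 := ⟨[0, 8, 16, 24, 32, 40, 48, 4, 12, 20, 28, 36, 44, 52, 60, 68, 76, 84, 92, 100, 108, 116, 124, 92995865, 1376262, 2424838],
  Vale.Agent.P032.Lt.q_of (e' := WQ035.e751) (by decide +kernel) WQ035.q751⟩

theorem w752 : Wx (EX xs7) Vale.Agent.P032X.Cert.X3.t1 (Vale.Agent.P032.Fam.fam3 Vale.Agent.P032.Fam.im0) WQ035.W752 := ⟨[0, 8, 16, 24, 32, 40, 48, 4, 12, 20, 28, 36, 44, 52, 60, 68, 76, 84, 92, 100, 108, 116, 124, 132, 54299677, 54299741, 54299653],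
  Vale.Agent.P032.Lt.q_of (e' := WQ035.e752) (by decide +kernel) WQ035.q752⟩

theorem w753 : Wx (EX xs7) Vale.Agent.P032X.Cert.X3.t1 (Vale.Agent.P032.Fam.fam3 Vale.Agent.P032.Fam.im0) WQ035.W753 := ⟨[0, 8, 16, 24, 32, 40, 48, 4, 12, 20, 28, 36, 44, 52, 60, 68, 76, 84, 92, 100, 108, 116, 124, 132, 140, 148, 156, 164, 172, 180, 188, 196, 77693401, 125080217, 9519577, 62554585, 66486745, 51281921, 68059609, 62554113, 9519105, 40992769, 108101633, 76448217, 76447745, 59670529, 110002177, 118391257, 116818393, 100041177, 126779865, 5325273, 9339353, 38879233, 26116569, 133595609, 93224961, 59850753, 38879705, 26116097, 110002649, 5144577, 5145049, 42893785, 42893313, 59671001, 59851225, 93225433, 116817921, 118390785, 133595137, 100040705, 5324801, 68059137, 29218817, 125081601, 57972737, 103317977, 49709529, 32932313, 42303961, 126190041, 26296321, 17727961, 51462145, 101613569, 43073537, 84836825, 29217433,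 57971353, 103317505, 49709057, 32931841, 126189569, 42303489, 26296793, 17727489, 51462617, 43074009, 84836353, 101614041],
  Vale.Agent.P032.Lt.q_of (e' := WQ035.e753) (by decide +kernel) WQ035.q753⟩

theorem w754 : Wx (EX xs7) Vale.Agent.P032X.Cert.X3.t1 (Vale.Agent.P032.Fam.fam3 Vale.Agent.P032.Fam.im0) WQ035.W754 := ⟨[0, 8, 16, 24, 32, 40, 48, 4, 12, 20, 28, 36, 44, 52, 60, 68, 76, 84, 92, 100, 108, 116, 124, 132, 140, 148, 156, 164, 172, 102236313, 35127449, 35127513, 102236377, 36700185, 69207385, 36700505, 69206745],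
  Vale.Agent.P032.Lt.q_of (e' := WQ035.e754) (by decide +kernel) WQ035.q754⟩

theorem w755 : Wx (EX xs7) Vale.Agent.P032X.Cert.X3.t1 (Vale.Agent.P032.Fam.fam3 Vale.Agent.P032.Fam.im0) WQ035.W755 := ⟨[0, 8, 16, 24, 32, 40, 48, 4, 12, 20, 28, 36, 44, 52, 60, 68, 76, 84, 92, 100, 108, 116, 124, 132, 140, 148, 101649101, 33554433, 75694081, 24002969, 32131789, 57556993, 123895809, 56786945, 1900550, 2949126],
  Vale.Agent.P032.Lt.q_of (e' := WQ035.e755) (by decide +kernel) WQ035.q755⟩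

theorem w756 : Wx (EX xs7) Vale.Agent.P032X.Cert.X3.t1 (Vale.Agent.P032.Fam.fam3 Vale.Agent.P032.Fam.im0) WQ035.W756 := ⟨[0, 8, 16, 24, 32, 40, 48, 4, 12, 20, 28, 36, 44, 52, 60, 68, 76, 84, 92, 100, 108, 116, 124, 18120769, 41795993, 45694977, 1376262, 1900550, 2949126],
  Vale.Agent.P032.Lt.q_of (e' := WQ035.e756) (by decide +kernel) WQ035.q756⟩

theorem w757 : Wx (EX xs7) Vale.Agent.P032X.Cert.X3.t1 (Vale.Agent.P032.Fam.fam3 Vale.Agent.P032.Fam.im0) WQ035.W757 := ⟨[0, 8, 16, 24, 32, 40, 48, 4, 12, 20, 28, 36, 44, 52, 60, 68, 76, 84, 92, 100, 108, 116, 124, 132, 129565145, 94928897, 557529],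
  Vale.Agent.P032.Lt.q_of (e' := WQ035.e757) (by decide +kernel) WQ035.q757⟩

theorem w758 : Wx (EX xs7) Vale.Agent.P032X.Cert.X3.t1 (Vale.Agent.P032.Fam.fam3 Vale.Agent.P032.Fam.im0) WQ035.W758 := ⟨[0, 8, 16, 24, 32, 40, 48, 4, 12, 20, 28, 36, 44, 52, 60, 68, 76, 84, 92, 100, 108, 116, 124, 132, 140, 148, 156, 54296673, 54296609, 54296585, 54296649],
  Vale.Agent.P032.Lt.q_of (e' := WQ035.e758) (by decide +kernel) WQ035.q758⟩

theorem w759 : Wx (EX xs7) Vale.Agent.P032X.Cert.X3.t1 (Vale.Agent.P032.Fam.fam3 Vale.Agent.P032.Fam.im0) WQ035.W759 := ⟨[0, 8, 16, 24, 32, 40, 48, 4, 12, 20, 28, 36, 44, 52, 60, 68, 76, 84, 92, 100, 50135041, 335878, 860166, 1376262, 1384454, 1900550, 2433030, 2957318],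
  Vale.Agent.P032.Lt.q_of (e' := WQ035.e759) (by decide +kernel) WQ035.q759⟩

theorem w760 : Wx (EX xs7) Vale.Agent.P032X.Cert.X3.t1 (Vale.Agent.P032.Fam.fam3 Vale.Agent.P032.Fam.im0) WQ035.W760 := ⟨[0, 8, 16, 24, 32, 40, 48, 4, 12, 20, 28, 36, 44, 52, 60, 68, 76, 84, 92, 100, 108, 116, 124, 132, 140, 148, 156, 47994145, 127210785, 15826945, 40932641, 860166, 1376262, 1900550, 1908742, 2424838],
  Vale.Agent.P032.Lt.q_of (e' := WQ035.e760) (by decide +kernel) WQ035.q760⟩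

theorem w761 : Wx (EX xs7) Vale.Agent.P032X.Cert.X3.t1 (Vale.Agent.P032.Fam.fam3 Vale.Agent.P032.Fam.im0) WQ035.W761 := ⟨[0, 8, 16, 24, 32, 40, 48, 4, 12, 20, 28, 36, 44, 52, 60, 68, 76, 84, 92, 100, 108, 116, 124, 132, 140, 148, 156, 164, 172, 122689817, 2097473, 2097409, 85884993, 95617089, 1900550, 2949126],
  Vale.Agent.P032.Lt.q_of (e' := WQ035.e761) (by decide +kernel) WQ035.q761⟩

theorem w762 : Wx (EX xs7) Vale.Agent.P032X.Cert.X3.t1 (Vale.Agent.P032.Fam.fam3 Vale.Agent.P032.Fam.im0) WQ035.W762 := ⟨[0, 8, 16, 24, 32, 40, 48, 4, 12, 20, 28, 36, 44, 52, 60, 68, 76, 84, 92, 100, 108, 116, 124, 132, 140, 148, 156, 15826945, 53739865, 335878, 344070, 352262, 868358, 1376262, 1900550, 2424838, 2441222, 2449414, 2973702],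
  Vale.Agent.P032.Lt.q_of (e' := WQ035.e762) (by decide +kernel) WQ035.q762⟩

theorem w763 : Wx (EX xs7) Vale.Agent.P032X.Cert.X3.t1 (Vale.Agent.P032.Fam.fam3 Vale.Agent.P032.Fam.im0) WQ035.W763 := ⟨[0, 8, 16, 24, 32, 40, 48, 4, 12, 20, 28, 36, 44, 52, 60, 68, 76, 84, 92, 100, 108, 116, 124, 132, 140, 148, 156, 33292289, 34078721, 31211521, 117309441, 122716161, 88145921, 66732033, 55607297, 99450881, 21037465, 851974, 1900550, 2949126],
  Vale.Agent.P032.Lt.q_of (e' := WQ035.e763) (by decide +kernel) WQ035.q763⟩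

theorem w764 : Wx (EX xs7) Vale.Agent.P032X.Cert.X3.t1 (Vale.Agent.P032.Fam.fam3 Vale.Agent.P032.Fam.im0) WQ035.W764 := ⟨[0, 8, 16, 24, 32, 40, 48, 4, 12, 20, 28, 36, 44, 52, 60, 68, 76, 84, 92, 100, 108, 116, 124, 132, 140, 148, 156, 164, 6291865, 11010113, 33292289, 49168449, 61407705, 655361, 335878, 1900550, 2949126],
  Vale.Agent.P032.Lt.q_of (e' := WQ035.e764) (by decide +kernel) WQ035.q764⟩

theorem w765 : Wx (EX xs7) Vale.Agent.P032X.Cert.X3.t1 (Vale.Agent.P032.Fam.fam3 Vale.Agent.P032.Fam.im0) WQ035.W765 := ⟨[0, 8, 16, 24, 32, 40, 48, 4, 12, 20, 28, 36, 44, 52, 60, 68, 76, 84, 92, 100, 108, 116, 124, 132, 140, 148, 85688473, 108265625, 91495681, 24379393],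
  Vale.Agent.P032.Lt.q_of (e' := WQ035.e765) (by decide +kernel) WQ035.q765⟩

theorem w766 : Wx (EX xs7) Vale.Agent.P032X.Cert.X3.t1 (Vale.Agent.P032.Fam.fam3 Vale.Agent.P032.Fam.im0) WQ035.W766 := ⟨[0, 8, 16, 24, 32, 40, 48, 4, 12, 20, 28, 36, 44, 52, 60, 68, 76, 84, 92, 100, 108, 116, 124, 132, 140, 148, 156, 164, 172, 180, 188, 63182633, 82581417, 99653545],
  Vale.Agent.P032.Lt.q_of (e' := WQ035.e766) (by decide +kernel) WQ035.q766⟩

theorem w767 : Wx (EX xs7) Vale.Agent.P032X.Cert.X3.t1 (Vale.Agent.P032.Fam.fam3 Vale.Agent.P032.Fam.im0) WQ035.W767 := ⟨[0, 8, 16, 24, 32, 40, 48, 4, 12, 20, 28, 36, 44, 52, 60, 68, 76, 84, 92, 100, 108, 116, 124, 132, 140, 148, 156, 164, 172, 180, 188, 196, 37224857, 5262753, 20971649, 90177601, 63766785, 50085953, 5261217, 18874369, 79167553, 851974, 2424838, 2949126],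
  Vale.Agent.P032.Lt.q_of (e' := WQ035.e767) (by decide +kernel) WQ035.q767⟩

theorem w768 : Wx (EX xs7) Vale.Agent.P032X.Cert.X3.t1 (Vale.Agent.P032.Fam.fam3 Vale.Agent.P032.Fam.im0) WQ035.W768 := ⟨[0, 8, 16, 24, 32, 40, 48, 4, 12, 20, 28, 36, 44, 52, 60, 68, 76, 84, 92, 100, 108, 116, 124, 132, 140, 148, 156, 75630349, 18121025, 18121945, 75630245],
  Vale.Agent.P032.Lt.q_of (e' := WQ035.e768) (by decide +kernel) WQ035.q768⟩

theorem w769 : Wx (EX xs7) Vale.Agent.P032X.Cert.X3.t1 (Vale.Agent.P032.Fam.fam3 Vale.Agent.P032.Fam.im0) WQ036.W769 := ⟨[0, 8, 16, 24, 32, 40, 48, 4, 12, 20, 28, 36, 44, 52, 60, 68, 76, 84, 92, 100, 108, 116, 124, 132, 140, 148, 156, 164, 172, 180, 188, 196, 204, 212, 220, 5507025, 5508561, 93360417, 36700505, 130023617],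
  Vale.Agent.P032.Lt.q_of (e' := WQ036.e769) (by decide +kernel) WQ036.q769⟩

theorem w770 : Wx (EX xs7) Vale.Agent.P032X.Cert.X3.t1 (Vale.Agent.P032.Fam.fam3 Vale.Agent.P032.Fam.im0) WQ036.W770 := ⟨[0, 8, 16, 24, 32, 40, 48, 4, 12, 20, 28, 36, 44, 52, 60, 68, 76, 84, 92, 100, 108, 116, 124, 132, 140, 148, 156, 164, 172, 180, 188, 128483585, 91128217, 91128601, 75301273, 120914393, 8192409, 97386497, 47054913, 91128985, 18612697, 1900550, 2949126],
  Vale.Agent.P032.Lt.q_of (e' := WQ036.e770) (by decide +kernel) WQ036.q770⟩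

theorem w771 : Wx (EX xs7) Vale.Agent.P032X.Cert.X3.t1 (Vale.Agent.P032.Fam.fam3 Vale.Agent.P032.Fam.im0) WQ036.W771 := ⟨[0, 8, 16, 24, 32, 40, 48, 4, 12, 20, 28, 36, 44, 52, 60, 68, 76, 84, 92, 100, 108, 116, 124, 132, 140, 148, 156, 164, 172, 180, 188, 196, 204, 212, 105120217, 61145497, 41566209, 109576257, 23101913, 119570497, 36848089, 22249537, 106135617, 59589081, 106987929, 32260097, 41556353, 49037377, 24788993, 27295809, 39026689, 127959513, 50610649, 56656345, 69206337, 67633241, 1900550, 1941510, 2949126, 2957318],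
  Vale.Agent.P032.Lt.q_of (e' := WQ036.e771) (by decide +kernel) WQ036.q771⟩

theorem w772 : Wx (EX xs7) Vale.Agent.P032X.Cert.X3.t1 (Vale.Agent.P032.Fam.fam3 Vale.Agent.P032.Fam.im0) WQ036.W772 := ⟨[0, 8, 16, 24, 32, 40, 48, 4, 12, 20, 28, 36, 44, 52, 60, 68, 76, 84, 92, 100, 108, 116, 124, 132, 140, 148, 156, 164, 172, 180, 188, 5506337, 6291865, 57704921, 115081281, 58916865, 16974233, 5505953, 1376262, 2424838, 2949126],
  Vale.Agent.P032.Lt.q_of (e' := WQ036.e772) (by decide +kernel) WQ036.q772⟩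

theorem w773 : Wx (EX xs7) Vale.Agent.P032X.Cert.X3.t1 (Vale.Agent.P032.Fam.fam3 Vale.Agent.P032.Fam.im0) WQ036.W773 := ⟨[0, 8, 16, 24, 32, 40, 48, 4, 12, 20, 28, 36, 44, 52, 60, 68, 76, 84, 92, 100, 108, 116, 124, 132, 140, 148, 156, 40370177, 125698049, 78807041],
  Vale.Agent.P032.Lt.q_of (e' := WQ036.e773) (by decide +kernel) WQ036.q773⟩

theorem w774 : Wx (EX xs7) Vale.Agent.P032X.Cert.X3.t1 (Vale.Agent.P032.Fam.fam3 Vale.Agent.P032.Fam.im0) WQ036.W774 := ⟨[0, 8, 16, 24, 32, 40, 48, 4, 12, 20, 28, 36, 44, 52, 60, 68, 76, 84, 92, 100, 108, 116, 124, 132, 140, 148, 156, 164, 50185089, 18874369, 6291929, 108528025, 50184705, 12059137, 41795585, 6291521, 2687385, 82837913, 29426073, 96534529, 113312153],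
  Vale.Agent.P032.Lt.q_of (e' := WQ036.e774) (by decide +kernel) WQ036.q774⟩

theorem w775 : Wx (EX xs7) Vale.Agent.P032X.Cert.X3.t1 (Vale.Agent.P032.Fam.fam3 Vale.Agent.P032.Fam.im0) WQ036.W775 := ⟨[0, 8, 16, 24, 32, 40, 48, 4, 12, 20, 28, 36, 44, 52, 60, 68, 76, 84, 92, 100, 108, 116, 124, 132, 140, 148, 156, 164, 172, 180, 188, 196, 204, 212, 220, 228, 236, 76021761, 28377089, 32411033, 25018369, 115277825, 12848537, 67108865, 112263169, 97226137, 80317849, 91389953, 43486617],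
  Vale.Agent.P032.Lt.q_of (e' := WQ036.e775) (by decide +kernel) WQ036.q775⟩

theorem w776 : Wx (EX xs7) Vale.Agent.P032X.Cert.X3.t1 (Vale.Agent.P032.Fam.fam3 Vale.Agent.P032.Fam.im0) WQ036.W776 := ⟨[0, 8, 16, 24, 32, 40, 48, 4, 12, 20, 28, 36, 44, 52, 60, 68, 76, 84, 92, 100, 108, 116, 124, 132, 140, 148, 156, 164, 172, 180, 188, 196, 204, 212, 220, 228, 236, 244, 99090433, 20971793, 39976961, 37756113, 96210329, 20971665, 39977025, 96210393, 47645161, 5505449, 42618265, 46071873],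
  Vale.Agent.P032.Lt.q_of (e' := WQ036.e776) (by decide +kernel) WQ036.q776⟩

theorem w777 : Wx (EX xs7) Vale.Agent.P032X.Cert.X3.t1 (Vale.Agent.P032.Fam.fam3 Vale.Agent.P032.Fam.im0) WQ036.W777 := ⟨[0, 8, 16, 24, 32, 40, 48, 4, 12, 20, 28, 36, 44, 52, 60, 68, 76, 84, 92, 100, 108, 116, 124, 132, 140, 52133889],
  Vale.Agent.P032.Lt.q_of (e' := WQ036.e777) (by decide +kernel) WQ036.q777⟩

theorem w778 : Wx (EX xs7) Vale.Agent.P032X.Cert.X3.t1 (Vale.Agent.P032.Fam.fam3 Vale.Agent.P032.Fam.im0) WQ036.W778 := ⟨[0, 8, 16, 24, 32, 40, 48, 4, 12, 20, 28, 36, 44, 52, 60, 68, 76, 84, 92, 100, 108, 116, 124, 132, 140, 148, 156, 164, 172, 180, 188, 196, 204, 212, 220, 228, 236, 32407553, 57409537, 70323609, 7605657, 22056345, 7605721, 44109209, 63458713, 18025881, 103878041, 23416217, 58084761, 61214105, 16092569, 83197953, 49643521, 33820057, 125111705, 85134745, 106827161, 3427737, 36982169, 27328513, 89165209,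 73269249, 79957401, 6163929, 127798681, 60689817, 42536345, 105676801, 24251801, 2899969, 32412673, 327686, 851974, 1376262, 1900550, 2949126],
  Vale.Agent.P032.Lt.q_of (e' := WQ036.e778) (by decide +kernel) WQ036.q778⟩

theorem w779 : Wx (EX xs7) Vale.Agent.P032X.Cert.X3.t1 (Vale.Agent.P032.Fam.fam3 Vale.Agent.P032.Fam.im0) WQ036.W779 := ⟨[0, 8, 16, 24, 32, 40, 48, 4, 12, 20, 28, 36, 44, 52, 60, 68, 76, 84, 92, 100, 108, 116, 124, 132, 140, 148, 156, 164, 50188453, 53513945, 2329741, 53513817, 50188069, 54283801, 31459213, 31459533, 88604673, 56528409, 65208729, 50188389, 851974, 1376262],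
  Vale.Agent.P032.Lt.q_of (e' := WQ036.e779) (by decide +kernel) WQ036.q779⟩

theorem w780 : Wx (EX xs7) Vale.Agent.P032X.Cert.X3.t1 (Vale.Agent.P032.Fam.fam3 Vale.Agent.P032.Fam.im0) WQ036.W780 := ⟨[0, 8, 16, 24, 32, 40, 48, 4, 12, 20, 28, 36, 44, 52, 60, 68, 76, 84, 92, 100, 108, 116, 124, 132, 140, 148, 156, 164, 172, 180, 188, 196, 204, 82450457, 70850585, 37289985, 87621633, 104398849, 26886145, 20513665, 327686, 851974, 2949126],
  Vale.Agent.P032.Lt.q_of (e' := WQ036.e780) (by decide +kernel) WQ036.q780⟩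

theorem w781 : Wx (EX xs7) Vale.Agent.P032X.Cert.X3.t1 (Vale.Agent.P032.Fam.fam3 Vale.Agent.P032.Fam.im0) WQ036.W781 := ⟨[0, 8, 16, 24, 32, 40, 48, 4, 12, 20, 28, 36, 44, 52, 60, 68, 76, 84, 92, 100, 108, 116, 124, 132, 140, 148, 156, 164, 172, 180, 188, 196, 69992513, 10485825, 6701121, 91226113, 49283969, 52560217, 327686, 851974, 1376262, 1900550, 2949126],
  Vale.Agent.P032.Lt.q_of (e' := WQ036.e781) (by decide +kernel) WQ036.q781⟩

theorem w782 : Wx (EX xs7) Vale.Agent.P032X.Cert.X3.t1 (Vale.Agent.P032.Fam.fam3 Vale.Agent.P032.Fam.im0) WQ037.W782 := ⟨[0, 8, 16, 24, 32, 40, 48, 4, 12, 20, 28, 36, 44, 52, 60, 68, 76, 84, 92, 100, 108, 116, 124, 132, 140, 148, 156, 164, 172, 180, 88735809, 88735745, 45285377, 11995009, 58720357, 98568709, 45285441, 98569093, 11995073, 58720293],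
  Vale.Agent.P032.Lt.q_of (e' := WQ037.e782) (by decide +kernel) WQ037.q782⟩

theorem w783 : Wx (EX xs7) Vale.Agent.P032X.Cert.X3.t1 (Vale.Agent.P032.Fam.fam3 Vale.Agent.P032.Fam.im0) WQ038.W783 := ⟨[0, 8, 16, 24, 32, 40, 48, 4, 12, 20, 28, 36, 44, 52, 60, 68, 76, 84, 92, 100, 108, 116, 23363777, 23365313, 327686, 335878, 851974, 860166, 2424838, 2949126, 2957318],
  Vale.Agent.P032.Lt.q_of (e' := WQ038.e783) (by decide +kernel) WQ038.q783⟩

theorem w784 : Wx (EX xs7) Vale.Agent.P032X.Cert.X3.t1 (Vale.Agent.P032.Fam.fam3 Vale.Agent.P032.Fam.im0) WQ038.W784 := ⟨[0, 8, 16, 24, 32, 40, 48, 4, 12, 20, 28, 36, 44, 52, 60, 68, 76, 84, 92, 100, 108, 116, 124, 132, 140, 148, 156, 164, 172, 130023553, 104992217, 98959361, 65404929, 1900550, 2949126],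
  Vale.Agent.P032.Lt.q_of (e' := WQ038.e784) (by decide +kernel) WQ038.q784⟩

theorem w785 : Wx (EX xs7) Vale.Agent.P032X.Cert.X3.t1 (Vale.Agent.P032.Fam.fam3 Vale.Agent.P032.Fam.im0) WQ038.W785 := ⟨[0, 8, 16, 24, 32, 40, 48, 4, 12, 20, 28, 36, 44, 52, 60, 68, 76, 84, 92, 100, 108, 116, 124, 132, 140, 148, 156, 164, 172, 180, 188, 196, 204, 212, 220, 228, 236, 244, 252, 5508485, 16580749],
  Vale.Agent.P032.Lt.q_of (e' := WQ038.e785) (by decide +kernel) WQ038.q785⟩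

theorem w786 : Wx (EX xs7) Vale.Agent.P032X.Cert.X3.t1 (Vale.Agent.P032.Fam.fam3 Vale.Agent.P032.Fam.im0) WQ038.W786 := ⟨[0, 8, 16, 24, 32, 40, 48, 4, 12, 20, 28, 36, 44, 52, 60, 68, 76, 84, 92, 100, 108, 116, 124, 132, 140, 148, 156, 164, 108201957, 860166, 2424838, 2949126],
  Vale.Agent.P032.Lt.q_of (e' := WQ038.e786) (by decide +kernel) WQ038.q786⟩

theorem w787 : Wx (EX xs7) Vale.Agent.P032X.Cert.X3.t1 (Vale.Agent.P032.Fam.fam3 Vale.Agent.P032.Fam.im0) WQ038.W787 := ⟨[0, 8, 16, 24, 32, 40, 48, 4, 12, 20, 28, 36, 44, 52, 60, 68, 76, 84, 92, 100, 108, 116, 124, 132, 140, 148, 156, 164, 172, 180, 188, 196, 204, 212, 77922305, 77660225, 53513893, 109448601, 22052929, 25559105, 10485825, 42336321, 17829057, 7602177, 327686, 851974, 1900550, 2949126],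
  Vale.Agent.P032.Lt.q_of (e' := WQ038.e787) (by decide +kernel) WQ038.q787⟩

theorem w788 : Wx (EX xs7) Vale.Agent.P032X.Cert.X3.t1 (Vale.Agent.P032.Fam.fam3 Vale.Agent.P032.Fam.im0) WQ038.W788 := ⟨[0, 8, 16, 24, 32, 40, 48, 4, 12, 20, 28, 36, 44, 52, 60, 68, 76, 84, 92, 100, 108, 116, 124, 132, 140, 148, 156, 164, 172, 180, 188, 196, 204, 212, 220, 228, 236, 244, 252, 74715813, 63182757, 130023757, 7606949, 41161381, 7359629],
  Vale.Agent.P032.Lt.q_of (e' := WQ038.e788) (by decide +kernel) WQ038.q788⟩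

theorem w789 : Wx (EX xs7) Vale.Agent.P032X.Cert.X3.t1 (Vale.Agent.P032.Fam.fam3 Vale.Agent.P032.Fam.im0) WQ038.W789 := ⟨[0, 8, 16, 24, 32, 40, 48, 4, 12, 20, 28, 36, 44, 52, 60, 68, 76, 84, 92, 100, 108, 116, 124, 132, 140, 148, 156, 164, 172, 180, 188, 196, 126420889],
  Vale.Agent.P032.Lt.q_of (e' := WQ038.e789) (by decide +kernel) WQ038.q789⟩

theorem w790 : Wx (EX xs7) Vale.Agent.P032X.Cert.X3.t1 (Vale.Agent.P032.Fam.fam3 Vale.Agent.P032.Fam.im0) WQ038.W790 := ⟨[0, 8, 16, 24, 32, 40, 48, 4, 12, 20, 28, 36, 44, 52, 60, 68, 76, 84, 92, 100, 108, 116, 124, 132, 140, 148, 156, 164, 172, 180, 3086489, 48120281, 70192537, 55971545, 62783489, 81135489, 14026625, 50185125, 49221077, 53517017],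
  Vale.Agent.P032.Lt.q_of (e' := WQ038.e790) (by decide +kernel) WQ038.q790⟩

theorem w791 : Wx (EX xs7) Vale.Agent.P032X.Cert.X3.t1 (Vale.Agent.P032.Fam.fam3 Vale.Agent.P032.Fam.im0) WQ038.W791 := ⟨[0, 8, 16, 24, 32, 40, 48, 4, 12, 20, 28, 36, 44, 52, 60, 68, 76, 84, 92, 100, 108, 116, 124, 132, 140, 148, 156, 164, 172, 180, 188, 196, 204, 212, 11469209],
  Vale.Agent.P032.Lt.q_of (e' := WQ038.e791) (by decide +kernel) WQ038.q791⟩

theorem w792 : Wx (EX xs7) Vale.Agent.P032X.Cert.X3.t1 (Vale.Agent.P032.Fam.fam3 Vale.Agent.P032.Fam.im0) WQ038.W792 := ⟨[0, 8, 16, 24, 32, 40, 48, 4, 12, 20, 28, 36, 44, 52, 60, 68, 76, 84, 92, 100, 108, 116, 124, 132, 140, 148, 156, 85229569],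
  Vale.Agent.P032.Lt.q_of (e' := WQ038.e792) (by decide +kernel) WQ038.q792⟩

theorem w793 : Wx (EX xs7) Vale.Agent.P032X.Cert.X3.t1 (Vale.Agent.P032.Fam.fam3 Vale.Agent.P032.Fam.im0) WQ038.W793 := ⟨[0, 8, 16, 24, 32, 40, 48, 4, 12, 20, 28, 36, 44, 52, 60, 68, 76, 84, 92, 100, 108, 116, 124, 132, 140, 148, 53280833, 53281241, 112001025, 147457, 61473177, 58871193, 4342169, 103612417, 55904129, 123011481, 26673561, 66863105, 44892161, 26673153, 120389633, 66863513, 42631577, 56115609, 30052057, 67148761, 44892569, 112001433, 4341761, 58869633, 55905689, 103612825, 123011073, 56115201, 42631169, 67148353],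
  Vale.Agent.P032.Lt.q_of (e' := WQ038.e793) (by decide +kernel) WQ038.q793⟩

theorem w794 : Wx (EX xs7) Vale.Agent.P032X.Cert.X3.t1 (Vale.Agent.P032.Fam.fam3 Vale.Agent.P032.Fam.im0) WQ038.W794 := ⟨[0, 8, 16, 24, 32, 40, 48, 4, 12, 20, 28, 36, 44, 52, 60, 68, 76, 84, 92, 100, 108, 116, 124, 132, 140, 148, 156, 164, 172, 180, 188, 196, 32574105, 20548249, 327686, 851974],
  Vale.Agent.P032.Lt.q_of (e' := WQ038.e794) (by decide +kernel) WQ038.q794⟩

theorem w795 : Wx (EX xs7) Vale.Agent.P032X.Cert.X3.t1 (Vale.Agent.P032.Fam.fam3 Vale.Agent.P032.Fam.im0) WQ038.W795 := ⟨[0, 8, 16, 24, 32, 40, 48, 4, 12, 20, 28, 36, 44, 52, 60, 68, 76, 84, 92, 100, 108, 116, 124, 132, 140, 148, 156, 164, 172, 180, 188, 2331277, 20451969, 105256741, 327686, 860166, 2424838],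
  Vale.Agent.P032.Lt.q_of (e' := WQ038.e795) (by decide +kernel) WQ038.q795⟩

theorem w796 : Wx (EX xs7) Vale.Agent.P032X.Cert.X3.t1 (Vale.Agent.P032.Fam.fam3 Vale.Agent.P032.Fam.im0) WQ039.W796 := ⟨[0, 8, 16, 24, 32, 40, 48, 4, 12, 20, 28, 36, 44, 52, 60, 68, 76, 84, 92, 100, 108, 116, 124, 132, 140, 148, 156, 164, 100696065, 23889561, 54558721, 40666777, 28983297, 12206081, 67142553, 19727321, 54150041, 117473281, 125861889, 33588889, 73139865, 50364417, 83920385, 41975809, 62537729, 12615681, 25203993, 31085849, 18089473, 44582553, 75530241, 4227073],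
  Vale.Agent.P032.Lt.q_of (e' := WQ039.e796) (by decide +kernel) WQ039.q796⟩

theorem w797 : Wx (EX xs7) Vale.Agent.P032X.Cert.X3.t1 (Vale.Agent.P032.Fam.fam3 Vale.Agent.P032.Fam.im0) WQ039.W797 := ⟨[0, 8, 16, 24, 32, 40, 48, 4, 12, 20, 28, 36, 44, 52, 60, 68, 76, 84, 92, 100, 108, 116, 124, 132, 140, 148, 156, 164, 172, 180, 188, 196, 204, 130023781, 76482137, 56131969, 20971653, 42926465],
  Vale.Agent.P032.Lt.q_of (e' := WQ039.e797) (by decide +kernel) WQ039.q797⟩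

theorem w798 : Wx (EX xs7) Vale.Agent.P032X.Cert.X3.t1 (Vale.Agent.P032.Fam.fam3 Vale.Agent.P032.Fam.im0) WQ039.W798 := ⟨[0, 8, 16, 24, 32, 40, 48, 4, 12, 20, 28, 36, 44, 52, 60, 68, 76, 84, 92, 100, 108, 116, 124, 132, 140, 148, 156, 164, 172, 180, 188, 196, 204, 212, 220, 228, 236, 244, 252, 260, 268, 50186277, 50186405, 50186253, 2098829, 2098957, 73400577, 49873153, 67634789, 53511705, 69730477, 67634981, 2098765, 50186381, 73400449, 49873025, 67634853, 53511769, 67634725, 69730605, 50186789, 69730669, 49219349, 50186661, 49219157, 67634917, 49873217, 73400641, 69730349, 50186637, 67635045, 49219093, 53511833, 50186765, 53511897, 73400321, 49872897, 50190245, 50187045, 50187173, 50187021, 73400513, 49873089, 49219221, 53511961, 2098893, 50187149, 73400385, 49872961, 53512025, 69730541],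
  Vale.Agent.P032.Lt.q_of (e' := WQ039.e798) (by decide +kernel) WQ039.q798⟩

theorem w799 : Wx (EX xs7) Vale.Agent.P032X.Cert.X3.t1 (Vale.Agent.P032.Fam.fam3 Vale.Agent.P032.Fam.im0) WQ039.W799 := ⟨[0, 8, 16, 24, 32, 40, 48, 4, 12, 20, 28, 36, 44, 52, 60, 68, 76, 84, 92, 100, 108, 116, 124, 132, 140, 148, 156, 164, 172, 79695641, 15728769, 57671681, 116392729, 124785257, 49284033, 75501401, 4525849, 91227073, 82838361],
  Vale.Agent.P032.Lt.q_of (e' := WQ039.e799) (by decide +kernel) WQ039.q799⟩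

def L : List (List ℕ) := [WQ033.W700, WQ033.W701, WQ033.W702, WQ033.W703, WQ033.W704, WQ033.W705, WQ033.W706, WQ033.W707, WQ033.W708, WQ033.W709, WQ033.W710, WQ033.W711, WQ033.W712, WQ033.W713, WQ033.W714, WQ033.W715, WQ033.W716, WQ033.W717, WQ033.W718, WQ033.W719, WQ033.W720, WQ033.W721, WQ033.W722, WQ033.W723, WQ033.W724, WQ033.W725, WQ033.W726, WQ033.W727, WQ033.W728, WQ033.W729, WQ034.W730, WQ034.W731, WQ034.W732, WQ034.W733, WQ034.W734, WQ034.W735, WQ034.W736, WQ034.W737, WQ034.W738, WQ034.W739, WQ034.W740, WQ034.W741, WQ034.W742, WQ034.W743, WQ034.W744, WQ034.W745, WQ035.W746, WQ035.W747, WQ035.W748, WQ035.W749, WQ035.W750, WQ035.W751, WQ035.W752, WQ035.W753, WQ035.W754, WQ035.W755, WQ035.W756, WQ035.W757, WQ035.W758, WQ035.W759, WQ035.W760, WQ035.W761, WQ035.W762, WQ035.W763, WQ035.W764, WQ035.W765, WQ035.W766, WQ035.W767, WQ035.W768, WQ036.W769, WQ036.W770, WQ036.W771, WQ036.W772, WQ036.W773,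 WQ036.W774, WQ036.W775, WQ036.W776, WQ036.W777, WQ036.W778, WQ036.W779, WQ036.W780, WQ036.W781, WQ037.W782, WQ038.W783, WQ038.W784, WQ038.W785, WQ038.W786, WQ038.W787, WQ038.W788, WQ038.W789, WQ038.W790, WQ038.W791, WQ038.W792, WQ038.W793, WQ038.W794, WQ038.W795, WQ039.W796, WQ039.W797, WQ039.W798, WQ039.W799]

theorem all : ∀ P ∈ L, Wx (EX xs7) Vale.Agent.P032X.Cert.X3.t1 (Vale.Agent.P032.Fam.fam3 Vale.Agent.P032.Fam.im0) P := wx_cons w700 (wx_cons w701 (wx_cons w702 (wx_cons w703 (wx_cons w704 (wx_cons w705 (wx_cons w706 (wx_cons w707 (wx_cons w708 (wx_cons w709 (wx_cons w710 (wx_cons w711 (wx_cons w712 (wx_cons w713 (wx_cons w714 (wx_cons w715 (wx_cons w716 (wx_cons w717 (wx_cons w718 (wx_cons w719 (wx_cons w720 (wx_cons w721 (wx_cons w722 (wx_cons w723 (wx_cons w724 (wx_cons w725 (wx_cons w726 (wx_cons w727 (wx_cons w728 (wx_cons w729 (wx_cons w730 (wx_cons w731 (wx_cons w732 (wx_cons w733 (wx_cons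 w734 (wx_cons w735 (wx_cons w736 (wx_cons w737 (wx_cons w738 (wx_cons w739 (wx_cons w740 (wx_cons w741 (wx_cons w742 (wx_cons w743 (wx_cons w744 (wx_cons w745 (wx_cons w746 (wx_cons w747 (wx_cons w748 (wx_cons w749 (wx_cons w750 (wx_cons w751 (wx_cons w752 (wx_cons w753 (wx_cons w754 (wx_cons w755 (wx_cons w756 (wx_cons w757 (wx_cons w758 (wx_cons w759 (wx_cons w760 (wx_cons w761 (wx_cons w762 (wx_cons w763 (wx_cons w764 (wx_cons w765 (wx_cons w766 (wx_cons w767 (wx_cons w768 (wx_cons w769 (wx_cons w770 (wx_cons w771 (wx_cons w772 (wx_cons w773 (wx_cons w774 (wx_cons w775 (wx_cons w776 (wx_cons w777 (wx_cons w778 (wx_cons w779 (wx_cons w780 (wx_cons w781 (wx_cons w782 (wx_cons w783 (wx_cons w784 (wx_cons w785 (wx_cons w786 (wx_cons w787 (wx_cons w788 (wx_cons w789 (wx_cons w790 (wx_cons w791 (wx_cons w792 (wx_cons w793 (wx_cons w794 (wx_cons w795 (wx_cons w796 (wx_cons w797 (wx_cons w798 (wx_cons w799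 wx_nil)))))))))))))))))))))))))))))))))))))))))))))))))))))))))))))))))))))))))))))))))))))))))))))))))))

theorem ch : chT 73 73 TCm Vale.Agent.P032X.Cert.X3.W1.sW_007 L = true := by decide +kernel

end Vale.Agent.P032X.Cert.X3.W1.WH007
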