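import Vale.Agent.P032X.H892.LtH
import Vale.Agent.P032X.H286.A73
import Vale.Agent.P032X.Cert.X3.T1
import Vale.Agent.P032X.Cert.X3.W1.WT
import Vale.Agent.P032X.Cert.X3.W1.WQ040
import Vale.Agent.P032X.Cert.X3.W1.WQ041
import Vale.Agent.P032X.Cert.X3.W1.WQ042
import Vale.Agent.P032X.Cert.X3.W1.WQ043

set_option maxRecDepth 1000000

namespace Vale.Agent.P032X.Cert.X3.W1.WH008

open Vale.Agent.P032.H820.K Vale.Agent.P032.H357.MK Vale.Agent.P032.H286.E Vale.Agent.P032.H61 Vale.Agent.P032.H61.TF Vale.Agent.P032.BlkE Vale.Agent.P032.BlkS Vale.Agent.P032.H357 Vale.Agent.P032 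

theorem w800 : Wx (EX xs7) Vale.Agent.P032X.Cert.X3.t1 (Vale.Agent.P032.Fam.fam3 Vale.Agent.P032.Fam.im0) WQ040.W800 := ⟨[0, 8, 16, 24, 32, 40, 48, 4, 12, 20, 28, 36, 44, 52, 60, 68, 76, 84, 92, 100, 108, 116, 124, 132, 140, 148, 156, 37322753, 851974, 1376262, 2949126, 2957318],
  Vale.Agent.P032.Lt.q_of (e' := WQ040.e800) (by decide +kernel) WQ040.q800⟩

theorem w801 : Wx (EX xs7) Vale.Agent.P032X.Cert.X3.t1 (Vale.Agent.P032.Fam.fam3 Vale.Agent.P032.Fam.im0) WQ040.W801 := ⟨[0, 8, 16, 24, 32, 40, 48, 4, 12, 20, 28, 36, 44, 52, 60, 68, 76, 84, 92, 100, 108, 116, 124, 119964441, 52856833, 64242777],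
  Vale.Agent.P032.Lt.q_of (e' := WQ040.e801) (by decide +kernel) WQ040.q801⟩

theorem w802 : Wx (EX xs7) Vale.Agent.P032X.Cert.X3.t1 (Vale.Agent.P032.Fam.fam3 Vale.Agent.P032.Fam.im0) WQ040.W802 := ⟨[0, 8, 16, 24, 32, 40, 48, 4, 12, 20, 28, 36, 44, 52, 60, 68, 76, 84, 92, 100, 108, 116, 124, 132, 140, 148, 156, 164, 38538649, 34095105, 527833, 17319589, 30674497, 53514277, 53514341, 1900550, 2949126],
  Vale.Agent.P032.Lt.q_of (e' := WQ040.e802) (by decide +kernel) WQ040.q802⟩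

theorem w803 : Wx (EX xs7) Vale.Agent.P032X.Cert.X3.t1 (Vale.Agent.P032.Fam.fam3 Vale.Agent.P032.Fam.im0) WQ040.W803 := ⟨[0, 8, 16, 24, 32, 40, 48, 4, 12, 20, 28, 36, 44, 52, 60, 68, 76, 84, 92, 100, 108, 116, 124, 132, 140, 148, 156, 164, 172, 180, 188, 5506669, 40140801, 84738113, 327686, 2424838, 2949126, 2957318],
  Vale.Agent.P032.Lt.q_of (e' := WQ040.e803) (by decide +kernel) WQ040.q803⟩

theorem w804 : Wx (EX xs7) Vale.Agent.P032X.Cert.X3.t1 (Vale.Agent.P032.Fam.fam3 Vale.Agent.P032.Fam.im0) WQ040.W804 := ⟨[0, 8, 16, 24, 32, 40, 48, 4, 12, 20, 28, 36, 44, 52, 60, 68, 76, 84, 92, 100, 108, 116, 124, 132, 140, 148, 156, 164, 172, 180, 188, 196, 93359137, 60296601, 70320129, 61341697, 44105729, 103284801, 66191361, 36978689, 106823681, 3424257, 33816577, 111214593, 27331993, 5000601, 79953921, 73272729, 6160449, 127795201, 60686337, 24248321, 103874561, 53542913, 45845913, 19988481, 87097345, 46399489, 36765697, 120655257,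 81297409, 61050265, 79400345, 78712217],
  Vale.Agent.P032.Lt.q_of (e' := WQ040.e804) (by decide +kernel) WQ040.q804⟩

theorem w805 : Wx (EX xs7) Vale.Agent.P032X.Cert.X3.t1 (Vale.Agent.P032.Fam.fam3 Vale.Agent.P032.Fam.im0) WQ040.W805 := ⟨[0, 8, 16, 24, 32, 40, 48, 4, 12, 20, 28, 36, 44, 52, 60, 68, 76, 84, 92, 100, 108, 116, 124, 132, 140, 148, 156, 164, 53514177, 49221469, 23889561, 108562073, 74221209, 41975809, 107775641, 4227073, 125861889, 18089473, 50364417, 83920385, 100696065, 73139865, 33588889, 12206081, 67142553, 19727321, 54150041, 62537729, 54558721, 40666777, 12615681, 25203993, 31085849],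
  Vale.Agent.P032.Lt.q_of (e' := WQ040.e805) (by decide +kernel) WQ040.q805⟩

theorem w806 : Wx (EX xs7) Vale.Agent.P032X.Cert.X3.t1 (Vale.Agent.P032.Fam.fam3 Vale.Agent.P032.Fam.im0) WQ040.W806 := ⟨[0, 8, 16, 24, 32, 40, 48, 4, 12, 20, 28, 36, 44, 52, 60, 68, 76, 84, 92, 100, 108, 116, 124, 132, 140, 148, 156, 164, 172, 180, 188, 196, 204, 212, 98567053, 106332481, 98567437, 106332225],
  Vale.Agent.P032.Lt.q_of (e' := WQ040.e806) (by decide +kernel) WQ040.q806⟩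

theorem w807 : Wx (EX xs7) Vale.Agent.P032X.Cert.X3.t1 (Vale.Agent.P032.Fam.fam3 Vale.Agent.P032.Fam.im0) WQ040.W807 := ⟨[0, 8, 16, 24, 32, 40, 48, 4, 12, 20, 28, 36, 44, 52, 60, 68, 76, 84, 92, 100, 108, 116, 124, 132, 140, 148, 156, 164, 172, 180, 188, 196, 204, 212, 220, 228, 236, 20348993, 130023749, 20973581, 20348929, 53512393, 20973709, 130023653, 130023621, 53512265, 130023781],
  Vale.Agent.P032.Lt.q_of (e' := WQ040.e807) (by decide +kernel) WQ040.q807⟩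

theorem w808 : Wx (EX xs7) Vale.Agent.P032X.Cert.X3.t1 (Vale.Agent.P032.Fam.fam3 Vale.Agent.P032.Fam.im0) WQ040.W808 := ⟨[0, 8, 16, 24, 32, 40, 48, 4, 12, 20, 28, 36, 44, 52, 60, 68, 76, 84, 92, 100, 108, 116, 124, 132, 140, 148, 156, 164, 172, 180, 188, 196, 204, 212, 220, 228, 236, 244, 252, 260, 74450893, 31457549, 31457421, 79169421, 18876365, 74450829, 106332225, 53511705, 73400577, 50186405, 69730605, 53511769, 54281817, 123633793, 56526361, 40978009, 54281753, 106332481, 73400449, 18876301, 79169485, 50186277, 123633921, 40977945, 56526425],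
  Vale.Agent.P032.Lt.q_of (e' := WQ040.e808) (by decide +kernel) WQ040.q808⟩

theorem w809 : Wx (EX xs7) Vale.Agent.P032X.Cert.X3.t1 (Vale.Agent.P032.Fam.fam3 Vale.Agent.P032.Fam.im0) WQ040.W809 := ⟨[0, 8, 16, 24, 32, 40, 48, 4, 12, 20, 28, 36, 44, 52, 60, 68, 76, 84, 92, 100, 108, 116, 124, 132, 140, 148, 156, 164, 172, 180, 188, 196, 204, 212, 220, 228, 236, 244, 252, 260, 268, 79562585, 64505369, 104761177, 37651993, 15812121, 71206425, 57755161, 70190617, 4097561, 327686, 851974, 2949126, 2957318],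
  Vale.Agent.P032.Lt.q_of (e' := WQ040.e809) (by decide +kernel) WQ040.q809⟩

theorem w810 : Wx (EX xs7) Vale.Agent.P032X.Cert.X3.t1 (Vale.Agent.P032.Fam.fam3 Vale.Agent.P032.Fam.im0) WQ040.W810 := ⟨[0, 8, 16, 24, 32, 40, 48, 4, 12, 20, 28, 36, 44, 52, 60, 68, 76, 84, 92, 100, 108, 116, 124, 132, 140, 148, 156, 164, 172, 180, 188, 196, 204, 212, 220, 228, 5506605, 31886501, 46007833, 88874381, 50875557, 86967833, 19858969, 55969625],
  Vale.Agent.P032.Lt.q_of (e' := WQ040.e810) (by decide +kernel) WQ040.q810⟩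

theorem w811 : Wx (EX xs7) Vale.Agent.P032X.Cert.X3.t1 (Vale.Agent.P032.Fam.fam3 Vale.Agent.P032.Fam.im0) WQ040.W811 := ⟨[0, 8, 16, 24, 32, 40, 48, 4, 12, 20, 28, 36, 44, 52, 60, 68, 76, 84, 92, 100, 108, 116, 124, 132, 140, 148, 156, 164, 172, 5505029, 26738689, 5505093, 26738753],
  Vale.Agent.P032.Lt.q_of (e' := WQ040.e811) (by decide +kernel) WQ040.q811⟩

theorem w812 : Wx (EX xs7) Vale.Agent.P032X.Cert.X3.t1 (Vale.Agent.P032.Fam.fam3 Vale.Agent.P032.Fam.im0) WQ040.W812 := ⟨[0, 8, 16, 24, 32, 40, 48, 4, 12, 20, 28, 36, 44, 52, 60, 68, 76, 84, 92, 100, 108, 116, 124, 132, 140, 148, 156, 164, 172, 180, 188, 196, 79855617],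
  Vale.Agent.P032.Lt.q_of (e' := WQ040.e812) (by decide +kernel) WQ040.q812⟩

theorem w813 : Wx (EX xs7) Vale.Agent.P032X.Cert.X3.t1 (Vale.Agent.P032.Fam.fam3 Vale.Agent.P032.Fam.im0) WQ040.W813 := ⟨[0, 8, 16, 24, 32, 40, 48, 4, 12, 20, 28, 36, 44, 52, 60, 68, 76, 84, 92, 100, 108, 116, 124, 132, 140, 148, 156, 164, 172, 180, 188, 196, 204, 212, 220, 228, 50186661, 50185765, 130025445, 130025421, 126156801, 50186405, 6293093, 50186277, 63506381, 65098841, 327686, 851974, 2949126],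
  Vale.Agent.P032.Lt.q_of (e' := WQ040.e813) (by decide +kernel) WQ040.q813⟩

theorem w814 : Wx (EX xs7) Vale.Agent.P032X.Cert.X3.t1 (Vale.Agent.P032.Fam.fam3 Vale.Agent.P032.Fam.im0) WQ040.W814 := ⟨[0, 8, 16, 24, 32, 40, 48, 4, 12, 20, 28, 36, 44, 52, 60, 68, 76, 84, 92, 100, 108, 116, 124, 132, 140, 148, 156, 164, 172, 180, 188, 196, 204, 212, 220, 228, 236, 244, 252, 63182789, 5262413, 63184325, 130023789, 125832269, 20318061, 53511897, 20973613, 5262349, 130023749, 37756357, 130023781, 53512409, 125832205, 20317933],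
  Vale.Agent.P032.Lt.q_of (e' := WQ040.e814) (by decide +kernel) WQ040.q814⟩

theorem w815 : Wx (EX xs7) Vale.Agent.P032X.Cert.X3.t1 (Vale.Agent.P032.Fam.fam3 Vale.Agent.P032.Fam.im0) WQ040.W815 := ⟨[0, 8, 16, 24, 32, 40, 48, 4, 12, 20, 28, 36, 44, 52, 60, 68, 76, 84, 92, 100, 108, 116, 124, 132, 140, 148, 156, 164, 172, 180, 188, 196, 204, 212, 220, 228, 236, 244, 252, 125833741, 36180493, 13863577, 130023781, 860166, 1392646, 2990086],
  Vale.Agent.P032.Lt.q_of (e' := WQ040.e815) (by decide +kernel) WQ040.q815⟩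

theorem w816 : Wx (EX xs7) Vale.Agent.P032X.Cert.X3.t1 (Vale.Agent.P032.Fam.fam3 Vale.Agent.P032.Fam.im0) WQ040.W816 := ⟨[0, 8, 16, 24, 32, 40, 48, 4, 12, 20, 28, 36, 44, 52, 60, 68, 76, 84, 92, 100, 108, 116, 124, 132, 140, 148, 156, 164, 172, 180, 89260033, 56131713],
  Vale.Agent.P032.Lt.q_of (e' := WQ040.e816) (by decide +kernel) WQ040.q816⟩

theorem w817 : Wx (EX xs7) Vale.Agent.P032X.Cert.X3.t1 (Vale.Agent.P032.Fam.fam3 Vale.Agent.P032.Fam.im0) WQ040.W817 := ⟨[0, 8, 16, 24, 32, 40, 48, 4, 12, 20, 28, 36, 44, 52, 60, 68, 76, 84, 92, 100, 108, 116, 124, 132, 140, 148, 156, 164, 69730885, 90308609],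
  Vale.Agent.P032.Lt.q_of (e' := WQ040.e817) (by decide +kernel) WQ040.q817⟩

theorem w818 : Wx (EX xs7) Vale.Agent.P032X.Cert.X3.t1 (Vale.Agent.P032.Fam.fam3 Vale.Agent.P032.Fam.im0) WQ040.W818 := ⟨[0, 8, 16, 24, 32, 40, 48, 4, 12, 20, 28, 36, 44, 52, 60, 68, 76, 84, 92, 100, 108, 116, 124, 132, 140, 148, 156, 164, 172, 180, 188, 196, 204, 212, 220, 228, 236, 244, 112722073, 27984025, 112721921, 45809665, 27983873, 117244057, 100466689, 33357825, 73105409, 66912257, 196633, 100466841, 163993, 63062169, 117243905, 73105561, 66912409, 45809817, 112918681, 117374977, 112918529, 29032601, 96141313, 115900569, 37372057, 37371905, 50266113, 3817473, 50266265, 3817625, 117375129, 96141465, 29032449, 63062017, 33357849],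
  Vale.Agent.P032.Lt.q_of (e' := WQ040.e818) (by decide +kernel) WQ040.q818⟩

theorem w819 : Wx (EX xs7) Vale.Agent.P032X.Cert.X3.t1 (Vale.Agent.P032.Fam.fam3 Vale.Agent.P032.Fam.im0) WQ040.W819 := ⟨[0, 8, 16, 24, 32, 40, 48, 4, 12, 20, 28, 36, 44, 52, 60, 68, 76, 84, 92, 100, 108, 116, 124, 45121665, 851974, 2424838, 2949126, 2957318],
  Vale.Agent.P032.Lt.q_of (e' := WQ040.e819) (by decide +kernel) WQ040.q819⟩

theorem w820 : Wx (EX xs7) Vale.Agent.P032X.Cert.X3.t1 (Vale.Agent.P032.Fam.fam3 Vale.Agent.P032.Fam.im0) WQ040.W820 := ⟨[0, 8, 16, 24, 32, 40, 48, 4, 12, 20, 28, 36, 44, 52, 60, 68, 76, 84, 92, 100, 108, 116, 124, 132, 140, 148, 41811993, 91130789, 69732677, 91128325, 5767577],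
  Vale.Agent.P032.Lt.q_of (e' := WQ040.e820) (by decide +kernel) WQ040.q820⟩

theorem w821 : Wx (EX xs7) Vale.Agent.P032X.Cert.X3.t1 (Vale.Agent.P032.Fam.fam3 Vale.Agent.P032.Fam.im0) WQ040.W821 := ⟨[0, 8, 16, 24, 32, 40, 48, 4, 12, 20, 28, 36, 44, 52, 60, 68, 76, 84, 92, 100, 108, 116, 124, 132, 140, 148, 156, 164, 29754265, 93784129, 11160025, 44714457, 5701633, 127336449, 26675673, 53104577, 72811073, 60228505],
  Vale.Agent.P032.Lt.q_of (e' := WQ040.e821) (by decide +kernel) WQ040.q821⟩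

theorem w822 : Wx (EX xs7) Vale.Agent.P032X.Cert.X3.t1 (Vale.Agent.P032.Fam.fam3 Vale.Agent.P032.Fam.im0) WQ041.W822 := ⟨[0, 8, 16, 24, 32, 40, 48, 4, 12, 20, 28, 36, 44, 52, 60, 68, 76, 84, 92, 100, 108, 116, 124, 132, 140, 148, 156, 164, 172, 180, 188, 6295141, 63508429, 88605081],
  Vale.Agent.P032.Lt.q_of (e' := WQ041.e822) (by decide +kernel) WQ041.q822⟩

theorem w823 : Wx (EX xs7) Vale.Agent.P032X.Cert.X3.t1 (Vale.Agent.P032.Fam.fam3 Vale.Agent.P032.Fam.im0) WQ041.W823 := ⟨[0, 8, 16, 24, 32, 40, 48, 4, 12, 20, 28, 36, 44, 52, 60, 68, 76, 84, 92, 100, 108, 116, 124, 79564249, 64507481, 44449793, 88604673, 107511809, 48119809, 107874137, 106463233, 89686017, 22577153, 20973997],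
  Vale.Agent.P032.Lt.q_of (e' := WQ041.e823) (by decide +kernel) WQ041.q823⟩

theorem w824 : Wx (EX xs7) Vale.Agent.P032X.Cert.X3.t1 (Vale.Agent.P032.Fam.fam3 Vale.Agent.P032.Fam.im0) WQ041.W824 := ⟨[0, 8, 16, 24, 32, 40, 48, 4, 12, 20, 28, 36, 44, 52, 60, 68, 76, 84, 92, 100, 108, 116, 124, 132, 140, 148, 156, 164, 172, 180, 188, 196, 204, 212, 220, 228, 236, 244, 36521817, 16777217, 40765273],
  Vale.Agent.P032.Lt.q_of (e' := WQ041.e824) (by decide +kernel) WQ041.q824⟩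

theorem w825 : Wx (EX xs7) Vale.Agent.P032X.Cert.X3.t1 (Vale.Agent.P032.Fam.fam3 Vale.Agent.P032.Fam.im0) WQ041.W825 := ⟨[0, 8, 16, 24, 32, 40, 48, 4, 12, 20, 28, 36, 44, 52, 60, 68, 76, 84, 92, 100, 108, 116, 124, 132, 69079937, 64242393, 851974, 2424838, 2949126],
  Vale.Agent.P032.Lt.q_of (e' := WQ041.e825) (by decide +kernel) WQ041.q825⟩

theorem w826 : Wx (EX xs7) Vale.Agent.P032X.Cert.X3.t1 (Vale.Agent.P032.Fam.fam3 Vale.Agent.P032.Fam.im0) WQ041.W826 := ⟨[0, 8, 16, 24, 32, 40, 48, 4, 12, 20, 28, 36, 44, 52, 60, 68, 76, 84, 92, 100, 108, 116, 124, 132, 140, 148, 156, 164, 172, 180, 188, 196, 204, 11865305, 19402533],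
  Vale.Agent.P032.Lt.q_of (e' := WQ041.e826) (by decide +kernel) WQ041.q826⟩

theorem w827 : Wx (EX xs7) Vale.Agent.P032X.Cert.X3.t1 (Vale.Agent.P032.Fam.fam3 Vale.Agent.P032.Fam.im0) WQ041.W827 := ⟨[0, 8, 16, 24, 32, 40, 48, 4, 12, 20, 28, 36, 44, 52, 60, 68, 76, 84, 92, 100, 108, 116, 124, 132, 140, 148, 156, 164, 172, 180, 99975169, 327686, 2424838, 2957318],
  Vale.Agent.P032.Lt.q_of (e' := WQ041.e827) (by decide +kernel) WQ041.q827⟩

theorem w828 : Wx (EX xs7) Vale.Agent.P032X.Cert.X3.t1 (Vale.Agent.P032.Fam.fam3 Vale.Agent.P032.Fam.im0) WQ041.W828 := ⟨[0, 8, 16, 24, 32, 40, 48, 4, 12, 20, 28, 36, 44, 52, 60, 68, 76, 84, 92, 100, 108, 116, 124, 132, 140, 148, 156, 164, 172, 180, 188, 196, 204, 129761665, 117178881, 344070, 352262, 1384454, 2449414, 2981894],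
  Vale.Agent.P032.Lt.q_of (e' := WQ041.e828) (by decide +kernel) WQ041.q828⟩

theorem w829 : Wx (EX xs7) Vale.Agent.P032X.Cert.X3.t1 (Vale.Agent.P032.Fam.fam3 Vale.Agent.P032.Fam.im0) WQ041.W829 := ⟨[0, 8, 16, 24, 32, 40, 48, 4, 12, 20, 28, 36, 44, 52, 60, 68, 76, 84, 92, 100, 108, 116, 124, 132, 140, 148, 156, 164, 172, 180, 188, 196, 129761665],
  Vale.Agent.P032.Lt.q_of (e' := WQ041.e829) (by decide +kernel) WQ041.q829⟩

theorem w830 : Wx (EX xs7) Vale.Agent.P032X.Cert.X3.t1 (Vale.Agent.P032.Fam.fam3 Vale.Agent.P032.Fam.im0) WQ041.W830 := ⟨[0, 8, 16, 24, 32, 40, 48, 4, 12, 20, 28, 36, 44, 52, 60, 68, 76, 84, 92, 100, 108, 116, 124, 132, 140, 148, 156, 164, 172, 180, 188, 196, 204, 212, 17596417, 327686, 851974],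
  Vale.Agent.P032.Lt.q_of (e' := WQ041.e830) (by decide +kernel) WQ041.q830⟩

theorem w831 : Wx (EX xs7) Vale.Agent.P032X.Cert.X3.t1 (Vale.Agent.P032.Fam.fam3 Vale.Agent.P032.Fam.im0) WQ041.W831 := ⟨[0, 8, 16, 24, 32, 40, 48, 4, 12, 20, 28, 36, 44, 52, 60, 68, 76, 84, 92, 100, 108, 116, 124, 132, 140, 148, 156, 164, 172, 180, 188, 196, 84477657, 17372121, 31988101, 327686, 851974, 2957318],
  Vale.Agent.P032.Lt.q_of (e' := WQ041.e831) (by decide +kernel) WQ041.q831⟩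

theorem w832 : Wx (EX xs7) Vale.Agent.P032X.Cert.X3.t1 (Vale.Agent.P032.Fam.fam3 Vale.Agent.P032.Fam.im0) WQ041.W832 := ⟨[0, 8, 16, 24, 32, 40, 48, 4, 12, 20, 28, 36, 44, 52, 60, 68, 76, 84, 92, 100, 108, 116, 124, 132, 140, 148, 156, 164, 172, 180, 188, 196, 204, 212, 220, 228, 88874381, 31886501, 5506605, 50188325, 130023653],
  Vale.Agent.P032.Lt.q_of (e' := WQ041.e832) (by decide +kernel) WQ041.q832⟩

theorem w833 : Wx (EX xs7) Vale.Agent.P032X.Cert.X3.t1 (Vale.Agent.P032.Fam.fam3 Vale.Agent.P032.Fam.im0) WQ041.W833 := ⟨[0, 8, 16, 24, 32, 40, 48, 4, 12, 20, 28, 36, 44, 52, 60, 68, 76, 84, 92, 100, 108, 116, 124, 132, 140, 148, 156, 164, 172, 180, 188, 196, 204, 77430785, 130023781, 49220757, 50190117, 50190245, 49350233, 10321921, 47535385, 327686, 2424838],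
  Vale.Agent.P032.Lt.q_of (e' := WQ041.e833) (by decide +kernel) WQ041.q833⟩

theorem w834 : Wx (EX xs7) Vale.Agent.P032X.Cert.X3.t1 (Vale.Agent.P032.Fam.fam3 Vale.Agent.P032.Fam.im0) WQ041.W834 := ⟨[0, 8, 16, 24, 32, 40, 48, 4, 12, 20, 28, 36, 44, 52, 60, 68, 76, 84, 92, 100, 108, 116, 124, 132, 140, 148, 156, 164, 172, 180, 188, 196, 204, 212, 220, 228, 236, 244, 55969497, 116981953, 95649793, 114688193, 31736001, 47580889, 123076609, 327686, 851974, 2949126, 2957318],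
  Vale.Agent.P032.Lt.q_of (e' := WQ041.e834) (by decide +kernel) WQ041.q834⟩

theorem w835 : Wx (EX xs7) Vale.Agent.P032X.Cert.X3.t1 (Vale.Agent.P032.Fam.fam3 Vale.Agent.P032.Fam.im0) WQ041.W835 := ⟨[0, 8, 16, 24, 32, 40, 48, 4, 12, 20, 28, 36, 44, 52, 60, 68, 76, 84, 92, 100, 108, 116, 124, 132, 140, 148, 156, 164, 172, 180, 59539457],
  Vale.Agent.P032.Lt.q_of (e' := WQ041.e835) (by decide +kernel) WQ041.q835⟩

theorem w836 : Wx (EX xs7) Vale.Agent.P032X.Cert.X3.t1 (Vale.Agent.P032.Fam.fam3 Vale.Agent.P032.Fam.im0) WQ041.W836 := ⟨[0, 8, 16, 24, 32, 40, 48, 4, 12, 20, 28, 36, 44, 52, 60, 68, 76, 84, 92, 100, 108, 116, 124, 132, 140, 148, 55050245, 31982917, 25657477, 13828101],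
  Vale.Agent.P032.Lt.q_of (e' := WQ041.e836) (by decide +kernel) WQ041.q836⟩

theorem w837 : Wx (EX xs7) Vale.Agent.P032X.Cert.X3.t1 (Vale.Agent.P032.Fam.fam3 Vale.Agent.P032.Fam.im0) WQ041.W837 := ⟨[0, 8, 16, 24, 32, 40, 48, 4, 12, 20, 28, 36, 44, 52, 60, 68, 76, 84, 92, 100, 108, 116, 124, 132, 140, 148, 156, 164, 172, 98569189, 73400385, 53512025, 98568869, 29788325, 98568485, 73400321, 53511897, 29788197],
  Vale.Agent.P032.Lt.q_of (e' := WQ041.e837) (by decide +kernel) WQ041.q837⟩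

theorem w838 : Wx (EX xs7) Vale.Agent.P032X.Cert.X3.t1 (Vale.Agent.P032.Fam.fam3 Vale.Agent.P032.Fam.im0) WQ041.W838 := ⟨[0, 8, 16, 24, 32, 40, 48, 4, 12, 20, 28, 36, 44, 52, 60, 68, 76, 84, 92, 100, 108, 116, 124, 132, 140, 148, 156, 164, 172, 180, 188, 196, 130023757, 75628825, 75628801, 89557709, 89557645, 75628673, 75628697, 89557349, 89557285, 58723661, 75628865],
  Vale.Agent.P032.Lt.q_of (e' := WQ041.e838) (by decide +kernel) WQ041.q838⟩

theorem w839 : Wx (EX xs7) Vale.Agent.P032X.Cert.X3.t1 (Vale.Agent.P032.Fam.fam3 Vale.Agent.P032.Fam.im0) WQ041.W839 := ⟨[0, 8, 16, 24, 32, 40, 48, 4, 12, 20, 28, 36, 44, 52, 60, 68, 76, 84, 92, 100, 108, 116, 124, 132, 140, 148, 156, 164, 172, 180, 188, 196, 204, 212, 220, 39059521, 104042881, 20152385, 72613889, 45288513, 11993153, 5259269, 49223829, 49219349, 58723365, 104042497, 20152321, 72613953, 39059457, 45288449, 11993089, 5259333, 49219093, 49219221, 58723429, 327686, 851974,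 2949126],
  Vale.Agent.P032.Lt.q_of (e' := WQ041.e839) (by decide +kernel) WQ041.q839⟩

theorem w840 : Wx (EX xs7) Vale.Agent.P032X.Cert.X3.t1 (Vale.Agent.P032.Fam.fam3 Vale.Agent.P032.Fam.im0) WQ041.W840 := ⟨[0, 8, 16, 24, 32, 40, 48, 4, 12, 20, 28, 36, 44, 52, 60, 68, 76, 84, 92, 100, 108, 116, 124, 132, 140, 148, 156, 164, 172, 180, 74449369, 5505169, 31457489, 43303385, 1376262, 2424838, 2949126],
  Vale.Agent.P032.Lt.q_of (e' := WQ041.e840) (by decide +kernel) WQ041.q840⟩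

theorem w841 : Wx (EX xs7) Vale.Agent.P032X.Cert.X3.t1 (Vale.Agent.P032.Fam.fam3 Vale.Agent.P032.Fam.im0) WQ041.W841 := ⟨[0, 8, 16, 24, 32, 40, 48, 4, 12, 20, 28, 36, 44, 52, 60, 68, 76, 84, 92, 100, 108, 116, 124, 132, 140, 148, 156, 164, 172, 180, 188, 196, 204, 71880089, 44109209, 115916801, 46402969, 50122137, 23248897, 8998297, 17386905, 50941337, 61046785, 12508569, 115917865, 125767065, 53546393, 76136513, 67207169, 93361553, 21433753, 1900550, 1908742, 2949126, 95730638610458],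
  Vale.Agent.P032.Lt.q_of (e' := WQ041.e841) (by decide +kernel) WQ041.q841⟩

theorem w842 : Wx (EX xs7) Vale.Agent.P032X.Cert.X3.t1 (Vale.Agent.P032.Fam.fam3 Vale.Agent.P032.Fam.im0) WQ041.W842 := ⟨[0, 8, 16, 24, 32, 40, 48, 4, 12, 20, 28, 36, 44, 52, 60, 68, 76, 84, 92, 100, 108, 116, 124, 132, 140, 148, 156, 164, 41795993, 40370177, 55886721, 17320613, 1376262, 1900550, 2949126],
  Vale.Agent.P032.Lt.q_of (e' := WQ041.e842) (by decide +kernel) WQ041.q842⟩

theorem w843 : Wx (EX xs7) Vale.Agent.P032X.Cert.X3.t1 (Vale.Agent.P032.Fam.fam3 Vale.Agent.P032.Fam.im0) WQ041.W843 := ⟨[0, 8, 16, 24, 32, 40, 48, 4, 12, 20, 28, 36, 44, 52, 60, 68, 76, 84, 92, 100, 108, 116, 124, 132, 140, 148, 156, 164, 172, 180, 188, 196, 204, 212, 42258201, 42651417, 11980569, 28626713, 21348353, 118542105, 25218841, 15253505, 41602841, 44093209, 119590681, 46714649, 30851073, 851974, 860166, 892934, 1417222, 1908742, 1941510, 2424838, 2465798,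 2949126, 38878147068090, 56488865660986, 74053936562362, 78383263596730, 97113618079770, 97354169802778],
  Vale.Agent.P032.Lt.q_of (e' := WQ041.e843) (by decide +kernel) WQ041.q843⟩

theorem w844 : Wx (EX xs7) Vale.Agent.P032X.Cert.X3.t1 (Vale.Agent.P032.Fam.fam3 Vale.Agent.P032.Fam.im0) WQ041.W844 := ⟨[0, 8, 16, 24, 32, 40, 48, 4, 12, 20, 28, 36, 44, 52, 60, 68, 76, 84, 92, 100, 108, 116, 124, 132, 140, 148, 156, 164, 172, 180, 188, 196, 93362977, 93358049, 36700249, 6209537, 36700377, 93363361, 93358433, 2424838, 2949126, 97655044005914],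
  Vale.Agent.P032.Lt.q_of (e' := WQ041.e844) (by decide +kernel) WQ041.q844⟩

theorem w845 : Wx (EX xs7) Vale.Agent.P032X.Cert.X3.t1 (Vale.Agent.P032.Fam.fam3 Vale.Agent.P032.Fam.im0) WQ042.W845 := ⟨[0, 8, 16, 24, 32, 40, 48, 4, 12, 20, 28, 36, 44, 52, 60, 68, 76, 84, 92, 100, 108, 116, 124, 132, 140, 148, 156, 164, 172, 180, 188, 196, 204, 212, 220, 228, 28311961, 11911577, 55312793, 18612633, 99024961, 74842177, 50561433, 31916441, 83935297, 69845401, 37355929, 20578713, 20725825, 10535321, 36848089, 30966169, 123863105, 43827265, 101826969, 76595609, 25346457, 14467481, 58474497, 6996377, 130072985, 75170201, 105578969, 11731353, 557465, 114344345, 17612865, 94994497, 21282881, 58245529, 53133721, 1900550, 2949126],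
  Vale.Agent.P032.Lt.q_of (e' := WQ042.e845) (by decide +kernel) WQ042.q845⟩

theorem w846 : Wx (EX xs7) Vale.Agent.P032X.Cert.X3.t1 (Vale.Agent.P032.Fam.fam3 Vale.Agent.P032.Fam.im0) WQ042.W846 := ⟨[0, 8, 16, 24, 32, 40, 48, 4, 12, 20, 28, 36, 44, 52, 60, 68, 76, 84, 92, 100, 108, 116, 124, 132, 140, 148, 156, 164, 172, 180, 188, 196, 61145153, 64143833, 58720537, 67633665, 43303385, 21397697, 120111297, 84983809, 49398233, 54951937, 51167233, 2424838, 2949126],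
  Vale.Agent.P032.Lt.q_of (e' := WQ042.e846) (by decide +kernel) WQ042.q846⟩

theorem w847 : Wx (EX xs7) Vale.Agent.P032X.Cert.X3.t1 (Vale.Agent.P032.Fam.fam3 Vale.Agent.P032.Fam.im0) WQ042.W847 := ⟨[0, 8, 16, 24, 32, 40, 48, 4, 12, 20, 28, 36, 44, 52, 60, 68, 76, 84, 92, 100, 108, 116, 124, 132, 140, 148, 87035737, 98946841, 14339929],
  Vale.Agent.P032.Lt.q_of (e' := WQ042.e847) (by decide +kernel) WQ042.q847⟩

theorem w848 : Wx (EX xs7) Vale.Agent.P032X.Cert.X3.t1 (Vale.Agent.P032.Fam.fam3 Vale.Agent.P032.Fam.im0) WQ042.W848 := ⟨[0, 8, 16, 24, 32, 40, 48, 4, 12, 20, 28, 36, 44, 52, 60, 68, 76, 84, 92, 100, 108, 116, 124, 132, 140, 148, 156, 164, 172, 180, 188, 196, 204, 212, 220, 28229633, 77185025, 78512129, 34390489, 43418073, 74317825, 126992385, 56934873, 77398017, 1376262, 1900550, 2949126],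
  Vale.Agent.P032.Lt.q_of (e' := WQ042.e848) (by decide +kernel) WQ042.q848⟩

theorem w849 : Wx (EX xs7) Vale.Agent.P032X.Cert.X3.t1 (Vale.Agent.P032.Fam.fam3 Vale.Agent.P032.Fam.im0) WQ042.W849 := ⟨[0, 8, 16, 24, 32, 40, 48, 4, 12, 20, 28, 36, 44, 52, 60, 68, 76, 84, 92, 100, 108, 116, 124, 132, 140, 26067225, 1507329, 1376262, 1900550, 57608501551130],
  Vale.Agent.P032.Lt.q_of (e' := WQ042.e849) (by decide +kernel) WQ042.q849⟩

theorem w850 : Wx (EX xs7) Vale.Agent.P032X.Cert.X3.t1 (Vale.Agent.P032.Fam.fam3 Vale.Agent.P032.Fam.im0) WQ042.W850 := ⟨[0, 8, 16, 24, 32, 40, 48, 4, 12, 20, 28, 36, 44, 52, 60, 68, 76, 84, 92, 100, 108, 116, 124, 132, 140, 148, 156, 164, 172, 180, 188, 196, 204, 16371481, 42651417, 14080617, 35576721, 851974, 1376262, 1417222, 1941510, 2424838, 2949126, 2981894, 58690838544570, 74024101437466, 76188764954650, 97113610739738],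
  Vale.Agent.P032.Lt.q_of (e' := WQ042.e850) (by decide +kernel) WQ042.q850⟩

theorem w851 : Wx (EX xs7) Vale.Agent.P032X.Cert.X3.t1 (Vale.Agent.P032.Fam.fam3 Vale.Agent.P032.Fam.im0) WQ042.W851 := ⟨[0, 8, 16, 24, 32, 40, 48, 4, 12, 20, 28, 36, 44, 52, 60, 68, 76, 84, 92, 100, 108, 116, 124, 132, 140, 148, 156, 164, 172, 180, 188, 196, 204, 212, 220, 32411033, 93357729, 56282521, 25018369, 99090497, 31391745, 60162049, 131645505, 12848537, 71960593, 132644865, 28688385, 860166, 1900550, 1908742, 2949126, 56248079056954, 94918848897050, 94918856237082, 94918857285658, 94918882451482, 94918889791514, 94918890840090],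
  Vale.Agent.P032.Lt.q_of (e' := WQ042.e851) (by decide +kernel) WQ042.q851⟩

theorem w852 : Wx (EX xs7) Vale.Agent.P032X.Cert.X3.t1 (Vale.Agent.P032.Fam.fam3 Vale.Agent.P032.Fam.im0) WQ042.W852 := ⟨[0, 8, 16, 24, 32, 40, 48, 4, 12, 20, 28, 36, 44, 52, 60, 68, 76, 84, 92, 100, 108, 116, 124, 132, 140, 148, 156, 164, 172, 180, 188, 196, 204, 32411097, 69062105, 5409345, 105742337, 851974, 860166, 1376262, 1908742, 2424838, 2949126, 56248079056954],
  Vale.Agent.P032.Lt.q_of (e' := WQ042.e852) (by decide +kernel) WQ042.q852⟩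

theorem w853 : Wx (EX xs7) Vale.Agent.P032X.Cert.X3.t1 (Vale.Agent.P032.Fam.fam3 Vale.Agent.P032.Fam.im0) WQ042.W853 := ⟨[0, 8, 16, 24, 32, 40, 48, 4, 12, 20, 28, 36, 44, 52, 60, 68, 76, 84, 92, 100, 108, 116, 124, 132, 140, 148, 156, 164, 172, 180, 188, 196, 204, 212, 220, 11980569, 16371481, 28626713, 59035417, 34000857, 7786265, 72929049, 27053849, 58904345, 89129153, 30851073, 87609113, 2424838, 2433030, 2949126, 97102308139034, 97102341693466, 97113584525338, 97113585573914, 97113618079770, 97113619128346],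
  Vale.Agent.P032.Lt.q_of (e' := WQ042.e853) (by decide +kernel) WQ042.q853⟩

theorem w854 : Wx (EX xs7) Vale.Agent.P032X.Cert.X3.t1 (Vale.Agent.P032.Fam.fam3 Vale.Agent.P032.Fam.im0) WQ042.W854 := ⟨[0, 8, 16, 24, 32, 40, 48, 4, 12, 20, 28, 36, 44, 52, 60, 68, 76, 84, 92, 100, 108, 116, 124, 132, 140, 148, 156, 164, 172, 180, 188, 196, 204, 69730641, 32411097, 83886081, 1490945, 22986817, 104972545, 860166, 1384454, 1900550, 1908742, 2949126, 56248079056954, 58446558101562, 95700574887962, 95730638610458, 95730639659034],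
  Vale.Agent.P032.Lt.q_of (e' := WQ042.e854) (by decide +kernel) WQ042.q854⟩

theorem w855 : Wx (EX xs7) Vale.Agent.P032X.Cert.X3.t1 (Vale.Agent.P032.Fam.fam3 Vale.Agent.P032.Fam.im0) WQ042.W855 := ⟨[0, 8, 16, 24, 32, 40, 48, 4, 12, 20, 28, 36, 44, 52, 60, 68, 76, 84, 92, 100, 108, 116, 124, 132, 140, 148, 156, 164, 172, 180, 130023553, 104992217, 36441561, 120687705, 8437761, 61132249, 100961753, 73207257, 15581249, 54870017, 69779457, 32292865, 32411097, 860166, 1900550, 1908742, 2433030, 2949126, 56248079056954, 73565387194426, 95730638610458],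
  Vale.Agent.P032.Lt.q_of (e' := WQ042.e855) (by decide +kernel) WQ042.q855⟩

theorem w856 : Wx (EX xs7) Vale.Agent.P032X.Cert.X3.t1 (Vale.Agent.P032.Fam.fam3 Vale.Agent.P032.Fam.im0) WQ042.W856 := ⟨[0, 8, 16, 24, 32, 40, 48, 4, 12, 20, 28, 36, 44, 52, 60, 68, 76, 84, 92, 100, 108, 116, 124, 132, 140, 148, 156, 5409689, 105745497, 32407553, 25739265, 129027545, 31247833, 107318745, 34786777, 851974, 1900550, 2949126],
  Vale.Agent.P032.Lt.q_of (e' := WQ042.e856) (by decide +kernel) WQ042.q856⟩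

theorem w857 : Wx (EX xs7) Vale.Agent.P032X.Cert.X3.t1 (Vale.Agent.P032.Fam.fam3 Vale.Agent.P032.Fam.im0) WQ042.W857 := ⟨[0, 8, 16, 24, 32, 40, 48, 4, 12, 20, 28, 36, 44, 52, 60, 68, 76, 84, 92, 100, 108, 116, 124, 28229825, 16105473, 118013953, 39633857, 66933477, 35831809, 55054105, 127402945, 860166, 1908742, 2424838, 2433030, 2949126, 2957318, 56248071716922, 56248079056954, 73565379854394, 73565387194426, 97102334353434, 97102342742042, 97102569234458, 97102577623066, 97113618079770, 97113852960794],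
  Vale.Agent.P032.Lt.q_of (e' := WQ042.e857) (by decide +kernel) WQ042.q857⟩

theorem w858 : Wx (EX xs7) Vale.Agent.P032X.Cert.X3.t1 (Vale.Agent.P032.Fam.fam3 Vale.Agent.P032.Fam.im0) WQ042.W858 := ⟨[0, 8, 16, 24, 32, 40, 48, 4, 12, 20, 28, 36, 44, 52, 60, 68, 76, 84, 92, 100, 108, 116, 124, 132, 140, 148, 156, 164, 172, 61345241, 5506785, 103288281, 61345177, 70323609, 60293121, 44109209, 71880089, 115916801, 79957401, 9358745, 11455897, 36769177, 27623425, 63737241, 46402969, 24428545, 127798681, 79396865, 123538841, 53546393, 111218073, 45842433, 63458713, 8998297, 78708737, 1900550, 1908742, 2949126, 2957318, 95730638610458],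
  Vale.Agent.P032.Lt.q_of (e' := WQ042.e858) (by decide +kernel) WQ042.q858⟩

theorem w859 : Wx (EX xs7) Vale.Agent.P032X.Cert.X3.t1 (Vale.Agent.P032.Fam.fam3 Vale.Agent.P032.Fam.im0) WQ042.W859 := ⟨[0, 8, 16, 24, 32, 40, 48, 4, 12, 20, 28, 36, 44, 52, 60, 68, 76, 84, 92, 100, 108, 116, 124, 29474817, 26001409, 79282177, 133222105, 64274433, 13025281, 104451097, 130023553, 2424838, 2949126, 97651024814106],
  Vale.Agent.P032.Lt.q_of (e' := WQ042.e859) (by decide +kernel) WQ042.q859⟩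

theorem w860 : Wx (EX xs7) Vale.Agent.P032X.Cert.X3.t1 (Vale.Agent.P032.Fam.fam3 Vale.Agent.P032.Fam.im0) WQ042.W860 := ⟨[0, 8, 16, 24, 32, 40, 48, 4, 12, 20, 28, 36, 44, 52, 60, 68, 76, 84, 92, 100, 108, 116, 124, 132, 140, 148, 156, 164, 172, 180, 188, 196, 204, 212, 130596865, 50184537, 53510229, 130027417, 46514305, 4900161, 11980569, 50188353, 92799321, 87605249, 44879641, 61919001, 69734497, 77594689, 30854937, 55050241, 37228441, 60149529, 92851993, 15257369, 1953561, 71307225, 79695641, 64540441, 88869601, 2101089, 36556569, 57458817, 8309977, 18399233, 21889921, 58724169, 1900550, 2424838, 2949126, 97113618079770],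
  Vale.Agent.P032.Lt.q_of (e' := WQ042.e860) (by decide +kernel) WQ042.q860⟩

theorem w861 : Wx (EX xs7) Vale.Agent.P032X.Cert.X3.t1 (Vale.Agent.P032.Fam.fam3 Vale.Agent.P032.Fam.im0) WQ042.W861 := ⟨[0, 8, 16, 24, 32, 40, 48, 4, 12, 20, 28, 36, 44, 52, 60, 68, 76, 84, 92, 100, 108, 116, 124, 132, 140, 112771073, 16105473, 335878, 851974, 860166, 1908742, 2424838, 2433030, 2949126, 2957318, 73565379854394, 73565387194426, 78376011661370, 78376019001402, 97102334353434, 97102341693466, 97102569234458, 97102576574490, 97113618079770, 97113852960794],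
  Vale.Agent.P032.Lt.q_of (e' := WQ042.e861) (by decide +kernel) WQ042.q861⟩

theorem w862 : Wx (EX xs7) Vale.Agent.P032X.Cert.X3.t1 (Vale.Agent.P032.Fam.fam3 Vale.Agent.P032.Fam.im0) WQ042.W862 := ⟨[0, 8, 16, 24, 32, 40, 48, 4, 12, 20, 28, 36, 44, 52, 60, 68, 76, 84, 92, 100, 108, 116, 124, 132, 140, 148, 39440153, 16109337, 2424838, 2949126, 97113619128346],
  Vale.Agent.P032.Lt.q_of (e' := WQ042.e862) (by decide +kernel) WQ042.q862⟩

theorem w863 : Wx (EX xs7) Vale.Agent.P032X.Cert.X3.t1 (Vale.Agent.P032.Fam.fam3 Vale.Agent.P032.Fam.im0) WQ042.W863 := ⟨[0, 8, 16, 24, 32, 40, 48, 4, 12, 20, 28, 36, 44, 52, 60, 68, 76, 84, 92, 100, 108, 116, 124, 132, 140, 148, 156, 164, 172, 180, 188, 91128217, 104907161, 37502977, 98304409, 8208857, 118653337, 352262, 2949126, 2973702, 88631490707578, 89172656586874],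
  Vale.Agent.P032.Lt.q_of (e' := WQ042.e863) (by decide +kernel) WQ042.q863⟩

theorem w864 : Wx (EX xs7) Vale.Agent.P032X.Cert.X3.t1 (Vale.Agent.P032.Fam.fam3 Vale.Agent.P032.Fam.im0) WQ042.W864 := ⟨[0, 8, 16, 24, 32, 40, 48, 4, 12, 20, 28, 36, 44, 52, 60, 68, 76, 84, 92, 100, 108, 116, 124, 130023553, 10341785, 8968161, 573505, 63324161, 47877593, 66240513, 18466637, 851974, 860166, 1925126, 2424838, 2433030, 2449414, 2949126, 74046684627002, 77331226230906],
  Vale.Agent.P032.Lt.q_of (e' := WQ042.e864) (by decide +kernel) WQ042.q864⟩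

theorem w865 : Wx (EX xs7) Vale.Agent.P032X.Cert.X3.t1 (Vale.Agent.P032.Fam.fam3 Vale.Agent.P032.Fam.im0) WQ042.W865 := ⟨[0, 8, 16, 24, 32, 40, 48, 4, 12, 20, 28, 36, 44, 52, 60, 68, 76, 84, 92, 100, 108, 116, 124, 132, 140, 148, 156, 164, 172, 16371481, 87609113, 335878, 1908742, 2424838, 2949126, 53952179961914, 97102333304858, 97102341693466, 97102342742042, 97113618079770],
  Vale.Agent.P032.Lt.q_of (e' := WQ042.e865) (by decide +kernel) WQ042.q865⟩

theorem w866 : Wx (EX xs7) Vale.Agent.P032X.Cert.X3.t1 (Vale.Agent.P032.Fam.fam3 Vale.Agent.P032.Fam.im0) WQ042.W866 := ⟨[0, 8, 16, 24, 32, 40, 48, 4, 12, 20, 28, 36, 44, 52, 60, 68, 76, 84, 92, 100, 108, 116, 124, 132, 140, 148, 156, 164, 172, 180, 32407553, 57508033, 573505, 61394393, 3850305, 132238809, 25742809, 56282585, 122486785, 130023681, 851974, 860166, 1376262, 1908742, 2424838, 2433030, 2949126, 56248071716922, 56248079056954, 73565379854394, 73565387194426],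
  Vale.Agent.P032.Lt.q_of (e' := WQ042.e866) (by decide +kernel) WQ042.q866⟩

theorem w867 : Wx (EX xs7) Vale.Agent.P032X.Cert.X3.t1 (Vale.Agent.P032.Fam.fam3 Vale.Agent.P032.Fam.im0) WQ042.W867 := ⟨[0, 8, 16, 24, 32, 40, 48, 4, 12, 20, 28, 36, 44, 52, 60, 68, 76, 84, 92, 100, 108, 116, 124, 132, 140, 148, 156, 16367617, 28622849, 21381121, 52215809, 40550401, 87031873, 115412761, 1392646, 1900550, 2424838, 2949126, 97102342742042, 97113618079770, 97342894465050, 97354169802778],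
  Vale.Agent.P032.Lt.q_of (e' := WQ042.e867) (by decide +kernel) WQ042.q867⟩

theorem w868 : Wx (EX xs7) Vale.Agent.P032X.Cert.X3.t1 (Vale.Agent.P032.Fam.fam3 Vale.Agent.P032.Fam.im0) WQ042.W868 := ⟨[0, 8, 16, 24, 32, 40, 48, 4, 12, 20, 28, 36, 44, 52, 60, 68, 76, 84, 92, 100, 108, 116, 124, 132, 140, 148, 16105473, 39436289, 860166, 892934, 1941510, 2424838, 2433030, 2949126, 56496110256314, 73565379854394, 97102309187610, 97102342742042, 97113584525338, 97113618079770],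
  Vale.Agent.P032.Lt.q_of (e' := WQ042.e868) (by decide +kernel) WQ042.q868⟩

theorem w869 : Wx (EX xs7) Vale.Agent.P032X.Cert.X3.t1 (Vale.Agent.P032.Fam.fam3 Vale.Agent.P032.Fam.im0) WQ042.W869 := ⟨[0, 8, 16, 24, 32, 40, 48, 4, 12, 20, 28, 36, 44, 52, 60, 68, 76, 84, 92, 100, 108, 116, 124, 132, 140, 148, 156, 164, 172, 180, 188, 196, 204, 212, 220, 62963777, 4112449, 851974, 868358, 1384454, 1392646, 1908742, 2433030, 38656589275226, 58446565441594, 75763873579066, 77688018927674],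
  Vale.Agent.P032.Lt.q_of (e' := WQ042.e869) (by decide +kernel) WQ042.q869⟩

theorem w870 : Wx (EX xs7) Vale.Agent.P032X.Cert.X3.t1 (Vale.Agent.P032.Fam.fam3 Vale.Agent.P032.Fam.im0) WQ042.W870 := ⟨[0, 8, 16, 24, 32, 40, 48, 4, 12, 20, 28, 36, 44, 52, 60, 68, 76, 84, 92, 100, 108, 116, 124, 132, 140, 148, 156, 164, 87031809, 71880089, 114409473, 33669121, 87080961, 851974, 860166, 1900550, 2433030, 2949126, 73565387194426],
  Vale.Agent.P032.Lt.q_of (e' := WQ042.e870) (by decide +kernel) WQ042.q870⟩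

theorem w871 : Wx (EX xs7) Vale.Agent.P032X.Cert.X3.t1 (Vale.Agent.P032.Fam.fam3 Vale.Agent.P032.Fam.im0) WQ042.W871 := ⟨[0, 8, 16, 24, 32, 40, 48, 4, 12, 20, 28, 36, 44, 52, 60, 68, 76, 84, 92, 100, 108, 116, 124, 132, 140, 148, 156, 164, 172, 180, 188, 196, 204, 14483457, 15914641, 87719937, 81598097],
  Vale.Agent.P032.Lt.q_of (e' := WQ042.e871) (by decide +kernel) WQ042.q871⟩

theorem w872 : Wx (EX xs7) Vale.Agent.P032X.Cert.X3.t1 (Vale.Agent.P032.Fam.fam3 Vale.Agent.P032.Fam.im0) WQ042.W872 := ⟨[0, 8, 16, 24, 32, 40, 48, 4, 12, 20, 28, 36, 44, 52, 60, 68, 76, 84, 92, 100, 108, 116, 124, 132, 140, 148, 65191937, 851974, 2424838, 2949126, 97113550970906, 97113618079770],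
  Vale.Agent.P032.Lt.q_of (e' := WQ042.e872) (by decide +kernel) WQ042.q872⟩

theorem w873 : Wx (EX xs7) Vale.Agent.P032X.Cert.X3.t1 (Vale.Agent.P032.Fam.fam3 Vale.Agent.P032.Fam.im0) WQ042.W873 := ⟨[0, 8, 16, 24, 32, 40, 48, 4, 12, 20, 28, 36, 44, 52, 60, 68, 76, 84, 92, 100, 108, 116, 124, 132, 140, 148, 156, 164, 172, 28624977, 59033681, 16367617, 28622849, 121896961, 7782401, 33079297, 33341441, 2211841, 30854937, 851974, 860166, 1908742, 2424838, 2949126, 56248079056954, 97102309187610, 97102342742042, 97113584525338, 97113618079770],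
  Vale.Agent.P032.Lt.q_of (e' := WQ042.e873) (by decide +kernel) WQ042.q873⟩

theorem w874 : Wx (EX xs7) Vale.Agent.P032X.Cert.X3.t1 (Vale.Agent.P032.Fam.fam3 Vale.Agent.P032.Fam.im0) WQ042.W874 := ⟨[0, 8, 16, 24, 32, 40, 48, 4, 12, 20, 28, 36, 44, 52, 60, 68, 76, 84, 92, 100, 108, 116, 124, 132, 25739265, 31637505, 27181121, 51429377, 61652993, 32407553, 16829913, 2146305, 14601689, 32820697, 26525697, 27312129, 24497561, 20496385, 45400065, 27443201, 123256833, 3194881, 73666977, 89262253, 851974, 1900550, 2949126],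
  Vale.Agent.P032.Lt.q_of (e' := WQ042.e874) (by decide +kernel) WQ042.q874⟩

theorem w875 : Wx (EX xs7) Vale.Agent.P032X.Cert.X3.t1 (Vale.Agent.P032.Fam.fam3 Vale.Agent.P032.Fam.im0) WQ042.W875 := ⟨[0, 8, 16, 24, 32, 40, 48, 4, 12, 20, 28, 36, 44, 52, 60, 68, 76, 84, 92, 100, 108, 116, 124, 132, 140, 148, 156, 164, 172, 180, 188, 196, 122945537, 11911169, 18268161, 65814529, 26230785, 29065217, 91750465, 49807425, 65077313, 1376262, 1900550, 2949126],
  Vale.Agent.P032.Lt.q_of (e' := WQ042.e875) (by decide +kernel) WQ042.q875⟩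

theorem w876 : Wx (EX xs7) Vale.Agent.P032X.Cert.X3.t1 (Vale.Agent.P032.Fam.fam3 Vale.Agent.P032.Fam.im0) WQ042.W876 := ⟨[0, 8, 16, 24, 32, 40, 48, 4, 12, 20, 28, 36, 44, 52, 60, 68, 76, 84, 92, 100, 108, 116, 124, 132, 140, 148, 156, 164, 172, 180, 188, 196, 204, 55313729, 28229697, 54018049, 96174081, 24707073, 63799361, 35700801, 335878, 851974, 1933318, 2424838, 2949126, 2981894, 94904048230554],
  Vale.Agent.P032.Lt.q_of (e' := WQ042.e876) (by decide +kernel) WQ042.q876⟩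

theorem w877 : Wx (EX xs7) Vale.Agent.P032X.Cert.X3.t1 (Vale.Agent.P032.Fam.fam3 Vale.Agent.P032.Fam.im0) WQ043.W877 := ⟨[0, 8, 16, 24, 32, 40, 48, 4, 12, 20, 28, 36, 44, 52, 60, 68, 76, 84, 92, 100, 108, 116, 124, 20109889],
  Vale.Agent.P032.Lt.q_of (e' := WQ043.e877) (by decide +kernel) WQ043.q877⟩

theorem w878 : Wx (EX xs7) Vale.Agent.P032X.Cert.X3.t1 (Vale.Agent.P032.Fam.fam3 Vale.Agent.P032.Fam.im0) WQ043.W878 := ⟨[0, 8, 16, 24, 32, 40, 48, 4, 12, 20, 28, 36, 44, 52, 60, 68, 76, 84, 92, 100, 108, 116, 124, 132, 140, 148, 156, 164, 172, 180, 188, 196, 204, 55312385, 28229697, 18481153, 68812801, 48889857, 115998721, 33832961, 65667073, 32112641, 278529, 44433409, 54018049, 110755841, 86376449, 5373953, 26870169, 1704345, 93978689, 58769409, 29802497, 97894809, 2424838, 2949126],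
  Vale.Agent.P032.Lt.q_of (e' := WQ043.e878) (by decide +kernel) WQ043.q878⟩

theorem w879 : Wx (EX xs7) Vale.Agent.P032X.Cert.X3.t1 (Vale.Agent.P032.Fam.fam3 Vale.Agent.P032.Fam.im0) WQ043.W879 := ⟨[0, 8, 16, 24, 32, 40, 48, 4, 12, 20, 28, 36, 44, 52, 60, 68, 76, 84, 92, 100, 108, 116, 124, 132, 140, 148, 156, 164, 172, 180, 188, 196, 37750017, 8408473, 32411033, 130121729, 63012865, 39370753, 79282177, 9486337, 64274433, 27972265, 576985, 61423617, 41467905, 98091009, 10141697, 61653057, 13290905, 43699609, 42126745, 74567041, 21807105, 125878273, 104992153, 851974, 1376262, 2424838, 2949126],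
  Vale.Agent.P032.Lt.q_of (e' := WQ043.e879) (by decide +kernel) WQ043.q879⟩

theorem w880 : Wx (EX xs7) Vale.Agent.P032X.Cert.X3.t1 (Vale.Agent.P032.Fam.fam3 Vale.Agent.P032.Fam.im0) WQ043.W880 := ⟨[0, 8, 16, 24, 32, 40, 48, 4, 12, 20, 28, 36, 44, 52, 60, 68, 76, 84, 92, 100, 108, 116, 124, 132, 140, 148, 156, 164, 172, 16367617, 851974, 1376262, 1900550, 2424838, 2949126, 73302654935066, 75226800283674, 77421528571930, 97113584525338, 97113618079770, 97354438238234, 97354471792666],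
  Vale.Agent.P032.Lt.q_of (e' := WQ043.e880) (by decide +kernel) WQ043.q880⟩

theorem w881 : Wx (EX xs7) Vale.Agent.P032X.Cert.X3.t1 (Vale.Agent.P032.Fam.fam3 Vale.Agent.P032.Fam.im0) WQ043.W881 := ⟨[0, 8, 16, 24, 32, 40, 48, 4, 12, 20, 28, 36, 44, 52, 60, 68, 76, 84, 92, 100, 108, 116, 124, 132, 140, 148, 156, 164, 172, 180, 188, 196, 83411009, 46514433, 31459489, 71876609, 74563673, 32411033, 56410177, 56282521, 27541505, 83820545, 127795201, 61210625, 40124417, 61095937, 71237633, 60473345, 84967425, 42532865, 35717121, 50495489, 58654721, 125763585, 51412993, 1084889, 78693593, 33177601, 22331393, 17350657, 15646721, 46407137, 15654369, 23907737, 860166, 1900550, 1908742, 2433030, 2949126, 74046684627002, 78376011661370, 94918889791514],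
  Vale.Agent.P032.Lt.q_of (e' := WQ043.e881) (by decide +kernel) WQ043.q881⟩

theorem w882 : Wx (EX xs7) Vale.Agent.P032X.Cert.X3.t1 (Vale.Agent.P032.Fam.fam3 Vale.Agent.P032.Fam.im0) WQ043.W882 := ⟨[0, 8, 16, 24, 32, 40, 48, 4, 12, 20, 28, 36, 44, 52, 60, 68, 76, 84, 92, 100, 108, 116, 124, 132, 140, 148, 156, 164, 172, 180, 188, 196, 204, 28236065, 16111841, 35838177, 39640545, 1900550, 2424838, 2441222, 2965510],
  Vale.Agent.P032.Lt.q_of (e' := WQ043.e882) (by decide +kernel) WQ043.q882⟩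

theorem w883 : Wx (EX xs7) Vale.Agent.P032X.Cert.X3.t1 (Vale.Agent.P032.Fam.fam3 Vale.Agent.P032.Fam.im0) WQ043.W883 := ⟨[0, 8, 16, 24, 32, 40, 48, 4, 12, 20, 28, 36, 44, 52, 60, 68, 76, 84, 92, 100, 108, 116, 124, 132, 140, 148, 156, 164, 172, 180, 188, 196, 11980569, 60145665, 130596865, 60149529, 37754577, 4900161, 28626713, 8309977, 18399233, 1376262, 1417222, 1900550, 2424838, 2949126, 2990086, 75215154798618, 75226431184922, 76177596571674, 76188872957978, 77421160521754, 78383602294810, 93235420938426],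
  Vale.Agent.P032.Lt.q_of (e' := WQ043.e883) (by decide +kernel) WQ043.q883⟩

theorem w884 : Wx (EX xs7) Vale.Agent.P032X.Cert.X3.t1 (Vale.Agent.P032.Fam.fam3 Vale.Agent.P032.Fam.im0) WQ043.W884 := ⟨[0, 8, 16, 24, 32, 40, 48, 4, 12, 20, 28, 36, 44, 52, 60, 68, 76, 84, 92, 100, 108, 116, 124, 37863425, 55054105, 55050241, 50188353, 71307225, 79691777, 50184537, 79695641, 37224577, 851974, 860166, 1908742, 2424838, 2433030, 2949126, 56248071716922, 56248079056954, 73565379854394, 73565387194426, 74012825051162, 74024101437466, 74024108777498, 97102300799002, 97102334353434, 97113577185306, 97113584525338, 97113610739738, 97113618079770],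
  Vale.Agent.P032.Lt.q_of (e' := WQ043.e884) (by decide +kernel) WQ043.q884⟩

theorem w885 : Wx (EX xs7) Vale.Agent.P032X.Cert.X3.t1 (Vale.Agent.P032.Fam.fam3 Vale.Agent.P032.Fam.im0) WQ043.W885 := ⟨[0, 8, 16, 24, 32, 40, 48, 4, 12, 20, 28, 36, 44, 52, 60, 68, 76, 84, 92, 100, 108, 116, 124, 132, 140, 148, 156, 164, 35838177, 40163553, 16111841, 868358, 1392646, 1900550, 2424838, 2441222, 2949126, 2957318, 38348328902746, 95726878416922, 95726879465498, 97651023765530, 97651024814106],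
  Vale.Agent.P032.Lt.q_of (e' := WQ043.e885) (by decide +kernel) WQ043.q885⟩

theorem w886 : Wx (EX xs7) Vale.Agent.P032X.Cert.X3.t1 (Vale.Agent.P032.Fam.fam3 Vale.Agent.P032.Fam.im0) WQ043.W886 := ⟨[0, 8, 16, 24, 32, 40, 48, 4, 12, 20, 28, 36, 44, 52, 60, 68, 76, 84, 92, 100, 108, 116, 124, 132, 140, 148, 156, 60866561, 16105473, 11980569, 112771073, 37535745, 18530305, 16367617, 851974, 1908742, 2424838, 2433030, 2949126, 78376019001402, 97113584525338, 97113618079770],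
  Vale.Agent.P032.Lt.q_of (e' := WQ043.e886) (by decide +kernel) WQ043.q886⟩

theorem w887 : Wx (EX xs7) Vale.Agent.P032X.Cert.X3.t1 (Vale.Agent.P032.Fam.fam3 Vale.Agent.P032.Fam.im0) WQ043.W887 := ⟨[0, 8, 16, 24, 32, 40, 48, 4, 12, 20, 28, 36, 44, 52, 60, 68, 76, 84, 92, 100, 108, 116, 124, 132, 140, 148, 156, 164, 172, 180, 188, 12501025, 25739265, 125996505, 56279041, 860166, 1900550, 2433030, 2949126, 73565387194426],
  Vale.Agent.P032.Lt.q_of (e' := WQ043.e887) (by decide +kernel) WQ043.q887⟩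

theorem w888 : Wx (EX xs7) Vale.Agent.P032X.Cert.X3.t1 (Vale.Agent.P032.Fam.fam3 Vale.Agent.P032.Fam.im0) WQ043.W888 := ⟨[0, 8, 16, 24, 32, 40, 48, 4, 12, 20, 28, 36, 44, 52, 60, 68, 76, 84, 92, 100, 108, 116, 124, 132, 140, 148, 156, 164, 172, 180, 43814361, 12501025, 30068185, 860166, 1900550, 2433030, 2949126, 73565387194426],
  Vale.Agent.P032.Lt.q_of (e' := WQ043.e888) (by decide +kernel) WQ043.q888⟩

theorem w889 : Wx (EX xs7) Vale.Agent.P032X.Cert.X3.t1 (Vale.Agent.P032.Fam.fam3 Vale.Agent.P032.Fam.im0) WQ043.W889 := ⟨[0, 8, 16, 24, 32, 40, 48, 4, 12, 20, 28, 36, 44, 52, 60, 68, 76, 84, 92, 100, 108, 116, 124, 132, 140, 148, 156, 164, 172, 180, 188, 196, 204, 212, 5506785, 50185241, 63180953, 37752985, 8717833, 105955329, 9224257, 5507425, 124521881, 851974, 1376262, 2424838, 2949126],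
  Vale.Agent.P032.Lt.q_of (e' := WQ043.e889) (by decide +kernel) WQ043.q889⟩

theorem w890 : Wx (EX xs7) Vale.Agent.P032X.Cert.X3.t1 (Vale.Agent.P032.Fam.fam3 Vale.Agent.P032.Fam.im0) WQ043.W890 := ⟨[0, 8, 16, 24, 32, 40, 48, 4, 12, 20, 28, 36, 44, 52, 60, 68, 76, 84, 92, 100, 108, 116, 124, 132, 140, 148, 156, 164, 4636737, 16367617, 1900550, 2424838, 2949126, 94918856237082, 95159743504410, 97113584525338, 97354471792666],
  Vale.Agent.P032.Lt.q_of (e' := WQ043.e890) (by decide +kernel) WQ043.q890⟩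

theorem w891 : Wx (EX xs7) Vale.Agent.P032X.Cert.X3.t1 (Vale.Agent.P032.Fam.fam3 Vale.Agent.P032.Fam.im0) WQ043.W891 := ⟨[0, 8, 16, 24, 32, 40, 48, 4, 12, 20, 28, 36, 44, 52, 60, 68, 76, 84, 92, 100, 108, 116, 124, 132, 140, 42254337, 16367617, 42647553, 16109337, 15257369, 30199577, 851974, 860166, 892934, 1908742, 2424838, 2465798, 2949126, 56248079056954, 74012833439770, 74024108777498, 74053936562362, 97102342742042, 97113618079770],
  Vale.Agent.P032.Lt.q_of (e' := WQ043.e891) (by decide +kernel) WQ043.q891⟩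

theorem w892 : Wx (EX xs7) Vale.Agent.P032X.Cert.X3.t1 (Vale.Agent.P032.Fam.fam3 Vale.Agent.P032.Fam.im0) WQ043.W892 := ⟨[0, 8, 16, 24, 32, 40, 48, 4, 12, 20, 28, 36, 44, 52, 60, 68, 76, 84, 92, 100, 108, 116, 124, 132, 140, 148, 156, 164, 16371481, 28626713, 46858241, 26398489, 26924561, 25972505, 16174937, 132645825, 19218497, 884742, 1900550, 1933318, 2424838, 2949126, 55699627647130, 94918889791514, 94918890840090, 97113618079770, 97113619128346],
  Vale.Agent.P032.Lt.q_of (e' := WQ043.e892) (by decide +kernel) WQ043.q892⟩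

theorem w893 : Wx (EX xs7) Vale.Agent.P032X.Cert.X3.t1 (Vale.Agent.P032.Fam.fam3 Vale.Agent.P032.Fam.im0) WQ043.W893 := ⟨[0, 8, 16, 24, 32, 40, 48, 4, 12, 20, 28, 36, 44, 52, 60, 68, 76, 84, 92, 100, 108, 116, 124, 132, 140, 11976705, 54312961, 851974, 2424838, 2949126, 91341182033946, 91341183082522, 97354471792666, 97354472841242],
  Vale.Agent.P032.Lt.q_of (e' := WQ043.e893) (by decide +kernel) WQ043.q893⟩

theorem w894 : Wx (EX xs7) Vale.Agent.P032X.Cert.X3.t1 (Vale.Agent.P032.Fam.fam3 Vale.Agent.P032.Fam.im0) WQ043.W894 := ⟨[0, 8, 16, 24, 32, 40, 48, 4, 12, 20, 28, 36, 44, 52, 60, 68, 76, 84, 92, 100, 108, 116, 124, 132, 140, 148, 156, 164, 25657345, 37224577, 25661209, 16109337, 64536577, 50184537, 87609113, 92848129, 99664665, 44875777, 2326681, 15253505, 50188353, 30851073, 55054105, 335878, 860166, 1908742, 2424838, 2433030, 2949126, 53967215493178, 56488858320954, 56488865660986, 78376011661370, 78376019001402,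 97113618079770],
  Vale.Agent.P032.Lt.q_of (e' := WQ043.e894) (by decide +kernel) WQ043.q894⟩

theorem w895 : Wx (EX xs7) Vale.Agent.P032X.Cert.X3.t1 (Vale.Agent.P032.Fam.fam3 Vale.Agent.P032.Fam.im0) WQ043.W895 := ⟨[0, 8, 16, 24, 32, 40, 48, 4, 12, 20, 28, 36, 44, 52, 60, 68, 76, 84, 92, 100, 108, 116, 124, 132, 140, 148, 156, 164, 172, 180, 188, 196, 204, 12337305, 112395929, 18464921, 26744217, 124880525, 93847705, 38191257, 1376262, 1900550, 57638506553370, 57638507601946, 57638540107802, 57638541156378, 58600948326426, 58600949375002, 58600981880858, 58600982929434],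
  Vale.Agent.P032.Lt.q_of (e' := WQ043.e895) (by decide +kernel) WQ043.q895⟩

theorem w896 : Wx (EX xs7) Vale.Agent.P032X.Cert.X3.t1 (Vale.Agent.P032.Fam.fam3 Vale.Agent.P032.Fam.im0) WQ043.W896 := ⟨[0, 8, 16, 24, 32, 40, 48, 4, 12, 20, 28, 36, 44, 52, 60, 68, 76, 84, 92, 100, 108, 116, 124, 132, 140, 148, 156, 164, 172, 180, 130089025, 50188193, 92800841, 64540681, 4905569, 29556737, 89430241, 335878, 868358, 1908742, 2424838, 2465798, 2949126, 2965510, 53952179961914, 91123281666138, 97102342742042, 97102577623066, 97113610739738, 97113618079770, 97113845620762, 97113852960794],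
  Vale.Agent.P032.Lt.q_of (e' := WQ043.e896) (by decide +kernel) WQ043.q896⟩

theorem w897 : Wx (EX xs7) Vale.Agent.P032X.Cert.X3.t1 (Vale.Agent.P032.Fam.fam3 Vale.Agent.P032.Fam.im0) WQ043.W897 := ⟨[0, 8, 16, 24, 32, 40, 48, 4, 12, 20, 28, 36, 44, 52, 60, 68, 76, 84, 92, 100, 108, 116, 124, 132, 140, 148, 156, 164, 71876673, 75022337, 24821761, 15617497, 28855769, 38715393, 108134401, 49856577],
  Vale.Agent.P032.Lt.q_of (e' := WQ043.e897) (by decide +kernel) WQ043.q897⟩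

theorem w898 : Wx (EX xs7) Vale.Agent.P032X.Cert.X3.t1 (Vale.Agent.P032.Fam.fam3 Vale.Agent.P032.Fam.im0) WQ043.W898 := ⟨[0, 8, 16, 24, 32, 40, 48, 4, 12, 20, 28, 36, 44, 52, 60, 68, 76, 84, 92, 100, 108, 116, 124, 132, 140, 148, 156, 164, 55054105, 30854937, 104975897, 64540441, 60145665, 99667457, 81825545, 55050241, 48271113, 65162401, 42601985, 11976705, 31493281, 39370753, 860166, 1908742, 2424838, 2433030, 2949126, 56488865660986, 78376019001402, 97102342742042, 97113618079770],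
  Vale.Agent.P032.Lt.q_of (e' := WQ043.e898) (by decide +kernel) WQ043.q898⟩

theorem w899 : Wx (EX xs7) Vale.Agent.P032X.Cert.X3.t1 (Vale.Agent.P032.Fam.fam3 Vale.Agent.P032.Fam.im0) WQ043.W899 := ⟨[0, 8, 16, 24, 32, 40, 48, 4, 12, 20, 28, 36, 44, 52, 60, 68, 76, 84, 92, 100, 108, 116, 124, 132, 140, 148, 156, 164, 172, 180, 188, 196, 204, 212, 220, 228, 46521449, 83418089, 28691865, 7523801, 851974, 892934, 1376262, 1417222, 1900550, 2949126, 38667969446074],
  Vale.Agent.P032.Lt.q_of (e' := WQ043.e899) (by decide +kernel) WQ043.q899⟩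

def L : List (List ℕ) := [WQ040.W800, WQ040.W801, WQ040.W802, WQ040.W803, WQ040.W804, WQ040.W805, WQ040.W806, WQ040.W807, WQ040.W808, WQ040.W809, WQ040.W810, WQ040.W811, WQ040.W812, WQ040.W813, WQ040.W814, WQ040.W815, WQ040.W816, WQ040.W817, WQ040.W818, WQ040.W819, WQ040.W820, WQ040.W821, WQ041.W822, WQ041.W823, WQ041.W824, WQ041.W825, WQ041.W826, WQ041.W827, WQ041.W828, WQ041.W829, WQ041.W830, WQ041.W831, WQ041.W832, WQ041.W833, WQ041.W834, WQ041.W835, WQ041.W836, WQ041.W837, WQ041.W838, WQ041.W839, WQ041.W840, WQ041.W841, WQ041.W842, WQ041.W843, WQ041.W844, WQ042.W845, WQ042.W846, WQ042.W847, WQ042.W848, WQ042.W849, WQ042.W850, WQ042.W851, WQ042.W852, WQ042.W853, WQ042.W854, WQ042.W855, WQ042.W856, WQ042.W857, WQ042.W858, WQ042.W859, WQ042.W860, WQ042.W861, WQ042.W862, WQ042.W863, WQ042.W864, WQ042.W865, WQ042.W866, WQ042.W867, WQ042.W868, WQ042.W869, WQ042.W870, WQ042.W871, WQ042.W872, WQ042.W873, WQ042.W874, WQ042.W875,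 WQ042.W876, WQ043.W877, WQ043.W878, WQ043.W879, WQ043.W880, WQ043.W881, WQ043.W882, WQ043.W883, WQ043.W884, WQ043.W885, WQ043.W886, WQ043.W887, WQ043.W888, WQ043.W889, WQ043.W890, WQ043.W891, WQ043.W892, WQ043.W893, WQ043.W894, WQ043.W895, WQ043.W896, WQ043.W897, WQ043.W898, WQ043.W899]

theorem all : ∀ P ∈ L, Wx (EX xs7) Vale.Agent.P032X.Cert.X3.t1 (Vale.Agent.P032.Fam.fam3 Vale.Agent.P032.Fam.im0) P := wx_cons w800 (wx_cons w801 (wx_cons w802 (wx_cons w803 (wx_cons w804 (wx_cons w805 (wx_cons w806 (wx_cons w807 (wx_cons w808 (wx_cons w809 (wx_cons w810 (wx_cons w811 (wx_cons w812 (wx_cons w813 (wx_cons w814 (wx_cons w815 (wx_cons w816 (wx_cons w817 (wx_cons w818 (wx_cons w819 (wx_cons w820 (wx_cons w821 (wx_cons w822 (wx_cons w823 (wx_cons w824 (wx_cons w825 (wx_cons w826 (wx_cons w827 (wx_cons w828 (wx_cons w829 (wx_cons w830 (wx_cons w831 (wx_cons w832 (wx_cons w833 (wx_cons w834 (wx_cons w835 (wx_cons w836 (wx_cons w837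 (wx_cons w838 (wx_cons w839 (wx_cons w840 (wx_cons w841 (wx_cons w842 (wx_cons w843 (wx_cons w844 (wx_cons w845 (wx_cons w846 (wx_cons w847 (wx_cons w848 (wx_cons w849 (wx_cons w850 (wx_cons w851 (wx_cons w852 (wx_cons w853 (wx_cons w854 (wx_cons w855 (wx_cons w856 (wx_cons w857 (wx_cons w858 (wx_cons w859 (wx_cons w860 (wx_cons w861 (wx_cons w862 (wx_cons w863 (wx_cons w864 (wx_cons w865 (wx_cons w866 (wx_cons w867 (wx_cons w868 (wx_cons w869 (wx_cons w870 (wx_cons w871 (wx_cons w872 (wx_cons w873 (wx_cons w874 (wx_cons w875 (wx_cons w876 (wx_cons w877 (wx_cons w878 (wx_cons w879 (wx_cons w880 (wx_cons w881 (wx_cons w882 (wx_cons w883 (wx_cons w884 (wx_cons w885 (wx_cons w886 (wx_cons w887 (wx_cons w888 (wx_cons w889 (wx_cons w890 (wx_cons w891 (wx_cons w892 (wx_cons w893 (wx_cons w894 (wx_cons w895 (wx_cons w896 (wx_cons w897 (wx_cons w898 (wx_cons w899 wx_nil)))))))))))))))))))))))))))))))))))))))))))))))))))))))))))))))))))))))))))))))))))))))))))))))))))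

theorem ch : chT 73 73 TCm Vale.Agent.P032X.Cert.X3.W1.sW_008 L = true := by decide +kernel

end Vale.Agent.P032X.Cert.X3.W1.WH008
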