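import Vale.Agent.P032X.H892.LtH
import Vale.Agent.P032X.H286.A73
import Vale.Agent.P032X.Cert.X3.T1
import Vale.Agent.P032X.Cert.X3.W1.WT
import Vale.Agent.P032X.Cert.X3.W1.WQ044
import Vale.Agent.P032X.Cert.X3.W1.WQ045

set_option maxRecDepth 1000000

namespace Vale.Agent.P032X.Cert.X3.W1.WH009

open Vale.Agent.P032.H820.K Vale.Agent.P032.H357.MK Vale.Agent.P032.H286.E Vale.Agent.P032.H61 Vale.Agent.P032.H61.TF Vale.Agent.P032.BlkE Vale.Agent.P032.BlkS Vale.Agent.P032.H357 Vale.Agent.P032 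

theorem w900 : Wx (EX xs7) Vale.Agent.P032X.Cert.X3.t1 (Vale.Agent.P032.Fam.fam3 Vale.Agent.P032.Fam.im0) WQ044.W900 := ⟨[0, 8, 16, 24, 32, 40, 48, 4, 12, 20, 28, 36, 44, 52, 60, 68, 76, 84, 92, 100, 108, 116, 124, 132, 140, 148, 156, 164, 32411033, 33472513, 23449049, 59821785, 130025497, 1900550, 2949126, 94918889791514],
  Vale.Agent.P032.Lt.q_of (e' := WQ044.e900) (by decide +kernel) WQ044.q900⟩

theorem w901 : Wx (EX xs7) Vale.Agent.P032X.Cert.X3.t1 (Vale.Agent.P032.Fam.fam3 Vale.Agent.P032.Fam.im0) WQ044.W901 := ⟨[0, 8, 16, 24, 32, 40, 48, 4, 12, 20, 28, 36, 44, 52, 60, 68, 76, 84, 92, 100, 108, 116, 124, 132, 140, 148, 156, 164, 172, 180, 188, 196, 38849945, 25739265, 89525657, 49991065, 23711129, 121048473, 37408153],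
  Vale.Agent.P032.Lt.q_of (e' := WQ044.e901) (by decide +kernel) WQ044.q901⟩

theorem w902 : Wx (EX xs7) Vale.Agent.P032X.Cert.X3.t1 (Vale.Agent.P032.Fam.fam3 Vale.Agent.P032.Fam.im0) WQ044.W902 := ⟨[0, 8, 16, 24, 32, 40, 48, 4, 12, 20, 28, 36, 44, 52, 60, 68, 76, 84, 92, 100, 108, 116, 124, 132, 140, 148, 156, 164, 172, 18464921, 67747841, 39911425, 42909697, 7127041, 1376262, 1900550, 57623463682074, 57638506553370, 58585939009562, 58600981880858],
  Vale.Agent.P032.Lt.q_of (e' := WQ044.e902) (by decide +kernel) WQ044.q902⟩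

theorem w903 : Wx (EX xs7) Vale.Agent.P032X.Cert.X3.t1 (Vale.Agent.P032.Fam.fam3 Vale.Agent.P032.Fam.im0) WQ044.W903 := ⟨[0, 8, 16, 24, 32, 40, 48, 4, 12, 20, 28, 36, 44, 52, 60, 68, 76, 84, 92, 100, 108, 116, 124, 132, 140, 18464985, 55754753, 51445977, 103923929, 118554625, 53035009, 85000193, 9502721, 26279937, 1900550, 2424838, 77552791412762],
  Vale.Agent.P032.Lt.q_of (e' := WQ044.e903) (by decide +kernel) WQ044.q903⟩

theorem w904 : Wx (EX xs7) Vale.Agent.P032X.Cert.X3.t1 (Vale.Agent.P032.Fam.fam3 Vale.Agent.P032.Fam.im0) WQ044.W904 := ⟨[0, 8, 16, 24, 32, 40, 48, 4, 12, 20, 28, 36, 44, 52, 60, 68, 76, 84, 92, 100, 108, 116, 124, 132, 140, 148, 156, 164, 172, 180, 188, 196, 204, 212, 83478529, 15391449, 43434137, 45662209, 103923865, 103137433, 21022273, 10797209, 93847705, 108642305, 77645377, 2670745, 62701721, 11190425, 60671449, 18464921, 47562753, 100778137, 2410049, 19972249, 360454, 884742, 1376262, 1900550, 1933318, 18606881841306,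 18806353502362, 53515839152282, 58311606362138, 58585670574106],
  Vale.Agent.P032.Lt.q_of (e' := WQ044.e904) (by decide +kernel) WQ044.q904⟩

theorem w905 : Wx (EX xs7) Vale.Agent.P032X.Cert.X3.t1 (Vale.Agent.P032.Fam.fam3 Vale.Agent.P032.Fam.im0) WQ044.W905 := ⟨[0, 8, 16, 24, 32, 40, 48, 4, 12, 20, 28, 36, 44, 52, 60, 68, 76, 84, 92, 100, 108, 116, 124, 132, 79691777, 55054105, 16371481, 79695641, 50188353, 25657345, 130973697, 1900550, 2424838, 2949126, 77330991374362, 97113610739738, 97113618079770, 97113619128346],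
  Vale.Agent.P032.Lt.q_of (e' := WQ044.e905) (by decide +kernel) WQ044.q905⟩

theorem w906 : Wx (EX xs7) Vale.Agent.P032X.Cert.X3.t1 (Vale.Agent.P032.Fam.fam3 Vale.Agent.P032.Fam.im0) WQ044.W906 := ⟨[0, 8, 16, 24, 32, 40, 48, 4, 12, 20, 28, 36, 44, 52, 60, 68, 76, 84, 92, 100, 108, 116, 124, 132, 140, 29543897, 71880089, 8408537, 32411097, 43814361, 61132249, 30068185, 61390849, 61652993, 58461657, 85052889, 108137945, 10014169, 117493209, 15319041, 33669121, 4767745, 108056025, 42844161, 91344345, 119128065, 19187429, 46188109, 57855449, 18466533, 51232769, 108118017, 71157581, 57262081, 87031809, 851974, 860166, 1900550, 2433030, 2949126, 73565387194426],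
  Vale.Agent.P032.Lt.q_of (e' := WQ044.e906) (by decide +kernel) WQ044.q906⟩

theorem w907 : Wx (EX xs7) Vale.Agent.P032X.Cert.X3.t1 (Vale.Agent.P032.Fam.fam3 Vale.Agent.P032.Fam.im0) WQ044.W907 := ⟨[0, 8, 16, 24, 32, 40, 48, 4, 12, 20, 28, 36, 44, 52, 60, 68, 76, 84, 92, 100, 108, 116, 124, 132, 140, 148, 156, 164, 172, 180, 44682649, 59817985, 71352321, 53657601, 129548289, 6049177, 68488601, 36618241, 70828033, 8979201, 124060737, 130023809, 106335565, 851974, 2424838, 2949126],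
  Vale.Agent.P032.Lt.q_of (e' := WQ044.e907) (by decide +kernel) WQ044.q907⟩

theorem w908 : Wx (EX xs7) Vale.Agent.P032X.Cert.X3.t1 (Vale.Agent.P032.Fam.fam3 Vale.Agent.P032.Fam.im0) WQ044.W908 := ⟨[0, 8, 16, 24, 32, 40, 48, 4, 12, 20, 28, 36, 44, 52, 60, 68, 76, 84, 92, 100, 108, 116, 124, 132, 140, 148, 156, 164, 172, 180, 188, 2100933, 63750145, 18464769, 53514049, 2099653, 29284429, 69734405, 46186841, 19185665, 66109441, 24952833, 104136705, 93847553, 32559169, 18087937, 13942785, 68206593, 18792449, 86622361, 63756865, 53002241, 9093121, 53805057, 25876481, 59297793, 43073881, 23511041, 121159833, 13041665, 360454, 851974, 1376262, 1409030, 1900550, 36409285353626, 36679835787418, 58585540550682, 58585548939290, 58585808986138, 58585817374746, 58600570839066, 58600839274522],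
  Vale.Agent.P032.Lt.q_of (e' := WQ044.e908) (by decide +kernel) WQ044.q908⟩

theorem w909 : Wx (EX xs7) Vale.Agent.P032X.Cert.X3.t1 (Vale.Agent.P032.Fam.fam3 Vale.Agent.P032.Fam.im0) WQ044.W909 := ⟨[0, 8, 16, 24, 32, 40, 48, 4, 12, 20, 28, 36, 44, 52, 60, 68, 76, 84, 92, 100, 108, 116, 124, 132, 140, 148, 156, 164, 172, 180, 188, 196, 204, 212, 220, 31885221, 12337153, 46186841, 18464769, 22594881, 22725953, 52740097, 53067777, 60669953, 56805785, 10403993, 33605541, 31377317, 95061925, 32559169, 851974, 1376262, 1900550, 58585548939290],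
  Vale.Agent.P032.Lt.q_of (e' := WQ044.e909) (by decide +kernel) WQ044.q909⟩

theorem w910 : Wx (EX xs7) Vale.Agent.P032X.Cert.X3.t1 (Vale.Agent.P032.Fam.fam3 Vale.Agent.P032.Fam.im0) WQ044.W910 := ⟨[0, 8, 16, 24, 32, 40, 48, 4, 12, 20, 28, 36, 44, 52, 60, 68, 76, 84, 92, 100, 108, 116, 124, 132, 140, 148, 156, 32407553, 57409537, 126933265, 29904281, 44109209, 63458713, 37932441, 7115429, 61345241, 56413657, 63180953, 26267033, 34164121, 20336025, 25804801, 32034201, 49859993, 97570201, 41254913, 27544985, 30592409, 113511833, 66637209, 125111705, 58002841, 327686, 851974, 1900550, 2949126],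
  Vale.Agent.P032.Lt.q_of (e' := WQ044.e910) (by decide +kernel) WQ044.q910⟩

theorem w911 : Wx (EX xs7) Vale.Agent.P032X.Cert.X3.t1 (Vale.Agent.P032.Fam.fam3 Vale.Agent.P032.Fam.im0) WQ044.W911 := ⟨[0, 8, 16, 24, 32, 40, 48, 4, 12, 20, 28, 36, 44, 52, 60, 68, 76, 84, 92, 100, 108, 116, 124, 132, 140, 148, 156, 164, 172, 180, 22152065, 25661209, 55054105, 98572129, 106336845, 60163009, 122732545, 90603521, 2424838, 2949126, 97102342742042, 97136393150490],
  Vale.Agent.P032.Lt.q_of (e' := WQ044.e911) (by decide +kernel) WQ044.q911⟩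

theorem w912 : Wx (EX xs7) Vale.Agent.P032X.Cert.X3.t1 (Vale.Agent.P032.Fam.fam3 Vale.Agent.P032.Fam.im0) WQ044.W912 := ⟨[0, 8, 16, 24, 32, 40, 48, 4, 12, 20, 28, 36, 44, 52, 60, 68, 76, 84, 92, 100, 108, 116, 124, 132, 140, 148, 156, 164, 172, 180, 188, 196, 204, 69732449, 36028417, 111263745, 29540353, 45927833, 327686, 335878, 851974, 860166, 2424838, 2433030, 2949126, 71370658906170, 73565379854394, 73565387194426],
  Vale.Agent.P032.Lt.q_of (e' := WQ044.e912) (by decide +kernel) WQ044.q912⟩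

theorem w913 : Wx (EX xs7) Vale.Agent.P032X.Cert.X3.t1 (Vale.Agent.P032.Fam.fam3 Vale.Agent.P032.Fam.im0) WQ044.W913 := ⟨[0, 8, 16, 24, 32, 40, 48, 4, 12, 20, 28, 36, 44, 52, 60, 68, 76, 84, 92, 100, 108, 116, 124, 132, 140, 148, 156, 164, 172, 180, 188, 196, 34258945, 121683969, 11980569, 55054105, 30851073, 5820185, 54316825, 7786265, 12369921, 6868761, 15253505, 2424838, 2949126, 97113618079770, 97113619128346, 97136393150490],
  Vale.Agent.P032.Lt.q_of (e' := WQ044.e913) (by decide +kernel) WQ044.q913⟩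

theorem w914 : Wx (EX xs7) Vale.Agent.P032X.Cert.X3.t1 (Vale.Agent.P032.Fam.fam3 Vale.Agent.P032.Fam.im0) WQ044.W914 := ⟨[0, 8, 16, 24, 32, 40, 48, 4, 12, 20, 28, 36, 44, 52, 60, 68, 76, 84, 92, 100, 108, 116, 124, 132, 140, 148, 156, 164, 172, 180, 188, 196, 204, 212, 220, 228, 236, 244, 252, 260, 268, 276, 64536577, 37097241, 37228441, 57675545, 98701209, 56676121, 44224281, 64540441, 4374529, 122736409, 132255641, 15732633, 107007769, 1183513, 55889473, 124782665, 82841153, 69568521, 2463001, 116459529, 64540569, 1376262, 1900550, 2424838, 2949126, 97354471792666],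
  Vale.Agent.P032.Lt.q_of (e' := WQ044.e914) (by decide +kernel) WQ044.q914⟩

theorem w915 : Wx (EX xs7) Vale.Agent.P032X.Cert.X3.t1 (Vale.Agent.P032.Fam.fam3 Vale.Agent.P032.Fam.im0) WQ044.W915 := ⟨[0, 8, 16, 24, 32, 40, 48, 4, 12, 20, 28, 36, 44, 52, 60, 68, 76, 84, 92, 100, 108, 116, 124, 132, 140, 148, 156, 164, 172, 180, 188, 196, 204, 212, 116506905, 327686, 335878, 851974, 1376262, 1900550, 1908742, 2424838, 2433030, 2957318, 57623507722266, 74012926763034, 74024210489370, 75215148507162, 75226432233498],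
  Vale.Agent.P032.Lt.q_of (e' := WQ044.e915) (by decide +kernel) WQ044.q915⟩

theorem w916 : Wx (EX xs7) Vale.Agent.P032X.Cert.X3.t1 (Vale.Agent.P032.Fam.fam3 Vale.Agent.P032.Fam.im0) WQ044.W916 := ⟨[0, 8, 16, 24, 32, 40, 48, 4, 12, 20, 28, 36, 44, 52, 60, 68, 76, 84, 92, 100, 108, 116, 124, 132, 140, 148, 156, 164, 172, 180, 188, 196, 204, 212, 220, 228, 42991617, 127009177, 10093017, 18923993, 35258777, 59425177, 43647385, 17056153, 112066969, 132782169, 77201817, 85590425, 8667545, 52035993, 1376262, 1900550, 2949126],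
  Vale.Agent.P032.Lt.q_of (e' := WQ044.e916) (by decide +kernel) WQ044.q916⟩

theorem w917 : Wx (EX xs7) Vale.Agent.P032X.Cert.X3.t1 (Vale.Agent.P032.Fam.fam3 Vale.Agent.P032.Fam.im0) WQ044.W917 := ⟨[0, 8, 16, 24, 32, 40, 48, 4, 12, 20, 28, 36, 44, 52, 60, 68, 76, 84, 92, 100, 108, 116, 124, 132, 140, 148, 156, 164, 172, 180, 188, 196, 204, 212, 220, 228, 236, 55054105, 64540441, 88215641, 79695641, 19714729, 56672257, 44220417, 58724881, 64602113, 4378393, 124884241, 51974825, 55886681, 1941510, 2424838, 2949126, 97113618079770],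
  Vale.Agent.P032.Lt.q_of (e' := WQ044.e917) (by decide +kernel) WQ044.q917⟩

theorem w918 : Wx (EX xs7) Vale.Agent.P032X.Cert.X3.t1 (Vale.Agent.P032.Fam.fam3 Vale.Agent.P032.Fam.im0) WQ044.W918 := ⟨[0, 8, 16, 24, 32, 40, 48, 4, 12, 20, 28, 36, 44, 52, 60, 68, 76, 84, 92, 100, 108, 116, 124, 132, 140, 148, 156, 164, 172, 180, 188, 196, 14319617, 14208601, 14208473, 61132249, 71880089, 98160089, 47874049, 102288857, 108137945, 24301017, 46188453, 51283877, 110004133, 110003789, 59672485, 5146189, 27037145, 46188109, 68061093, 62555725, 68060749, 62556069, 59672141, 327686, 851974, 1900550, 2949126],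
  Vale.Agent.P032.Lt.q_of (e' := WQ044.e918) (by decide +kernel) WQ044.q918⟩

theorem w919 : Wx (EX xs7) Vale.Agent.P032X.Cert.X3.t1 (Vale.Agent.P032.Fam.fam3 Vale.Agent.P032.Fam.im0) WQ044.W919 := ⟨[0, 8, 16, 24, 32, 40, 48, 4, 12, 20, 28, 36, 44, 52, 60, 68, 76, 84, 92, 100, 108, 116, 124, 132, 140, 148, 156, 164, 172, 180, 37755457, 37751585, 18894617, 64753433, 63179553, 87605249, 56676121, 92851993, 63183425, 55051777, 73695233, 2424838, 2949126, 97102342742042, 97113618079770, 97136393150490],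
  Vale.Agent.P032.Lt.q_of (e' := WQ044.e919) (by decide +kernel) WQ044.q919⟩

theorem w920 : Wx (EX xs7) Vale.Agent.P032X.Cert.X3.t1 (Vale.Agent.P032.Fam.fam3 Vale.Agent.P032.Fam.im0) WQ044.W920 := ⟨[0, 8, 16, 24, 32, 40, 48, 4, 12, 20, 28, 36, 44, 52, 60, 68, 76, 84, 92, 100, 108, 116, 124, 132, 140, 148, 156, 106335525, 122686745, 36700249, 37011609, 28885145, 119439385, 85884929, 3145921, 36700377, 2424838, 2949126, 97655044005914],
  Vale.Agent.P032.Lt.q_of (e' := WQ044.e920) (by decide +kernel) WQ044.q920⟩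

theorem w921 : Wx (EX xs7) Vale.Agent.P032X.Cert.X3.t1 (Vale.Agent.P032.Fam.fam3 Vale.Agent.P032.Fam.im0) WQ044.W921 := ⟨[0, 8, 16, 24, 32, 40, 48, 4, 12, 20, 28, 36, 44, 52, 60, 68, 76, 84, 92, 100, 108, 116, 124, 132, 140, 10665985, 106479617, 80265217, 27705817, 860166, 1384454, 1900550, 1908742, 2424838, 2433030, 2957318, 77692068519962, 91341082427450],
  Vale.Agent.P032.Lt.q_of (e' := WQ044.e921) (by decide +kernel) WQ044.q921⟩

theorem w922 : Wx (EX xs7) Vale.Agent.P032X.Cert.X3.t1 (Vale.Agent.P032.Fam.fam3 Vale.Agent.P032.Fam.im0) WQ044.W922 := ⟨[0, 8, 16, 24, 32, 40, 48, 4, 12, 20, 28, 36, 44, 52, 60, 68, 76, 84, 92, 100, 108, 116, 124, 132, 109101057, 1146945, 860166, 1376262, 1900550, 1908742, 2433030, 57589744623642, 57589979504666, 57608541397018, 57608776278042, 58311232020506, 58311466901530, 58330028793882, 58330263674906, 73482970169402],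
  Vale.Agent.P032.Lt.q_of (e' := WQ044.e922) (by decide +kernel) WQ044.q922⟩

theorem w923 : Wx (EX xs7) Vale.Agent.P032X.Cert.X3.t1 (Vale.Agent.P032.Fam.fam3 Vale.Agent.P032.Fam.im0) WQ044.W923 := ⟨[0, 8, 16, 24, 32, 40, 48, 4, 12, 20, 28, 36, 44, 52, 60, 68, 76, 84, 92, 100, 108, 116, 124, 132, 140, 148, 156, 164, 172, 180, 188, 116424769, 12960153, 31883265, 50184705, 92803929, 6291521, 12059137, 18874369, 113312153, 23642521, 89702809, 74448897, 1376262, 1900550, 2949126],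
  Vale.Agent.P032.Lt.q_of (e' := WQ044.e923) (by decide +kernel) WQ044.q923⟩

theorem w924 : Wx (EX xs7) Vale.Agent.P032X.Cert.X3.t1 (Vale.Agent.P032.Fam.fam3 Vale.Agent.P032.Fam.im0) WQ044.W924 := ⟨[0, 8, 16, 24, 32, 40, 48, 4, 12, 20, 28, 36, 44, 52, 60, 68, 76, 84, 92, 100, 108, 116, 124, 132, 140, 148, 156, 164, 172, 180, 188, 196, 55312793, 88871377, 11911577, 73334993, 75170201, 47054913, 98959505, 65405073, 17612865, 2392129, 60096921, 110674329, 6996377, 2015641, 127451545, 32686489, 22200793, 58474497, 55099865, 115392921, 1900550, 1908742, 2949126, 95249862320154],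
  Vale.Agent.P032.Lt.q_of (e' := WQ044.e924) (by decide +kernel) WQ044.q924⟩

theorem w925 : Wx (EX xs7) Vale.Agent.P032X.Cert.X3.t1 (Vale.Agent.P032.Fam.fam3 Vale.Agent.P032.Fam.im0) WQ045.W925 := ⟨[0, 8, 16, 24, 32, 40, 48, 4, 12, 20, 28, 36, 44, 52, 60, 68, 76, 84, 92, 100, 108, 116, 124, 132, 140, 148, 156, 164, 67633177, 88872217, 47054849, 44745177, 81625561, 106627481, 127451609, 75170265, 2015705, 32686553, 127254529, 22200729, 32948697, 17874945, 37142529],
  Vale.Agent.P032.Lt.q_of (e' := WQ045.e925) (by decide +kernel) WQ045.q925⟩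

theorem w926 : Wx (EX xs7) Vale.Agent.P032X.Cert.X3.t1 (Vale.Agent.P032.Fam.fam3 Vale.Agent.P032.Fam.im0) WQ045.W926 := ⟨[0, 8, 16, 24, 32, 40, 48, 4, 12, 20, 28, 36, 44, 52, 60, 68, 76, 84, 92, 100, 108, 116, 124, 132, 140, 148, 156, 164, 172, 180, 188, 130023681, 79285721, 2641369, 29478361, 1723865, 116444633, 94421057, 13028825, 69258713, 7917017, 4784129],
  Vale.Agent.P032.Lt.q_of (e' := WQ045.e926) (by decide +kernel) WQ045.q926⟩

theorem w927 : Wx (EX xs7) Vale.Agent.P032X.Cert.X3.t1 (Vale.Agent.P032.Fam.fam3 Vale.Agent.P032.Fam.im0) WQ045.W927 := ⟨[0, 8, 16, 24, 32, 40, 48, 4, 12, 20, 28, 36, 44, 52, 60, 68, 76, 84, 92, 100, 108, 116, 124, 132, 140, 148, 156, 164, 172, 180, 188, 196, 204, 212, 220, 7605721, 22056345, 124521881, 7605657, 96210393, 129109401, 71880089, 79957401, 35720601, 65047961, 66194841, 11455897, 59952537, 26381721, 110480793, 26135961, 71241113, 89767937, 46402969, 58982401, 47205785, 105778585, 42208665, 70110617,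 50597273, 92540313, 117706137, 36228505, 26660249, 75763097, 8654233, 25427969],
  Vale.Agent.P032.Lt.q_of (e' := WQ045.e927) (by decide +kernel) WQ045.q927⟩

theorem w928 : Wx (EX xs7) Vale.Agent.P032X.Cert.X3.t1 (Vale.Agent.P032.Fam.fam3 Vale.Agent.P032.Fam.im0) WQ045.W928 := ⟨[0, 8, 16, 24, 32, 40, 48, 4, 12, 20, 28, 36, 44, 52, 60, 68, 76, 84, 92, 100, 108, 116, 124, 132, 140, 148, 156, 164, 172, 180, 188, 196, 204, 212, 220, 228, 7605657, 22056345, 7605721, 71880089, 79957401, 129109401, 63180953, 100928921, 4361625, 6163929, 46402969, 73269249, 60689817, 35720601, 65047961, 66194841, 36982169, 3427737, 106827161, 85508097, 11455897, 59952537, 123538841, 8228249, 47205785, 68193689, 70110617, 50597273, 42208665, 31506433, 93490585, 92540313, 26381721, 117706137, 5506785, 124521881, 1900550, 2949126],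
  Vale.Agent.P032.Lt.q_of (e' := WQ045.e928) (by decide +kernel) WQ045.q928⟩

def L : List (List ℕ) := [WQ044.W900, WQ044.W901, WQ044.W902, WQ044.W903, WQ044.W904, WQ044.W905, WQ044.W906, WQ044.W907, WQ044.W908, WQ044.W909, WQ044.W910, WQ044.W911, WQ044.W912, WQ044.W913, WQ044.W914, WQ044.W915, WQ044.W916, WQ044.W917, WQ044.W918, WQ044.W919, WQ044.W920, WQ044.W921, WQ044.W922, WQ044.W923, WQ044.W924, WQ045.W925, WQ045.W926, WQ045.W927, WQ045.W928]

theorem all : ∀ P ∈ L, Wx (EX xs7) Vale.Agent.P032X.Cert.X3.t1 (Vale.Agent.P032.Fam.fam3 Vale.Agent.P032.Fam.im0) P := wx_cons w900 (wx_cons w901 (wx_cons w902 (wx_cons w903 (wx_cons w904 (wx_cons w905 (wx_cons w906 (wx_cons w907 (wx_cons w908 (wx_cons w909 (wx_cons w910 (wx_cons w911 (wx_cons w912 (wx_cons w913 (wx_cons w914 (wx_cons w915 (wx_cons w916 (wx_cons w917 (wx_cons w918 (wx_cons w919 (wx_cons w920 (wx_cons w921 (wx_cons w922 (wx_cons w923 (wx_cons w924 (wx_cons w925 (wx_cons w926 (wx_cons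 w927 (wx_cons w928 wx_nil))))))))))))))))))))))))))))

theorem ch : chT 73 73 TCm Vale.Agent.P032X.Cert.X3.W1.sW_009 L = true := by decide +kernel

end Vale.Agent.P032X.Cert.X3.W1.WH009
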