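import Vale.Agent.P032X.H892.LtH
import Vale.Agent.P032X.H286.A73
import Vale.Agent.P032X.Cert.X3.T1
import Vale.Agent.P032X.Cert.X3.W1.WT
import Vale.Agent.P032X.Cert.X3.W1.WQ004
import Vale.Agent.P032X.Cert.X3.W1.WQ005
import Vale.Agent.P032X.Cert.X3.W1.WQ006
import Vale.Agent.P032X.Cert.X3.W1.WQ007

set_option maxRecDepth 1000000

namespace Vale.Agent.P032X.Cert.X3.W1.WH001

open Vale.Agent.P032.H820.K Vale.Agent.P032.H357.MK Vale.Agent.P032.H286.E Vale.Agent.P032.H61 Vale.Agent.P032.H61.TF Vale.Agent.P032.BlkE Vale.Agent.P032.BlkS Vale.Agent.P032.H357 Vale.Agent.P032 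

theorem w100 : Wx (EX xs7) Vale.Agent.P032X.Cert.X3.t1 (Vale.Agent.P032.Fam.fam3 Vale.Agent.P032.Fam.im0) WQ004.W100 := ⟨[0, 8, 16, 24, 32, 40, 48, 4, 12, 20, 28, 36, 44, 52, 60, 68, 76, 84, 92, 100, 108, 116, 124, 132, 140, 148, 156, 164, 172, 95944769, 28835905, 30802137, 62390337],
  Vale.Agent.P032.Lt.q_of (e' := WQ004.e100) (by decide +kernel) WQ004.q100⟩

theorem w101 : Wx (EX xs7) Vale.Agent.P032X.Cert.X3.t1 (Vale.Agent.P032.Fam.fam3 Vale.Agent.P032.Fam.im0) WQ004.W101 := ⟨[0, 8, 16, 24, 32, 40, 48, 4, 12, 20, 28, 36, 44, 52, 60, 68, 76, 84, 92, 100, 108, 116, 124, 132, 140, 148, 156, 164, 20974865, 49217705, 98962841, 69995993, 120131137, 43453849, 20974737, 1900550, 2949126],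
  Vale.Agent.P032.Lt.q_of (e' := WQ004.e101) (by decide +kernel) WQ004.q101⟩

theorem w102 : Wx (EX xs7) Vale.Agent.P032X.Cert.X3.t1 (Vale.Agent.P032.Fam.fam3 Vale.Agent.P032.Fam.im0) WQ004.W102 := ⟨[0, 8, 16, 24, 32, 40, 48, 4, 12, 20, 28, 36, 44, 52, 60, 68, 76, 84, 92, 100, 108, 116, 124, 132, 140, 148, 156, 164, 56626585, 14683609, 85854785, 50188737, 92799193, 107085889, 125832601, 1900550, 2949126],
  Vale.Agent.P032.Lt.q_of (e' := WQ004.e102) (by decide +kernel) WQ004.q102⟩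

theorem w103 : Wx (EX xs7) Vale.Agent.P032X.Cert.X3.t1 (Vale.Agent.P032.Fam.fam3 Vale.Agent.P032.Fam.im0) WQ004.W103 := ⟨[0, 8, 16, 24, 32, 40, 48, 4, 12, 20, 28, 36, 44, 52, 60, 68, 76, 84, 92, 100, 108, 116, 124, 132, 140, 148, 156, 164, 172, 180, 188, 196, 204, 5505441, 25021913, 99093913, 17891329, 63184321, 38177873, 125829185, 38174729, 47647753, 85822873, 15007745, 11994725, 4197465, 65539481, 125832201, 130023769, 63182785, 125829121],
  Vale.Agent.P032.Lt.q_of (e' := WQ004.e103) (by decide +kernel) WQ004.q103⟩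

theorem w104 : Wx (EX xs7) Vale.Agent.P032X.Cert.X3.t1 (Vale.Agent.P032.Fam.fam3 Vale.Agent.P032.Fam.im0) WQ004.W104 := ⟨[0, 8, 16, 24, 32, 40, 48, 4, 12, 20, 28, 36, 44, 52, 60, 68, 76, 84, 92, 100, 108, 116, 124, 132, 140, 148, 156, 164, 172, 180, 188, 196, 204, 212, 220, 228, 236, 244, 252, 4719065, 46284801, 99680729, 23855577, 90964441],
  Vale.Agent.P032.Lt.q_of (e' := WQ004.e104) (by decide +kernel) WQ004.q104⟩

theorem w105 : Wx (EX xs7) Vale.Agent.P032X.Cert.X3.t1 (Vale.Agent.P032.Fam.fam3 Vale.Agent.P032.Fam.im0) WQ004.W105 := ⟨[0, 8, 16, 24, 32, 40, 48, 4, 12, 20, 28, 36, 44, 52, 60, 68, 76, 84, 92, 100, 108, 116, 124, 132, 140, 148, 156, 164, 172, 180, 63184321, 90246177, 38177873, 125829185, 46075289, 37756353, 40861697, 475137, 30998593, 121012225, 11960385, 7307329, 64552961, 63182785, 125829121, 17891329, 851974, 860166, 2424838, 2949126],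
  Vale.Agent.P032.Lt.q_of (e' := WQ004.e105) (by decide +kernel) WQ004.q105⟩

theorem w106 : Wx (EX xs7) Vale.Agent.P032X.Cert.X3.t1 (Vale.Agent.P032.Fam.fam3 Vale.Agent.P032.Fam.im0) WQ004.W106 := ⟨[0, 8, 16, 24, 32, 40, 48, 4, 12, 20, 28, 36, 44, 52, 60, 68, 76, 84, 92, 100, 108, 116, 124, 132, 140, 148, 156, 164, 172, 180, 188, 5409305, 114658713, 81100801, 35999129, 97881497, 30772633, 68488601, 6049177, 265625, 71634329, 123047297, 47549849, 13995417, 2424838, 2949126],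
  Vale.Agent.P032.Lt.q_of (e' := WQ004.e106) (by decide +kernel) WQ004.q106⟩

theorem w107 : Wx (EX xs7) Vale.Agent.P032X.Cert.X3.t1 (Vale.Agent.P032.Fam.fam3 Vale.Agent.P032.Fam.im0) WQ004.W107 := ⟨[0, 8, 16, 24, 32, 40, 48, 4, 12, 20, 28, 36, 44, 52, 60, 68, 76, 84, 92, 100, 108, 116, 124, 34619393, 34622937, 65028097, 51400153, 106434009, 9453569, 64487425, 39323481, 22546265, 98041857, 56098817, 89653249, 123207681, 17842177, 114821081, 47710209, 81268185, 1068505, 30936537, 131596289, 14159321],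
  Vale.Agent.P032.Lt.q_of (e' := WQ004.e107) (by decide +kernel) WQ004.q107⟩

theorem w108 : Wx (EX xs7) Vale.Agent.P032X.Cert.X3.t1 (Vale.Agent.P032.Fam.fam3 Vale.Agent.P032.Fam.im0) WQ004.W108 := ⟨[0, 8, 16, 24, 32, 40, 48, 4, 12, 20, 28, 36, 44, 52, 60, 68, 76, 84, 92, 100, 108, 116, 124, 132, 140, 148, 156, 164, 172, 180, 188, 196, 31457793, 31457921, 53511013, 53510629, 53510357, 37224857, 2097793, 120913921, 56426497, 31458017, 19939329, 98828353, 65273857, 8683929, 115081281, 27099545, 15876505, 110985625, 39518617, 88801281, 106627073, 68419649, 11173953, 98304409, 50185089, 61145089, 1376262, 2424838, 2949126],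
  Vale.Agent.P032.Lt.q_of (e' := WQ004.e108) (by decide +kernel) WQ004.q108⟩

theorem w109 : Wx (EX xs7) Vale.Agent.P032X.Cert.X3.t1 (Vale.Agent.P032.Fam.fam3 Vale.Agent.P032.Fam.im0) WQ004.W109 := ⟨[0, 8, 16, 24, 32, 40, 48, 4, 12, 20, 28, 36, 44, 52, 60, 68, 76, 84, 92, 100, 108, 116, 124, 132, 140, 148, 156, 164, 130023745, 20971809, 54657113, 53516773, 3145945, 130023617, 36700353, 85884953, 36700225, 11010049, 67633305, 2424838, 2949126],
  Vale.Agent.P032.Lt.q_of (e' := WQ004.e109) (by decide +kernel) WQ004.q109⟩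

theorem w110 : Wx (EX xs7) Vale.Agent.P032X.Cert.X3.t1 (Vale.Agent.P032.Fam.fam3 Vale.Agent.P032.Fam.im0) WQ004.W110 := ⟨[0, 8, 16, 24, 32, 40, 48, 4, 12, 20, 28, 36, 44, 52, 60, 68, 76, 84, 92, 100, 108, 116, 124, 132, 140, 20971857, 109645209, 110038425, 32279961, 70323609, 61345177, 22056409, 97291737, 61345241, 66473369, 63737241, 30182873, 44109209, 3427737, 63458713, 111218073, 36457881, 33820057, 2919833, 92867993, 15469977, 58720297, 88872609, 88874145, 1900550, 2949126],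
  Vale.Agent.P032.Lt.q_of (e' := WQ004.e110) (by decide +kernel) WQ004.q110⟩

theorem w111 : Wx (EX xs7) Vale.Agent.P032X.Cert.X3.t1 (Vale.Agent.P032.Fam.fam3 Vale.Agent.P032.Fam.im0) WQ004.W111 := ⟨[0, 8, 16, 24, 32, 40, 48, 4, 12, 20, 28, 36, 44, 52, 60, 68, 76, 84, 92, 100, 22282241, 51134465, 37814273, 34177025, 851974, 2424838, 2949126],
  Vale.Agent.P032.Lt.q_of (e' := WQ004.e111) (by decide +kernel) WQ004.q111⟩

theorem w112 : Wx (EX xs7) Vale.Agent.P032X.Cert.X3.t1 (Vale.Agent.P032.Fam.fam3 Vale.Agent.P032.Fam.im0) WQ004.W112 := ⟨[0, 8, 16, 24, 32, 40, 48, 4, 12, 20, 28, 36, 44, 52, 60, 68, 76, 84, 92, 100, 108, 116, 124, 132, 140, 148, 156, 164, 172, 180, 188, 196, 204, 212, 220, 36700481, 133169241, 85885017, 130023617, 129764365, 36700161, 130023745, 106335437, 129764429, 53510885, 63182465, 8129613, 3031129, 851974, 1900550, 2949126],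
  Vale.Agent.P032.Lt.q_of (e' := WQ004.e112) (by decide +kernel) WQ004.q112⟩

theorem w113 : Wx (EX xs7) Vale.Agent.P032X.Cert.X3.t1 (Vale.Agent.P032.Fam.fam3 Vale.Agent.P032.Fam.im0) WQ004.W113 := ⟨[0, 8, 16, 24, 32, 40, 48, 4, 12, 20, 28, 36, 44, 52, 60, 68, 76, 84, 92, 100, 108, 116, 124, 132, 140, 148, 156, 164, 172, 180, 188, 196, 204, 212, 74448961, 37224921, 31195201, 92803929, 61145089, 89980993, 50185089, 20972185, 74448897, 18874433, 106335437, 91128985, 31457793, 79167489, 31457921, 118292545, 53510565, 18874369, 53510485, 12059137, 56426561, 31457889, 50184985, 94830593, 130023897, 84115521, 84115457, 114163777, 20316737, 6291521, 78020673, 120913985, 25821249, 1310785, 106627137, 88801345, 23003201, 68419585, 132382721, 65273921, 19939393, 98828289, 50561025, 47055321, 79364161, 1376262, 1900550, 2949126],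
  Vale.Agent.P032.Lt.q_of (e' := WQ004.e113) (by decide +kernel) WQ004.q113⟩

theorem w114 : Wx (EX xs7) Vale.Agent.P032X.Cert.X3.t1 (Vale.Agent.P032.Fam.fam3 Vale.Agent.P032.Fam.im0) WQ004.W114 := ⟨[0, 8, 16, 24, 32, 40, 48, 4, 12, 20, 28, 36, 44, 52, 60, 68, 76, 84, 92, 100, 108, 116, 124, 132, 140, 148, 156, 164, 78020929, 78020609, 6291521, 61079553, 74448961, 18874369, 121372673, 1376262, 2424838, 2949126],
  Vale.Agent.P032.Lt.q_of (e' := WQ004.e114) (by decide +kernel) WQ004.q114⟩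

theorem w115 : Wx (EX xs7) Vale.Agent.P032X.Cert.X3.t1 (Vale.Agent.P032.Fam.fam3 Vale.Agent.P032.Fam.im0) WQ004.W115 := ⟨[0, 8, 16, 24, 32, 40, 48, 4, 12, 20, 28, 36, 44, 52, 60, 68, 76, 84, 92, 100, 108, 116, 124, 132, 140, 148, 156, 164, 172, 94601753, 37896601, 21299609, 21234073, 54788505, 88342937, 37502977, 860166, 1908742, 1916934, 2424838, 2433030, 2949126],
  Vale.Agent.P032.Lt.q_of (e' := WQ004.e115) (by decide +kernel) WQ004.q115⟩

theorem w116 : Wx (EX xs7) Vale.Agent.P032X.Cert.X3.t1 (Vale.Agent.P032.Fam.fam3 Vale.Agent.P032.Fam.im0) WQ004.W116 := ⟨[0, 8, 16, 24, 32, 40, 48, 4, 12, 20, 28, 36, 44, 52, 60, 68, 76, 84, 92, 100, 108, 116, 124, 132, 140, 148, 156, 164, 172, 180, 188, 196, 204, 118292545, 18874369, 35799041, 12059137, 24002561, 109248513, 52576665, 50528665, 117637529, 84083097, 8585625, 37978521, 42139777, 75694489, 19022233, 25362841],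
  Vale.Agent.P032.Lt.q_of (e' := WQ004.e116) (by decide +kernel) WQ004.q116⟩

theorem w117 : Wx (EX xs7) Vale.Agent.P032X.Cert.X3.t1 (Vale.Agent.P032.Fam.fam3 Vale.Agent.P032.Fam.im0) WQ004.W117 := ⟨[0, 8, 16, 24, 32, 40, 48, 4, 12, 20, 28, 36, 44, 52, 60, 68, 76, 84, 92, 100, 108, 116, 124, 132, 140, 148, 156, 164, 172, 180, 188, 196, 20316545, 53510357, 36209569, 69763137, 112787929, 130580889, 2654617, 20316609],
  Vale.Agent.P032.Lt.q_of (e' := WQ004.e117) (by decide +kernel) WQ004.q117⟩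

theorem w118 : Wx (EX xs7) Vale.Agent.P032X.Cert.X3.t1 (Vale.Agent.P032.Fam.fam3 Vale.Agent.P032.Fam.im0) WQ004.W118 := ⟨[0, 8, 16, 24, 32, 40, 48, 4, 12, 20, 28, 36, 44, 52, 60, 68, 76, 84, 92, 100, 108, 116, 46546945, 48791553, 82345985],
  Vale.Agent.P032.Lt.q_of (e' := WQ004.e118) (by decide +kernel) WQ004.q118⟩

theorem w119 : Wx (EX xs7) Vale.Agent.P032X.Cert.X3.t1 (Vale.Agent.P032.Fam.fam3 Vale.Agent.P032.Fam.im0) WQ004.W119 := ⟨[0, 8, 16, 24, 32, 40, 48, 4, 12, 20, 28, 36, 44, 52, 60, 68, 76, 84, 92, 100, 108, 116, 124, 132, 140, 148, 156, 164, 20971937, 116424769, 53510629, 53512165, 89817089, 120913921, 335878, 1376262, 2424838, 2433030, 2949126],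
  Vale.Agent.P032.Lt.q_of (e' := WQ004.e119) (by decide +kernel) WQ004.q119⟩

theorem w120 : Wx (EX xs7) Vale.Agent.P032X.Cert.X3.t1 (Vale.Agent.P032.Fam.fam3 Vale.Agent.P032.Fam.im0) WQ004.W120 := ⟨[0, 8, 16, 24, 32, 40, 48, 4, 12, 20, 28, 36, 44, 52, 60, 68, 76, 84, 92, 100, 108, 116, 124, 132, 140, 148, 156, 164, 118292545, 37755265, 116424769, 85459737, 24002561, 22708737, 100795105],
  Vale.Agent.P032.Lt.q_of (e' := WQ004.e120) (by decide +kernel) WQ004.q120⟩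

theorem w121 : Wx (EX xs7) Vale.Agent.P032X.Cert.X3.t1 (Vale.Agent.P032.Fam.fam3 Vale.Agent.P032.Fam.im0) WQ004.W121 := ⟨[0, 8, 16, 24, 32, 40, 48, 4, 12, 20, 28, 36, 44, 52, 60, 68, 76, 84, 92, 100, 108, 116, 124, 132, 140, 148, 156, 164, 172, 180, 188, 196, 204, 212, 91128985, 20972057, 18874433, 20971649, 53510357, 20972185, 25692425, 130023777, 20971777, 18874369, 91128601],
  Vale.Agent.P032.Lt.q_of (e' := WQ004.e121) (by decide +kernel) WQ004.q121⟩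

theorem w122 : Wx (EX xs7) Vale.Agent.P032X.Cert.X3.t1 (Vale.Agent.P032.Fam.fam3 Vale.Agent.P032.Fam.im0) WQ004.W122 := ⟨[0, 8, 16, 24, 32, 40, 48, 4, 12, 20, 28, 36, 44, 52, 60, 68, 76, 84, 92, 100, 108, 116, 124, 132, 140, 148, 156, 65159169],
  Vale.Agent.P032.Lt.q_of (e' := WQ004.e122) (by decide +kernel) WQ004.q122⟩

theorem w123 : Wx (EX xs7) Vale.Agent.P032X.Cert.X3.t1 (Vale.Agent.P032.Fam.fam3 Vale.Agent.P032.Fam.im0) WQ004.W123 := ⟨[0, 8, 16, 24, 32, 40, 48, 4, 12, 20, 28, 36, 44, 52, 60, 68, 76, 84, 92, 100, 108, 116, 124, 132, 140, 148, 73662529, 118784001, 76844441, 48908197, 9732097, 53020241, 60163793, 851974, 1900550, 2949126],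
  Vale.Agent.P032.Lt.q_of (e' := WQ004.e123) (by decide +kernel) WQ004.q123⟩

theorem w124 : Wx (EX xs7) Vale.Agent.P032X.Cert.X3.t1 (Vale.Agent.P032.Fam.fam3 Vale.Agent.P032.Fam.im0) WQ004.W124 := ⟨[0, 8, 16, 24, 32, 40, 48, 4, 12, 20, 28, 36, 44, 52, 60, 68, 76, 84, 92, 100, 108, 116, 124, 132, 140, 148, 156, 54301253, 39075969, 54301341],
  Vale.Agent.P032.Lt.q_of (e' := WQ004.e124) (by decide +kernel) WQ004.q124⟩

theorem w125 : Wx (EX xs7) Vale.Agent.P032X.Cert.X3.t1 (Vale.Agent.P032.Fam.fam3 Vale.Agent.P032.Fam.im0) WQ004.W125 := ⟨[0, 8, 16, 24, 32, 40, 48, 4, 12, 20, 28, 36, 44, 52, 60, 68, 76, 84, 92, 100, 108, 116, 124, 132, 140, 148, 156, 164, 172, 91128217, 37502977, 85721497, 57573785, 37755265, 53510629, 18612633, 55067033, 53511013, 67633537, 61079553, 31457889, 3948953, 133202329, 2424838, 2949126],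
  Vale.Agent.P032.Lt.q_of (e' := WQ004.e125) (by decide +kernel) WQ004.q125⟩

theorem w126 : Wx (EX xs7) Vale.Agent.P032X.Cert.X3.t1 (Vale.Agent.P032.Fam.fam3 Vale.Agent.P032.Fam.im0) WQ004.W126 := ⟨[0, 8, 16, 24, 32, 40, 48, 4, 12, 20, 28, 36, 44, 52, 60, 68, 76, 84, 92, 100, 108, 116, 124, 132, 140, 148, 156, 164, 172, 180, 37224921, 100794497, 91128217, 63182529, 67633241, 37231513, 130023833, 69206745],
  Vale.Agent.P032.Lt.q_of (e' := WQ004.e126) (by decide +kernel) WQ004.q126⟩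

theorem w127 : Wx (EX xs7) Vale.Agent.P032X.Cert.X3.t1 (Vale.Agent.P032.Fam.fam3 Vale.Agent.P032.Fam.im0) WQ004.W127 := ⟨[0, 8, 16, 24, 32, 40, 48, 4, 12, 20, 28, 36, 44, 52, 60, 68, 76, 84, 92, 100, 108, 116, 124, 132, 140, 43139073, 106233857, 22347777, 39124993, 85459801, 17302361, 101191449],
  Vale.Agent.P032.Lt.q_of (e' := WQ004.e127) (by decide +kernel) WQ004.q127⟩

theorem w128 : Wx (EX xs7) Vale.Agent.P032X.Cert.X3.t1 (Vale.Agent.P032.Fam.fam3 Vale.Agent.P032.Fam.im0) WQ004.W128 := ⟨[0, 8, 16, 24, 32, 40, 48, 4, 12, 20, 28, 36, 44, 52, 60, 68, 76, 84, 92, 100, 108, 116, 124, 132, 113770497],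
  Vale.Agent.P032.Lt.q_of (e' := WQ004.e128) (by decide +kernel) WQ004.q128⟩

theorem w129 : Wx (EX xs7) Vale.Agent.P032X.Cert.X3.t1 (Vale.Agent.P032.Fam.fam3 Vale.Agent.P032.Fam.im0) WQ004.W129 := ⟨[0, 8, 16, 24, 32, 40, 48, 4, 12, 20, 28, 36, 44, 52, 60, 68, 76, 84, 92, 100, 108, 116, 124, 132, 140, 148, 66666497, 128909721, 40370585, 54034433, 40830465, 15925657],
  Vale.Agent.P032.Lt.q_of (e' := WQ004.e129) (by decide +kernel) WQ004.q129⟩

theorem w130 : Wx (EX xs7) Vale.Agent.P032X.Cert.X3.t1 (Vale.Agent.P032.Fam.fam3 Vale.Agent.P032.Fam.im0) WQ004.W130 := ⟨[0, 8, 16, 24, 32, 40, 48, 4, 12, 20, 28, 36, 44, 52, 60, 68, 76, 84, 92, 100, 108, 116, 124, 132, 140, 148, 156, 164, 55312793, 31986129, 55509157, 74448897],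
  Vale.Agent.P032.Lt.q_of (e' := WQ004.e130) (by decide +kernel) WQ004.q130⟩

theorem w131 : Wx (EX xs7) Vale.Agent.P032X.Cert.X3.t1 (Vale.Agent.P032.Fam.fam3 Vale.Agent.P032.Fam.im0) WQ004.W131 := ⟨[0, 8, 16, 24, 32, 40, 48, 4, 12, 20, 28, 36, 44, 52, 60, 68, 76, 84, 92, 100, 108, 116, 124, 132, 140, 148, 156, 164, 172, 35127297, 69207489, 35127361, 69206721, 1376262, 1916934, 2441222, 2949126],
  Vale.Agent.P032.Lt.q_of (e' := WQ004.e131) (by decide +kernel) WQ004.q131⟩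

theorem w132 : Wx (EX xs7) Vale.Agent.P032X.Cert.X3.t1 (Vale.Agent.P032.Fam.fam3 Vale.Agent.P032.Fam.im0) WQ004.W132 := ⟨[0, 8, 16, 24, 32, 40, 48, 4, 12, 20, 28, 36, 44, 52, 60, 68, 76, 84, 92, 100, 108, 118164953, 9113049, 30556353, 25886913, 76218561, 109772993, 42667481],
  Vale.Agent.P032.Lt.q_of (e' := WQ004.e132) (by decide +kernel) WQ004.q132⟩

theorem w133 : Wx (EX xs7) Vale.Agent.P032X.Cert.X3.t1 (Vale.Agent.P032.Fam.fam3 Vale.Agent.P032.Fam.im0) WQ004.W133 := ⟨[0, 8, 16, 24, 32, 40, 48, 4, 12, 20, 28, 36, 44, 52, 60, 68, 76, 84, 92, 95027201, 1900550, 2949126],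
  Vale.Agent.P032.Lt.q_of (e' := WQ004.e133) (by decide +kernel) WQ004.q133⟩

theorem w134 : Wx (EX xs7) Vale.Agent.P032X.Cert.X3.t1 (Vale.Agent.P032.Fam.fam3 Vale.Agent.P032.Fam.im0) WQ005.W134 := ⟨[0, 8, 16, 24, 32, 40, 48, 4, 12, 20, 28, 36, 44, 52, 60, 68, 76, 84, 92, 100, 108, 116, 124, 132, 140, 148, 102236161, 35127297, 69207489, 102236225, 35127361, 69207105],
  Vale.Agent.P032.Lt.q_of (e' := WQ005.e134) (by decide +kernel) WQ005.q134⟩

theorem w135 : Wx (EX xs7) Vale.Agent.P032X.Cert.X3.t1 (Vale.Agent.P032.Fam.fam3 Vale.Agent.P032.Fam.im0) WQ005.W135 := ⟨[0, 8, 16, 24, 32, 40, 48, 4, 12, 20, 28, 36, 44, 52, 60, 68, 76, 84, 92, 100, 108, 116, 124, 132, 140, 148, 156, 164, 172, 44122113, 44122521, 851974, 1376262, 2949126],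
  Vale.Agent.P032.Lt.q_of (e' := WQ005.e135) (by decide +kernel) WQ005.q135⟩

theorem w136 : Wx (EX xs7) Vale.Agent.P032X.Cert.X3.t1 (Vale.Agent.P032.Fam.fam3 Vale.Agent.P032.Fam.im0) WQ005.W136 := ⟨[0, 8, 16, 24, 32, 40, 48, 4, 12, 20, 28, 36, 44, 52, 60, 68, 76, 84, 92, 100, 108, 116, 113246209],
  Vale.Agent.P032.Lt.q_of (e' := WQ005.e136) (by decide +kernel) WQ005.q136⟩

theorem w137 : Wx (EX xs7) Vale.Agent.P032X.Cert.X3.t1 (Vale.Agent.P032.Fam.fam3 Vale.Agent.P032.Fam.im0) WQ005.W137 := ⟨[0, 8, 16, 24, 32, 40, 48, 4, 12, 20, 28, 36, 44, 52, 60, 68, 76, 84, 92, 100, 24395777, 2424838, 2949126],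
  Vale.Agent.P032.Lt.q_of (e' := WQ005.e137) (by decide +kernel) WQ005.q137⟩

theorem w138 : Wx (EX xs7) Vale.Agent.P032X.Cert.X3.t1 (Vale.Agent.P032.Fam.fam3 Vale.Agent.P032.Fam.im0) WQ005.W138 := ⟨[0, 8, 16, 24, 32, 40, 48, 4, 12, 20, 28, 36, 44, 52, 60, 68, 76, 84, 92, 100, 108, 116, 22282241, 6094849, 106758145, 39649281, 34177345, 22875545, 73207193, 851974, 2424838, 2949126],
  Vale.Agent.P032.Lt.q_of (e' := WQ005.e138) (by decide +kernel) WQ005.q138⟩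

theorem w139 : Wx (EX xs7) Vale.Agent.P032X.Cert.X3.t1 (Vale.Agent.P032.Fam.fam3 Vale.Agent.P032.Fam.im0) WQ005.W139 := ⟨[0, 8, 16, 24, 32, 40, 48, 4, 12, 20, 28, 36, 44, 52, 60, 68, 76, 84, 92, 100, 108, 116, 124, 132, 140, 148, 156, 164, 172, 180, 74449233, 20971729, 53510413, 77663641, 61345177, 103288281, 61345241, 123538841, 111218073, 110038425, 32279961, 130846361, 97291737, 30182873, 58720297, 44109209, 3427737, 63458713, 66473369, 63737241, 105778585, 66194841, 79957401, 32918937, 65047961, 112758169, 77663705],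
  Vale.Agent.P032.Lt.q_of (e' := WQ005.e139) (by decide +kernel) WQ005.q139⟩

theorem w140 : Wx (EX xs7) Vale.Agent.P032X.Cert.X3.t1 (Vale.Agent.P032.Fam.fam3 Vale.Agent.P032.Fam.im0) WQ005.W140 := ⟨[0, 8, 16, 24, 32, 40, 48, 4, 12, 20, 28, 36, 44, 52, 60, 68, 76, 84, 92, 100, 108, 116, 124, 132, 140, 148, 44122113, 44122177],
  Vale.Agent.P032.Lt.q_of (e' := WQ005.e140) (by decide +kernel) WQ005.q140⟩

theorem w141 : Wx (EX xs7) Vale.Agent.P032X.Cert.X3.t1 (Vale.Agent.P032.Fam.fam3 Vale.Agent.P032.Fam.im0) WQ005.W141 := ⟨[0, 8, 16, 24, 32, 40, 48, 4, 12, 20, 28, 36, 44, 52, 60, 68, 76, 84, 92, 100, 108, 116, 124, 132, 140, 148, 156, 117440577, 18874369, 6291929, 108527617, 79167553],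
  Vale.Agent.P032.Lt.q_of (e' := WQ005.e141) (by decide +kernel) WQ005.q141⟩

theorem w142 : Wx (EX xs7) Vale.Agent.P032X.Cert.X3.t1 (Vale.Agent.P032.Fam.fam3 Vale.Agent.P032.Fam.im0) WQ005.W142 := ⟨[0, 8, 16, 24, 32, 40, 48, 4, 12, 20, 28, 36, 44, 52, 60, 68, 76, 84, 92, 100, 108, 15994013, 335878, 860166, 2424838, 2433030, 2949126, 2957318],
  Vale.Agent.P032.Lt.q_of (e' := WQ005.e142) (by decide +kernel) WQ005.q142⟩

theorem w143 : Wx (EX xs7) Vale.Agent.P032X.Cert.X3.t1 (Vale.Agent.P032.Fam.fam3 Vale.Agent.P032.Fam.im0) WQ005.W143 := ⟨[0, 8, 16, 24, 32, 40, 48, 4, 12, 20, 28, 36, 44, 52, 60, 68, 76, 84, 92, 100, 108, 116, 58720281, 58720409],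
  Vale.Agent.P032.Lt.q_of (e' := WQ005.e143) (by decide +kernel) WQ005.q143⟩

theorem w144 : Wx (EX xs7) Vale.Agent.P032X.Cert.X3.t1 (Vale.Agent.P032.Fam.fam3 Vale.Agent.P032.Fam.im0) WQ005.W144 := ⟨[0, 8, 16, 24, 32, 40, 48, 4, 12, 20, 28, 36, 44, 52, 60, 68, 76, 84, 92, 100, 108, 116, 43139137, 130023617, 129764365, 130023641, 106332645, 98567321, 851974, 1900550, 2949126],
  Vale.Agent.P032.Lt.q_of (e' := WQ005.e144) (by decide +kernel) WQ005.q144⟩

theorem w145 : Wx (EX xs7) Vale.Agent.P032X.Cert.X3.t1 (Vale.Agent.P032.Fam.fam3 Vale.Agent.P032.Fam.im0) WQ005.W145 := ⟨[0, 8, 16, 24, 32, 40, 48, 4, 12, 20, 28, 36, 44, 52, 60, 68, 76, 84, 92, 100, 108, 116, 124, 132, 140, 148, 156, 164, 172, 180, 122686721, 48267785, 53510357],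
  Vale.Agent.P032.Lt.q_of (e' := WQ005.e145) (by decide +kernel) WQ005.q145⟩

theorem w146 : Wx (EX xs7) Vale.Agent.P032X.Cert.X3.t1 (Vale.Agent.P032.Fam.fam3 Vale.Agent.P032.Fam.im0) WQ005.W146 := ⟨[0, 8, 16, 24, 32, 40, 48, 4, 12, 20, 28, 36, 44, 52, 60, 68, 76, 84, 92, 100, 108, 116, 124, 132, 140, 148, 156, 164, 40370177, 17320613, 128909313, 74383361, 7274497, 125698049, 15925249, 985765, 40829401, 124387329, 130318337, 64225753, 107938073],
  Vale.Agent.P032.Lt.q_of (e' := WQ005.e146) (by decide +kernel) WQ005.q146⟩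

theorem w147 : Wx (EX xs7) Vale.Agent.P032X.Cert.X3.t1 (Vale.Agent.P032.Fam.fam3 Vale.Agent.P032.Fam.im0) WQ005.W147 := ⟨[0, 8, 16, 24, 32, 40, 48, 4, 12, 20, 28, 36, 44, 52, 60, 68, 76, 84, 92, 100, 108, 116, 124, 132, 29622273, 133467609, 32800769, 63327705, 93880321, 860166, 1900550, 2949126, 2965510],
  Vale.Agent.P032.Lt.q_of (e' := WQ005.e147) (by decide +kernel) WQ005.q147⟩

theorem w148 : Wx (EX xs7) Vale.Agent.P032X.Cert.X3.t1 (Vale.Agent.P032.Fam.fam3 Vale.Agent.P032.Fam.im0) WQ005.W148 := ⟨[0, 8, 16, 24, 32, 40, 48, 4, 12, 20, 28, 36, 44, 52, 60, 68, 76, 84, 92, 100, 7897089, 104271385],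
  Vale.Agent.P032.Lt.q_of (e' := WQ005.e148) (by decide +kernel) WQ005.q148⟩

theorem w149 : Wx (EX xs7) Vale.Agent.P032X.Cert.X3.t1 (Vale.Agent.P032.Fam.fam3 Vale.Agent.P032.Fam.im0) WQ005.W149 := ⟨[0, 8, 16, 24, 32, 40, 48, 4, 12, 20, 28, 36, 44, 52, 60, 68, 76, 84, 92, 100, 108, 116, 124, 16121945, 83230809],
  Vale.Agent.P032.Lt.q_of (e' := WQ005.e149) (by decide +kernel) WQ005.q149⟩

theorem w150 : Wx (EX xs7) Vale.Agent.P032X.Cert.X3.t1 (Vale.Agent.P032.Fam.fam3 Vale.Agent.P032.Fam.im0) WQ005.W150 := ⟨[0, 8, 16, 24, 32, 40, 48, 4, 12, 20, 28, 36, 44, 52, 60, 68, 76, 84, 92, 100, 108, 116, 124, 132, 140, 148, 156, 164, 172, 180, 79036417, 58277889, 101023745, 92569601, 16334849, 17137665, 335878, 860166, 1376262, 1900550, 2433030, 2957318],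
  Vale.Agent.P032.Lt.q_of (e' := WQ005.e150) (by decide +kernel) WQ005.q150⟩

theorem w151 : Wx (EX xs7) Vale.Agent.P032X.Cert.X3.t1 (Vale.Agent.P032.Fam.fam3 Vale.Agent.P032.Fam.im0) WQ006.W151 := ⟨[0, 8, 16, 24, 32, 40, 48, 4, 12, 20, 28, 36, 44, 52, 60, 68, 76, 84, 92, 100, 108, 116, 41422489, 87556097],
  Vale.Agent.P032.Lt.q_of (e' := WQ006.e151) (by decide +kernel) WQ006.q151⟩

theorem w152 : Wx (EX xs7) Vale.Agent.P032X.Cert.X3.t1 (Vale.Agent.P032.Fam.fam3 Vale.Agent.P032.Fam.im0) WQ006.W152 := ⟨[0, 8, 16, 24, 32, 40, 48, 4, 12, 20, 28, 36, 44, 52, 60, 68, 76, 84, 92, 100, 108, 62095361, 1900550, 1908742, 2424838, 2433030, 2949126, 2957318],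
  Vale.Agent.P032.Lt.q_of (e' := WQ006.e152) (by decide +kernel) WQ006.q152⟩

theorem w153 : Wx (EX xs7) Vale.Agent.P032X.Cert.X3.t1 (Vale.Agent.P032.Fam.fam3 Vale.Agent.P032.Fam.im0) WQ006.W153 := ⟨[0, 8, 16, 24, 32, 40, 48, 4, 12, 20, 28, 36, 44, 52, 60, 68, 76, 84, 92, 100, 108, 116, 124, 132, 34095105, 69995993, 62721497, 14175705, 33721817, 7476617, 74585481, 851974, 1900550, 2949126],
  Vale.Agent.P032.Lt.q_of (e' := WQ006.e153) (by decide +kernel) WQ006.q153⟩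

theorem w154 : Wx (EX xs7) Vale.Agent.P032X.Cert.X3.t1 (Vale.Agent.P032.Fam.fam3 Vale.Agent.P032.Fam.im0) WQ006.W154 := ⟨[0, 8, 16, 24, 32, 40, 48, 4, 12, 20, 28, 36, 44, 52, 60, 68, 76, 84, 92, 100, 108, 116, 124, 132, 140, 148, 156, 164, 100178473, 75038721, 96469401, 14090713, 111149465],
  Vale.Agent.P032.Lt.q_of (e' := WQ006.e154) (by decide +kernel) WQ006.q154⟩

theorem w155 : Wx (EX xs7) Vale.Agent.P032X.Cert.X3.t1 (Vale.Agent.P032.Fam.fam3 Vale.Agent.P032.Fam.im0) WQ006.W155 := ⟨[0, 8, 16, 24, 32, 40, 48, 4, 12, 20, 28, 36, 44, 52, 60, 68, 76, 84, 92, 100, 108, 116, 124, 132, 140, 27088149],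
  Vale.Agent.P032.Lt.q_of (e' := WQ006.e155) (by decide +kernel) WQ006.q155⟩

theorem w156 : Wx (EX xs7) Vale.Agent.P032X.Cert.X3.t1 (Vale.Agent.P032.Fam.fam3 Vale.Agent.P032.Fam.im0) WQ006.W156 := ⟨[0, 8, 16, 24, 32, 40, 48, 4, 12, 20, 28, 36, 44, 52, 60, 68, 76, 84, 92, 100, 108, 116, 124, 132, 79888385, 851974, 860166, 1376262, 2424838],
  Vale.Agent.P032.Lt.q_of (e' := WQ006.e156) (by decide +kernel) WQ006.q156⟩

theorem w157 : Wx (EX xs7) Vale.Agent.P032X.Cert.X3.t1 (Vale.Agent.P032.Fam.fam3 Vale.Agent.P032.Fam.im0) WQ006.W157 := ⟨[0, 8, 16, 24, 32, 40, 48, 4, 12, 20, 28, 36, 44, 52, 60, 68, 76, 84, 92, 100, 108, 116, 124, 132, 140, 148, 16646145, 125701697, 129768421],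
  Vale.Agent.P032.Lt.q_of (e' := WQ006.e157) (by decide +kernel) WQ006.q157⟩

theorem w158 : Wx (EX xs7) Vale.Agent.P032X.Cert.X3.t1 (Vale.Agent.P032.Fam.fam3 Vale.Agent.P032.Fam.im0) WQ006.W158 := ⟨[0, 8, 16, 24, 32, 40, 48, 4, 12, 20, 28, 36, 44, 52, 60, 68, 76, 84, 92, 100, 108, 116, 124, 132, 140, 148, 156, 164, 172, 121372673, 66930381, 23658905, 103514521, 1638401, 119734273, 124321793, 61407233, 111346073, 60965273, 65601945, 121700353, 27852801, 107544577, 102367641, 90767769, 77791641, 128516097, 73990553, 36405657, 2424838, 2433030, 2949126],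
  Vale.Agent.P032.Lt.q_of (e' := WQ006.e158) (by decide +kernel) WQ006.q158⟩

theorem w159 : Wx (EX xs7) Vale.Agent.P032X.Cert.X3.t1 (Vale.Agent.P032.Fam.fam3 Vale.Agent.P032.Fam.im0) WQ006.W159 := ⟨[0, 8, 16, 24, 32, 40, 48, 4, 12, 20, 28, 36, 44, 52, 60, 68, 76, 84, 92, 100, 108, 116, 124, 132, 140, 148, 156, 44105729, 58654721, 65044481, 35717121, 27541505, 66191361, 71237633, 46399489, 60686337, 100564993, 50233345, 67010561, 125763585, 51412993, 8982681, 101744641, 64634881, 132153345, 127795201, 68190209, 31459233, 31459489, 31459297, 851974, 1900550, 2949126],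
  Vale.Agent.P032.Lt.q_of (e' := WQ006.e159) (by decide +kernel) WQ006.q159⟩

theorem w160 : Wx (EX xs7) Vale.Agent.P032X.Cert.X3.t1 (Vale.Agent.P032.Fam.fam3 Vale.Agent.P032.Fam.im0) WQ006.W160 := ⟨[0, 8, 16, 24, 32, 40, 48, 4, 12, 20, 28, 36, 44, 52, 60, 68, 76, 84, 92, 100, 108, 116, 124, 132, 2103333, 17319461, 124390977, 124782665, 130321857, 91229657, 107908889, 63211297, 49287321, 851974, 892934, 2424838, 2949126],
  Vale.Agent.P032.Lt.q_of (e' := WQ006.e160) (by decide +kernel) WQ006.q160⟩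

theorem w161 : Wx (EX xs7) Vale.Agent.P032X.Cert.X3.t1 (Vale.Agent.P032.Fam.fam3 Vale.Agent.P032.Fam.im0) WQ006.W161 := ⟨[0, 8, 16, 24, 32, 40, 48, 4, 12, 20, 28, 36, 44, 52, 60, 68, 76, 84, 92, 100, 108, 116, 124, 132, 140, 148, 156, 164, 49168857, 79462401, 12353537, 7667713, 41222145, 74776577, 113016833, 117309849, 31211929, 45907969, 29131161, 39813593, 6258689],
  Vale.Agent.P032.Lt.q_of (e' := WQ006.e161) (by decide +kernel) WQ006.q161⟩

theorem w162 : Wx (EX xs7) Vale.Agent.P032X.Cert.X3.t1 (Vale.Agent.P032.Fam.fam3 Vale.Agent.P032.Fam.im0) WQ006.W162 := ⟨[0, 8, 16, 24, 32, 40, 48, 4, 12, 20, 28, 36, 44, 52, 60, 68, 76, 84, 92, 100, 108, 116, 124, 132, 140, 148, 156, 164, 125960601, 114950553, 7667713, 41222145, 74776577, 45907969, 31211929, 1900550, 2949126],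
  Vale.Agent.P032.Lt.q_of (e' := WQ006.e162) (by decide +kernel) WQ006.q162⟩

theorem w163 : Wx (EX xs7) Vale.Agent.P032X.Cert.X3.t1 (Vale.Agent.P032.Fam.fam3 Vale.Agent.P032.Fam.im0) WQ006.W163 := ⟨[0, 8, 16, 24, 32, 40, 48, 4, 12, 20, 28, 36, 44, 52, 60, 68, 76, 84, 92, 100, 108, 116, 124, 132, 140, 148, 156, 164, 116654081, 34619393, 106430465, 1064961, 56098817, 89653249, 9175041, 84672513, 123207681, 66325977, 17842177, 32768001, 49299457, 83099649, 81268185, 47710209, 15745025, 114821081, 65031641, 49545217, 14155777, 30932993, 98045401, 34340865, 1068505, 30936537, 99876865, 118230489, 14159321, 131596289, 9178585, 99880409, 101453273, 17563649, 51644249, 67898841, 17567193, 39323713, 67895297, 39323481, 51644481, 32525785, 786433, 22546497, 133431489, 133435097, 51400153, 106434009, 32522241, 22546265, 789977, 64490969, 116657625, 34622937, 51121241, 66080217, 56102361, 89656793, 84676057, 123211225,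 66322433, 32771545, 81264641, 114820609, 83103193, 47713753, 15748569, 49303001, 65028097, 49548377],
  Vale.Agent.P032.Lt.q_of (e' := WQ006.e163) (by decide +kernel) WQ006.q163⟩

theorem w164 : Wx (EX xs7) Vale.Agent.P032X.Cert.X3.t1 (Vale.Agent.P032.Fam.fam3 Vale.Agent.P032.Fam.im0) WQ006.W164 := ⟨[0, 8, 16, 24, 32, 40, 48, 4, 12, 20, 28, 36, 44, 52, 60, 68, 76, 84, 92, 100, 108, 41943041],
  Vale.Agent.P032.Lt.q_of (e' := WQ006.e164) (by decide +kernel) WQ006.q164⟩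

theorem w165 : Wx (EX xs7) Vale.Agent.P032X.Cert.X3.t1 (Vale.Agent.P032.Fam.fam3 Vale.Agent.P032.Fam.im0) WQ006.W165 := ⟨[0, 8, 16, 24, 32, 40, 48, 4, 12, 20, 28, 36, 44, 52, 60, 68, 76, 84, 92, 100, 108, 116, 124, 132, 140, 148, 10488857, 43450369, 21433817, 860166, 2424838, 2949126],
  Vale.Agent.P032.Lt.q_of (e' := WQ006.e165) (by decide +kernel) WQ006.q165⟩

theorem w166 : Wx (EX xs7) Vale.Agent.P032X.Cert.X3.t1 (Vale.Agent.P032.Fam.fam3 Vale.Agent.P032.Fam.im0) WQ006.W166 := ⟨[0, 8, 16, 24, 32, 40, 48, 4, 12, 20, 28, 36, 44, 52, 60, 68, 76, 84, 92, 100, 108, 116, 124, 132, 140, 148, 156, 164, 172, 180, 188, 196, 204, 37224449, 37224857, 92803841, 11010081, 20973345, 20971649, 2102849, 11010113, 67633665, 18874777, 20973217, 20972057, 90178009, 50185473, 18874433, 12059265],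
  Vale.Agent.P032.Lt.q_of (e' := WQ006.e166) (by decide +kernel) WQ006.q166⟩

theorem w167 : Wx (EX xs7) Vale.Agent.P032X.Cert.X3.t1 (Vale.Agent.P032.Fam.fam3 Vale.Agent.P032.Fam.im0) WQ006.W167 := ⟨[0, 8, 16, 24, 32, 40, 48, 4, 12, 20, 28, 36, 44, 52, 60, 68, 76, 84, 92, 100, 108, 116, 124, 132, 140, 148, 156, 164, 172, 180, 67633241, 36044801, 1114113, 38552025, 68222977, 132186113, 65077721, 10093017, 1900550, 2949126],
  Vale.Agent.P032.Lt.q_of (e' := WQ006.e167) (by decide +kernel) WQ006.q167⟩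

theorem w168 : Wx (EX xs7) Vale.Agent.P032X.Cert.X3.t1 (Vale.Agent.P032.Fam.fam3 Vale.Agent.P032.Fam.im0) WQ006.W168 := ⟨[0, 8, 16, 24, 32, 40, 48, 4, 12, 20, 28, 36, 44, 52, 60, 68, 76, 84, 92, 100, 108, 116, 124, 132, 140, 148, 156, 164, 172, 105119745, 21299609, 54083713, 121640217, 54526361, 12583321, 35848601, 105054209, 131072001, 8126613, 2424838, 2949126],
  Vale.Agent.P032.Lt.q_of (e' := WQ006.e168) (by decide +kernel) WQ006.q168⟩

theorem w169 : Wx (EX xs7) Vale.Agent.P032X.Cert.X3.t1 (Vale.Agent.P032.Fam.fam3 Vale.Agent.P032.Fam.im0) WQ006.W169 := ⟨[0, 8, 16, 24, 32, 40, 48, 4, 12, 20, 28, 36, 44, 52, 60, 68, 76, 84, 92, 100, 108, 116, 124, 132, 44466905, 2424838, 2949126],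
  Vale.Agent.P032.Lt.q_of (e' := WQ006.e169) (by decide +kernel) WQ006.q169⟩

theorem w170 : Wx (EX xs7) Vale.Agent.P032X.Cert.X3.t1 (Vale.Agent.P032.Fam.fam3 Vale.Agent.P032.Fam.im0) WQ006.W170 := ⟨[0, 8, 16, 24, 32, 40, 48, 4, 12, 20, 28, 36, 44, 52, 60, 68, 76, 84, 92, 100, 108, 116, 124, 132, 140, 148, 156, 84508673, 43286529, 122192281, 110395393, 66338817, 35209217],
  Vale.Agent.P032.Lt.q_of (e' := WQ006.e170) (by decide +kernel) WQ006.q170⟩

theorem w171 : Wx (EX xs7) Vale.Agent.P032X.Cert.X3.t1 (Vale.Agent.P032.Fam.fam3 Vale.Agent.P032.Fam.im0) WQ006.W171 := ⟨[0, 8, 16, 24, 32, 40, 48, 4, 12, 20, 28, 36, 44, 52, 60, 68, 76, 84, 92, 100, 108, 15237121, 1376262, 1900550],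
  Vale.Agent.P032.Lt.q_of (e' := WQ006.e171) (by decide +kernel) WQ006.q171⟩

theorem w172 : Wx (EX xs7) Vale.Agent.P032X.Cert.X3.t1 (Vale.Agent.P032.Fam.fam3 Vale.Agent.P032.Fam.im0) WQ006.W172 := ⟨[0, 8, 16, 24, 32, 40, 48, 4, 12, 20, 28, 36, 44, 52, 60, 68, 76, 84, 92, 100, 108, 116, 42237953, 58032129, 40894465, 6635521, 125144473, 40193433],
  Vale.Agent.P032.Lt.q_of (e' := WQ006.e172) (by decide +kernel) WQ006.q172⟩

theorem w173 : Wx (EX xs7) Vale.Agent.P032X.Cert.X3.t1 (Vale.Agent.P032.Fam.fam3 Vale.Agent.P032.Fam.im0) WQ006.W173 := ⟨[0, 8, 16, 24, 32, 40, 48, 4, 12, 20, 28, 36, 44, 52, 60, 68, 76, 84, 92, 100, 108, 106430465, 127077849, 5443033, 31227905],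
  Vale.Agent.P032.Lt.q_of (e' := WQ006.e173) (by decide +kernel) WQ006.q173⟩

theorem w174 : Wx (EX xs7) Vale.Agent.P032X.Cert.X3.t1 (Vale.Agent.P032.Fam.fam3 Vale.Agent.P032.Fam.im0) WQ006.W174 := ⟨[0, 8, 16, 24, 32, 40, 48, 4, 12, 20, 28, 36, 44, 52, 60, 68, 76, 84, 92, 100, 108, 116, 124, 132, 140, 148, 156, 164, 172, 180, 188, 130023681, 97619353, 2424838, 2949126],
  Vale.Agent.P032.Lt.q_of (e' := WQ006.e174) (by decide +kernel) WQ006.q174⟩

theorem w175 : Wx (EX xs7) Vale.Agent.P032X.Cert.X3.t1 (Vale.Agent.P032.Fam.fam3 Vale.Agent.P032.Fam.im0) WQ006.W175 := ⟨[0, 8, 16, 24, 32, 40, 48, 4, 12, 20, 28, 36, 44, 52, 60, 68, 76, 84, 92, 100, 108, 116, 124, 132, 14388313],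
  Vale.Agent.P032.Lt.q_of (e' := WQ006.e175) (by decide +kernel) WQ006.q175⟩

theorem w176 : Wx (EX xs7) Vale.Agent.P032X.Cert.X3.t1 (Vale.Agent.P032.Fam.fam3 Vale.Agent.P032.Fam.im0) WQ007.W176 := ⟨[0, 8, 16, 24, 32, 40, 48, 4, 12, 20, 28, 36, 44, 52, 60, 68, 76, 84, 92, 100, 108, 110363137, 110363521],
  Vale.Agent.P032.Lt.q_of (e' := WQ007.e176) (by decide +kernel) WQ007.q176⟩

theorem w177 : Wx (EX xs7) Vale.Agent.P032X.Cert.X3.t1 (Vale.Agent.P032.Fam.fam3 Vale.Agent.P032.Fam.im0) WQ007.W177 := ⟨[0, 8, 16, 24, 32, 40, 48, 4, 12, 20, 28, 36, 44, 52, 60, 68, 76, 84, 92, 100, 108, 116, 124, 132, 140, 148, 156, 164, 20975713, 49221129, 36175873, 20319841, 2424838, 2949126],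
  Vale.Agent.P032.Lt.q_of (e' := WQ007.e177) (by decide +kernel) WQ007.q177⟩

theorem w178 : Wx (EX xs7) Vale.Agent.P032X.Cert.X3.t1 (Vale.Agent.P032.Fam.fam3 Vale.Agent.P032.Fam.im0) WQ007.W178 := ⟨[0, 8, 16, 24, 32, 40, 48, 4, 12, 20, 28, 36, 44, 52, 60, 68, 76, 84, 92, 100, 108, 116, 124, 132, 140, 148, 156, 164, 172, 127407169, 104992153, 70320129, 45485465, 112594329, 65831065, 26103193, 99385345, 18104473, 130024065],
  Vale.Agent.P032.Lt.q_of (e' := WQ007.e178) (by decide +kernel) WQ007.q178⟩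

theorem w179 : Wx (EX xs7) Vale.Agent.P032X.Cert.X3.t1 (Vale.Agent.P032.Fam.fam3 Vale.Agent.P032.Fam.im0) WQ007.W179 := ⟨[0, 8, 16, 24, 32, 40, 48, 4, 12, 20, 28, 36, 44, 52, 60, 68, 76, 84, 92, 100, 108, 116, 124, 132, 140, 148, 156, 164, 172, 180, 188, 105742401, 50188737, 50188353, 10489241, 10374553, 107085889, 127860993, 75825153, 6307841, 92799193, 31457497, 125832601, 62767105, 116297113, 127864473, 69732377, 91129505, 130023681, 69732249, 25695873, 1392646, 2424838, 2949126],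
  Vale.Agent.P032.Lt.q_of (e' := WQ007.e179) (by decide +kernel) WQ007.q179⟩

theorem w180 : Wx (EX xs7) Vale.Agent.P032X.Cert.X3.t1 (Vale.Agent.P032.Fam.fam3 Vale.Agent.P032.Fam.im0) WQ007.W180 := ⟨[0, 8, 16, 24, 32, 40, 48, 4, 12, 20, 28, 36, 44, 52, 60, 68, 76, 84, 92, 100, 108, 116, 124, 132, 140, 148, 156, 164, 172, 180, 67371009, 17044321, 114232793, 97455577, 112103193, 12648449, 118030337, 76088833, 63897665, 80674817, 123535425, 48139737, 13565953, 58458113, 851974, 860166, 1376262, 2424838, 2949126],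
  Vale.Agent.P032.Lt.q_of (e' := WQ007.e180) (by decide +kernel) WQ007.q180⟩

theorem w181 : Wx (EX xs7) Vale.Agent.P032X.Cert.X3.t1 (Vale.Agent.P032.Fam.fam3 Vale.Agent.P032.Fam.im0) WQ007.W181 := ⟨[0, 8, 16, 24, 32, 40, 48, 4, 12, 20, 28, 36, 44, 52, 60, 68, 76, 84, 92, 100, 108, 116, 124, 132, 140, 148, 156, 164, 172, 180, 188, 196, 25661209, 102174553, 25657345, 58722337, 26627865, 8388673, 87556161],
  Vale.Agent.P032.Lt.q_of (e' := WQ007.e181) (by decide +kernel) WQ007.q181⟩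

theorem w182 : Wx (EX xs7) Vale.Agent.P032X.Cert.X3.t1 (Vale.Agent.P032.Fam.fam3 Vale.Agent.P032.Fam.im0) WQ007.W182 := ⟨[0, 8, 16, 24, 32, 40, 48, 4, 12, 20, 28, 36, 44, 52, 60, 68, 76, 84, 92, 100, 108, 116, 124, 132, 140, 148, 156, 164, 50188353, 10374553, 10488857, 50188737, 123731969, 116297113, 130023681, 107085889, 125832601, 1392646, 2424838, 2433030, 2949126],
  Vale.Agent.P032.Lt.q_of (e' := WQ007.e182) (by decide +kernel) WQ007.q182⟩

theorem w183 : Wx (EX xs7) Vale.Agent.P032X.Cert.X3.t1 (Vale.Agent.P032.Fam.fam3 Vale.Agent.P032.Fam.im0) WQ007.W183 := ⟨[0, 8, 16, 24, 32, 40, 48, 4, 12, 20, 28, 36, 44, 52, 60, 68, 76, 84, 92, 100, 108, 116, 124, 132, 140, 148, 156, 164, 75497537, 4521985, 527769, 114560793, 90441761, 30674625, 47448065, 97783361, 17633049, 64229273, 851974, 868358, 1392646, 2424838, 2433030, 2949126],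
  Vale.Agent.P032.Lt.q_of (e' := WQ007.e183) (by decide +kernel) WQ007.q183⟩

theorem w184 : Wx (EX xs7) Vale.Agent.P032X.Cert.X3.t1 (Vale.Agent.P032.Fam.fam3 Vale.Agent.P032.Fam.im0) WQ007.W184 := ⟨[0, 8, 16, 24, 32, 40, 48, 4, 12, 20, 28, 36, 44, 52, 60, 68, 76, 84, 92, 100, 108, 116, 124, 132, 140, 148, 156, 164, 172, 180, 89066905],
  Vale.Agent.P032.Lt.q_of (e' := WQ007.e184) (by decide +kernel) WQ007.q184⟩

theorem w185 : Wx (EX xs7) Vale.Agent.P032X.Cert.X3.t1 (Vale.Agent.P032.Fam.fam3 Vale.Agent.P032.Fam.im0) WQ007.W185 := ⟨[0, 8, 16, 24, 32, 40, 48, 4, 12, 20, 28, 36, 44, 52, 60, 68, 76, 84, 92, 100, 108, 116, 124, 132, 140, 148, 156, 164, 172, 180, 188, 196, 204, 122688129, 120061953, 3146009, 53510421, 121110681, 119439577, 52690945, 1376262, 2949126],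
  Vale.Agent.P032.Lt.q_of (e' := WQ007.e185) (by decide +kernel) WQ007.q185⟩

theorem w186 : Wx (EX xs7) Vale.Agent.P032X.Cert.X3.t1 (Vale.Agent.P032.Fam.fam3 Vale.Agent.P032.Fam.im0) WQ007.W186 := ⟨[0, 8, 16, 24, 32, 40, 48, 4, 12, 20, 28, 36, 44, 52, 60, 68, 76, 84, 92, 100, 108, 116, 124, 9060353, 96206849, 88872601, 2100753, 92802577, 36175937],
  Vale.Agent.P032.Lt.q_of (e' := WQ007.e186) (by decide +kernel) WQ007.q186⟩

theorem w187 : Wx (EX xs7) Vale.Agent.P032X.Cert.X3.t1 (Vale.Agent.P032.Fam.fam3 Vale.Agent.P032.Fam.im0) WQ007.W187 := ⟨[0, 8, 16, 24, 32, 40, 48, 4, 12, 20, 28, 36, 44, 52, 60, 68, 76, 84, 92, 100, 108, 116, 124, 132, 140, 148, 156, 164, 172, 180, 57413017, 124518401, 46399489, 100925441, 47202305, 36978689, 63455233, 3424257, 106823681, 25755649, 109641729, 36454401, 111214593, 61341697, 39718297, 103284801, 73272729, 79953921, 61341761, 6160449, 15466497, 127795201, 60686337, 33816577,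 2916353, 92864513, 851974, 1900550, 2949126],
  Vale.Agent.P032.Lt.q_of (e' := WQ007.e187) (by decide +kernel) WQ007.q187⟩

theorem w188 : Wx (EX xs7) Vale.Agent.P032X.Cert.X3.t1 (Vale.Agent.P032.Fam.fam3 Vale.Agent.P032.Fam.im0) WQ007.W188 := ⟨[0, 8, 16, 24, 32, 40, 48, 4, 12, 20, 28, 36, 44, 52, 60, 68, 76, 84, 92, 100, 108, 116, 124, 132, 140, 148, 156, 64225345, 124387737, 130318745, 17322189],
  Vale.Agent.P032.Lt.q_of (e' := WQ007.e188) (by decide +kernel) WQ007.q188⟩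

theorem w189 : Wx (EX xs7) Vale.Agent.P032X.Cert.X3.t1 (Vale.Agent.P032.Fam.fam3 Vale.Agent.P032.Fam.im0) WQ007.W189 := ⟨[0, 8, 16, 24, 32, 40, 48, 4, 12, 20, 28, 36, 44, 52, 60, 68, 76, 84, 92, 100, 108, 116, 124, 132, 140, 148, 156, 164, 172, 180, 188, 196, 204, 212, 220, 228, 236, 3964953, 2424838, 2949126],
  Vale.Agent.P032.Lt.q_of (e' := WQ007.e189) (by decide +kernel) WQ007.q189⟩

theorem w190 : Wx (EX xs7) Vale.Agent.P032X.Cert.X3.t1 (Vale.Agent.P032.Fam.fam3 Vale.Agent.P032.Fam.im0) WQ007.W190 := ⟨[0, 8, 16, 24, 32, 40, 48, 4, 12, 20, 28, 36, 44, 52, 60, 68, 76, 84, 92, 100, 108, 116, 124, 58002841, 41254913, 74812889, 130025625],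
  Vale.Agent.P032.Lt.q_of (e' := WQ007.e190) (by decide +kernel) WQ007.q190⟩

theorem w191 : Wx (EX xs7) Vale.Agent.P032X.Cert.X3.t1 (Vale.Agent.P032.Fam.fam3 Vale.Agent.P032.Fam.im0) WQ007.W191 := ⟨[0, 8, 16, 24, 32, 40, 48, 4, 12, 20, 28, 36, 44, 52, 60, 68, 76, 84, 92, 100, 108, 22315009, 42237953, 106201089, 109346817],
  Vale.Agent.P032.Lt.q_of (e' := WQ007.e191) (by decide +kernel) WQ007.q191⟩

theorem w192 : Wx (EX xs7) Vale.Agent.P032X.Cert.X3.t1 (Vale.Agent.P032.Fam.fam3 Vale.Agent.P032.Fam.im0) WQ007.W192 := ⟨[0, 8, 16, 24, 32, 40, 48, 4, 12, 20, 28, 36, 44, 52, 60, 68, 76, 84, 92, 100, 108, 116, 124, 132, 140, 148, 59834369, 118554625, 106004697, 51445977, 22118617, 53035009, 89227265, 129662977, 93388801, 8028377, 9502721, 13730009, 38895833, 122748929, 122781697, 80806105, 38862849, 52297729, 55672833, 5308417, 76611585, 85000193, 26279937, 126943233, 892934, 1900550, 2424838],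
  Vale.Agent.P032.Lt.q_of (e' := WQ007.e192) (by decide +kernel) WQ007.q192⟩

theorem w193 : Wx (EX xs7) Vale.Agent.P032X.Cert.X3.t1 (Vale.Agent.P032.Fam.fam3 Vale.Agent.P032.Fam.im0) WQ007.W193 := ⟨[0, 8, 16, 24, 32, 40, 48, 4, 12, 20, 28, 36, 44, 52, 60, 68, 76, 84, 92, 100, 108, 65572249, 68717977, 29773209, 99880345, 132681113, 32014337, 1609113, 99123201, 82706433, 102268929, 35160065, 18386329],
  Vale.Agent.P032.Lt.q_of (e' := WQ007.e193) (by decide +kernel) WQ007.q193⟩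

theorem w194 : Wx (EX xs7) Vale.Agent.P032X.Cert.X3.t1 (Vale.Agent.P032.Fam.fam3 Vale.Agent.P032.Fam.im0) WQ007.W194 := ⟨[0, 8, 16, 24, 32, 40, 48, 4, 12, 20, 28, 36, 44, 52, 60, 68, 76, 84, 92, 100, 108, 116, 124, 132, 140, 148, 786433, 65031641, 34619393, 116654081, 66325977, 32768001, 15745025, 106430465, 1064961, 56098817, 9175041, 84672513, 89653249, 123207681, 83099649, 47710209, 49299457, 81268185, 114822617, 49545217, 65028097, 99880409, 14159321, 34344409, 98041857, 14155777, 30932993, 101453273, 106434009, 17567193, 51644481, 67895297, 17563649, 39323481, 67898841, 39323713, 133435097, 51644249, 32525785, 22546497, 133431489, 64487425, 32522241, 22546265, 116657625, 34622937, 1068505, 56102361, 89656793, 9178585, 123211225, 84676057, 66322433, 32771545, 81264641, 114819073, 83103193, 49303001, 47713753, 15748569, 49548377, 34340865, 30936537, 99876865],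
  Vale.Agent.P032.Lt.q_of (e' := WQ007.e194) (by decide +kernel) WQ007.q194⟩

theorem w195 : Wx (EX xs7) Vale.Agent.P032X.Cert.X3.t1 (Vale.Agent.P032.Fam.fam3 Vale.Agent.P032.Fam.im0) WQ007.W195 := ⟨[0, 8, 16, 24, 32, 40, 48, 4, 12, 20, 28, 36, 44, 52, 60, 68, 76, 84, 92, 100, 108, 116, 124, 132, 140, 148, 156, 164, 20709785, 125960665, 31457921, 15876505, 8683929, 56426497, 75792449, 115081281],
  Vale.Agent.P032.Lt.q_of (e' := WQ007.e195) (by decide +kernel) WQ007.q195⟩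

theorem w196 : Wx (EX xs7) Vale.Agent.P032X.Cert.X3.t1 (Vale.Agent.P032.Fam.fam3 Vale.Agent.P032.Fam.im0) WQ007.W196 := ⟨[0, 8, 16, 24, 32, 40, 48, 4, 12, 20, 28, 36, 44, 52, 60, 68, 76, 84, 92, 100, 108, 116, 124, 132, 140, 77922305, 112263169, 28377089, 11927553, 99090497, 25018369, 125832601, 86245529],
  Vale.Agent.P032.Lt.q_of (e' := WQ007.e196) (by decide +kernel) WQ007.q196⟩

theorem w197 : Wx (EX xs7) Vale.Agent.P032X.Cert.X3.t1 (Vale.Agent.P032.Fam.fam3 Vale.Agent.P032.Fam.im0) WQ007.W197 := ⟨[0, 8, 16, 24, 32, 40, 48, 4, 12, 20, 28, 36, 44, 52, 60, 68, 76, 84, 92, 100, 108, 116, 124, 132, 140, 148, 25661209, 68026369, 50188737, 40173569, 34472257, 88874065, 20975385, 133562369, 34471937],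
  Vale.Agent.P032.Lt.q_of (e' := WQ007.e197) (by decide +kernel) WQ007.q197⟩

theorem w198 : Wx (EX xs7) Vale.Agent.P032X.Cert.X3.t1 (Vale.Agent.P032.Fam.fam3 Vale.Agent.P032.Fam.im0) WQ007.W198 := ⟨[0, 8, 16, 24, 32, 40, 48, 4, 12, 20, 28, 36, 44, 52, 60, 68, 76, 84, 92, 100, 108, 116, 124, 132, 140, 148, 156, 164, 129767693, 91128601, 860166, 2424838, 2433030, 2949126],
  Vale.Agent.P032.Lt.q_of (e' := WQ007.e198) (by decide +kernel) WQ007.q198⟩

theorem w199 : Wx (EX xs7) Vale.Agent.P032X.Cert.X3.t1 (Vale.Agent.P032.Fam.fam3 Vale.Agent.P032.Fam.im0) WQ007.W199 := ⟨[0, 8, 16, 24, 32, 40, 48, 4, 12, 20, 28, 36, 44, 52, 60, 68, 76, 84, 92, 100, 108, 116, 124, 132, 140, 148, 156, 164, 172, 180, 188, 196, 204, 212, 220, 228, 236, 244, 252, 260, 96639617, 73924609, 73931329, 3538945, 4194881, 50188353, 96763905, 21463041, 4685825, 107285661, 133107097, 42729473, 79695641, 13074433, 71307225, 130973697, 50151553,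 40173569, 20975385, 119115545, 38240257, 50694209, 46628865, 110952449, 94699521, 110329857, 27820033, 25661209, 56639489, 21469761, 71008257, 110657537, 16613377, 36143105, 27590657, 27066369, 121339905, 12288001, 43220993, 97910785, 20480001, 131465217, 64356353, 23396353, 56950785, 121307137, 2588673, 29851649, 33375553, 87588865, 860166, 2424838, 2949126],
  Vale.Agent.P032.Lt.q_of (e' := WQ007.e199) (by decide +kernel) WQ007.q199⟩

def L : List (List ℕ) := [WQ004.W100, WQ004.W101, WQ004.W102, WQ004.W103, WQ004.W104, WQ004.W105, WQ004.W106, WQ004.W107, WQ004.W108, WQ004.W109, WQ004.W110, WQ004.W111, WQ004.W112, WQ004.W113, WQ004.W114, WQ004.W115, WQ004.W116, WQ004.W117, WQ004.W118, WQ004.W119, WQ004.W120, WQ004.W121, WQ004.W122, WQ004.W123, WQ004.W124, WQ004.W125, WQ004.W126, WQ004.W127, WQ004.W128, WQ004.W129, WQ004.W130, WQ004.W131, WQ004.W132, WQ004.W133, WQ005.W134, WQ005.W135, WQ005.W136, WQ005.W137,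 WQ005.W138, WQ005.W139, WQ005.W140, WQ005.W141, WQ005.W142, WQ005.W143, WQ005.W144, WQ005.W145, WQ005.W146, WQ005.W147, WQ005.W148, WQ005.W149, WQ005.W150, WQ006.W151, WQ006.W152, WQ006.W153, WQ006.W154, WQ006.W155, WQ006.W156, WQ006.W157, WQ006.W158, WQ006.W159, WQ006.W160, WQ006.W161, WQ006.W162, WQ006.W163, WQ006.W164, WQ006.W165, WQ006.W166, WQ006.W167, WQ006.W168, WQ006.W169, WQ006.W170, WQ006.W171, WQ006.W172, WQ006.W173, WQ006.W174, WQ006.W175, WQ007.W176, WQ007.W177, WQ007.W178, WQ007.W179, WQ007.W180, WQ007.W181, WQ007.W182, WQ007.W183, WQ007.W184, WQ007.W185, WQ007.W186, WQ007.W187, WQ007.W188, WQ007.W189, WQ007.W190, WQ007.W191, WQ007.W192, WQ007.W193, WQ007.W194, WQ007.W195, WQ007.W196, WQ007.W197, WQ007.W198, WQ007.W199]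

theorem all : ∀ P ∈ L, Wx (EX xs7) Vale.Agent.P032X.Cert.X3.t1 (Vale.Agent.P032.Fam.fam3 Vale.Agent.P032.Fam.im0) P := wx_cons w100 (wx_cons w101 (wx_cons w102 (wx_cons w103 (wx_cons w104 (wx_cons w105 (wx_cons w106 (wx_cons w107 (wx_cons w108 (wx_cons w109 (wx_cons w110 (wx_cons w111 (wx_cons w112 (wx_cons w113 (wx_cons w114 (wx_cons w115 (wx_cons w116 (wx_cons w117 (wx_cons w118 (wx_cons w119 (wx_cons w120 (wx_cons w121 (wx_cons w122 (wx_cons w123 (wx_cons w124 (wx_cons w125 (wx_cons w126 (wx_cons w127 (wx_cons w128 (wx_cons w129 (wx_cons w130 (wx_cons w131 (wx_cons w132 (wx_cons w133 (wx_cons w134 (wx_cons w135 (wx_cons w136 (wx_cons w137 (wx_cons w138 (wx_cons w139 (wx_cons w140 (wx_cons w141 (wx_cons w142 (wx_cons w143 (wx_cons w144 (wx_cons w145 (wx_cons w146 (wx_cons w147 (wx_cons w148 (wx_cons w149 (wx_cons w150 (wx_cons w151 (wx_cons w152 (wx_cons w153 (wx_cons w154 (wx_cons w155 (wx_cons w156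 (wx_cons w157 (wx_cons w158 (wx_cons w159 (wx_cons w160 (wx_cons w161 (wx_cons w162 (wx_cons w163 (wx_cons w164 (wx_cons w165 (wx_cons w166 (wx_cons w167 (wx_cons w168 (wx_cons w169 (wx_cons w170 (wx_cons w171 (wx_cons w172 (wx_cons w173 (wx_cons w174 (wx_cons w175 (wx_cons w176 (wx_cons w177 (wx_cons w178 (wx_cons w179 (wx_cons w180 (wx_cons w181 (wx_cons w182 (wx_cons w183 (wx_cons w184 (wx_cons w185 (wx_cons w186 (wx_cons w187 (wx_cons w188 (wx_cons w189 (wx_cons w190 (wx_cons w191 (wx_cons w192 (wx_cons w193 (wx_cons w194 (wx_cons w195 (wx_cons w196 (wx_cons w197 (wx_cons w198 (wx_cons w199 wx_nil)))))))))))))))))))))))))))))))))))))))))))))))))))))))))))))))))))))))))))))))))))))))))))))))))))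

theorem ch : chT 73 73 TCm Vale.Agent.P032X.Cert.X3.W1.sW_001 L = true := by decide +kernel

end Vale.Agent.P032X.Cert.X3.W1.WH001
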